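import Crest.Agent.N265.N.Push
import Crest.Agent.N265.Br.Surf

/-!
# Row 265, layer N, task N-VAL: sections of `O(m)` on the surface `Sg` as functions on the cone
-/

set_option autoImplicit false
noncomputable section
open MvPolynomial Module

namespace Crest.Agent.N265.N
open Crest.Agent.R274.SkDefs_474 Crest.Agent.R274.SnapB_99 Br
variable (Sg : Surf) (b : ℕ)

theorem base_S : Base (Sg.S b) b :=
  ⟨rfl, Sg.S_ttriv b, fun z hz => ((Sg.S_sm b z hz).2).le⟩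
/-- `H⁰(O(m))` inside the function field -/
abbrev SA (m : ℕ) : Submodule ℂ Sg.F := Sec Sg.V.T (m • Sg.V.h)
theorem exists_evS (m : ℕ) : ∃ ev : SA Sg m →ₗ[ℂ] ((Sg.S b).pts → ℂ), ∀ (f : SA Sg m) (r : R),
    Hmg (m • eB b) r → aeval (Sg.T b) r = f.1 → ∀ z, ev f z = eval z.1 r := by
  choose ρ h1 _ h2 using fun f : SA Sg m => Sg.exists_hmg b f.2
  have key : ∀ (f : SA Sg m) (r : R), Hmg (m • eB b) r → aeval (Sg.T b) r = f.1 →
      ∀ z : (Sg.S b).pts, eval z.1 (ρ f) = eval z.1 r := fun f r hr e z => by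
    have := (Sg.mem_I_hmg ((h1 f).sub hr)).2 (by rw [map_sub, h2, e, sub_self]) z.1 z.2
    rwa [map_sub, sub_eq_zero] at this
  refine ⟨{ toFun := fun f z => eval z.1 (ρ f), map_add' := fun f g => funext fun z => ?_
            map_smul' := fun c f => funext fun z => ?_ }, key⟩
  · rw [key (f + g) _ ((h1 f).add (h1 g)) (by rw [map_add, h2, h2]; rfl), map_add]; rfl
  · rw [key (c • f) (C c * ρ f) (by simpa using (Hmg.C c).mul (h1 f))
      (by rw [map_mul, h2, aeval_C, ← Algebra.smul_def]; rfl), map_mul, eval_C]; rfl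
/-- the value of a section at the points of the cone -/
def evS (m : ℕ) : SA Sg m →ₗ[ℂ] ((Sg.S b).pts → ℂ) := (exists_evS Sg b m).choose
theorem evS_spec {m : ℕ} (f : SA Sg m) {r : R} (hr : Hmg (m • eB b) r)
    (e : aeval (Sg.T b) r = f.1) (z : (Sg.S b).pts) : evS Sg b m f z = eval z.1 r :=
  (exists_evS Sg b m).choose_spec f r hr e z
theorem isSecM_evS (m : ℕ) : IsSecM (Sg.S b) b m (evS Sg b m) := by
  refine ⟨(injective_iff_map_eq_zero _).2 fun f hf => ?_, le_antisymm ?_ ?_⟩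
  · obtain ⟨r, hr, -, e⟩ := Sg.exists_hmg b f.2
    refine Subtype.ext (e.symm.trans ((Sg.mem_I_hmg hr).1 fun z hz => ?_))
    exact (evS_spec Sg b f hr e ⟨z, hz⟩).symm.trans (congrFun hf _)
  · rintro _ ⟨f, rfl⟩
    obtain ⟨r, hr, -, e⟩ := Sg.exists_hmg b f.2
    exact ⟨r, by rwa [natCast_zsmul], evS_spec Sg b f hr e⟩
  · intro f hf
    obtain ⟨r, hr, e⟩ := mem_Fn.1 hf
    rw [natCast_zsmul] at hr
    refine ⟨⟨_, Sg.aeval_mem b hr⟩, _root_.funext fun z => ?_⟩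
    rw [e z]
    exact evS_spec Sg b _ hr rfl z
instance (m : ℕ) : FiniteDimensional ℂ (SA Sg m) :=
  have : FiniteDimensional ℂ (LinearMap.range (evS Sg 0 m)) := by
    rw [(isSecM_evS Sg 0 m).range]; infer_instance
  (LinearEquiv.ofInjective _ (isSecM_evS Sg 0 m).inj).symm.finiteDimensional
theorem SA_mul {m n : ℕ} {f g : Sg.F} (hf : f ∈ SA Sg m) (hg : g ∈ SA Sg n) :
    f * g ∈ SA Sg (m + n) := by
  obtain ⟨p, hp, rfl⟩ := (Sg.gen m f).1 hf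
  obtain ⟨q, hq, rfl⟩ := (Sg.gen n g).1 hg
  exact (Sg.gen _ _).2 ⟨p * q, hp.mul hq, map_mul _ _ _⟩
theorem one_mem_SA : (1 : Sg.F) ∈ SA Sg 0 :=
  (Sg.gen 0 1).2 ⟨1, isHomogeneous_one _ _, map_one _⟩
theorem SA_succ (m : ℕ) : SA Sg (m + 1) = SA Sg 1 * SA Sg m := by
  refine le_antisymm (fun f hf => ?_)
    (Submodule.mul_le.2 fun f hf g hg => add_comm 1 m ▸ SA_mul Sg hf hg)
  obtain ⟨p, hp, rfl⟩ := (Sg.gen _ f).1 hf
  have h1 : aeval Sg.t ((m + 1) • p) ∈ SA Sg 1 * SA Sg m := by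
    rw [← hp.sum_X_mul_pderiv, map_sum]
    refine sum_mem fun i _ => ?_
    rw [map_mul]
    exact Submodule.mul_mem_mul ((Sg.gen _ _).2 ⟨_, isHomogeneous_X _ _, rfl⟩)
      ((Sg.gen _ _).2 ⟨_, hp.pderiv, rfl⟩)
  rw [map_nsmul, ← Nat.cast_smul_eq_nsmul ℂ] at h1
  exact (Submodule.smul_mem_iff _ (Nat.cast_ne_zero.2 m.succ_ne_zero)).1 h1
theorem evS_mul {m n k : ℕ} (f : SA Sg m) (g : SA Sg n) (h : SA Sg k) (hk : k = m + n)
    (e : h.1 = f.1 * g.1) : evS Sg b k h = evS Sg b m f * evS Sg b n g := by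
  subst hk
  obtain ⟨r, hr, -, e1⟩ := Sg.exists_hmg b f.2
  obtain ⟨s, hs, -, e2⟩ := Sg.exists_hmg b g.2
  funext z
  rw [Pi.mul_apply, evS_spec Sg b f hr e1, evS_spec Sg b g hs e2, ← map_mul]
  exact evS_spec Sg b h (add_smul m n (eB b) ▸ hr.mul hs) (by rw [map_mul, e1, e2, e]) z
/-- evaluation at a point, extended by zero outside the cone -/
def evP (m : ℕ) (z : Pt) : SA Sg m →ₗ[ℂ] ℂ := by
  classical exact if h : z ∈ (Sg.S b).pts then LinearMap.proj ⟨z, h⟩ ∘ₗ evS Sg b m else 0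
theorem evP_eq (m : ℕ) (z : (Sg.S b).pts) :
    evP Sg b m z.1 = LinearMap.proj z ∘ₗ evS Sg b m := by simp [evP, z.2]
/-- evaluation is a map `H⁰(O(m)) ⊗ O → O(m)` -/
theorem isRM_evP (m : ℕ) :
    IsRM (Sg.S b) (GV.triv (SA Sg m)) (GV.line (m • eB b)) (evP Sg b m) := by
  refine IsRM.mk' (fun f => ?_) fun x hx f => ?_
  · obtain ⟨r, hr, -, e⟩ := Sg.exists_hmg b f.2
    refine Alg.regV_scalar.2 ⟨r, fun z => ?_⟩
    exact (LinearMap.congr_fun (evP_eq Sg b m z) f).trans (evS_spec Sg b f hr e z)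
  · obtain ⟨r, hr, -, e⟩ := Sg.exists_hmg b f.2
    rw [evP_eq Sg b m ⟨x, hx⟩, evP_eq Sg b m ⟨_, (Sg.S b).inv x hx⟩]
    refine (evS_spec Sg b f hr e _).trans ((hr.eval_gpt x).trans ?_)
    exact congrArg (chi _ * ·) (evS_spec Sg b f hr e ⟨x, hx⟩).symm
theorem evP_surj (m : ℕ) {z : Pt} (hz : z ∈ (Sg.S b).pts) : Function.Surjective (evP Sg b m z) := by
  obtain ⟨v, hv, h0⟩ := (Sg.S b).rel z hz b (Finset.mem_singleton_self b)
  have hr : Hmg (m • eB b) (X v ^ m) := vdeg_eq ⟨hv, Sg.S_ttriv b z hz v h0⟩ ▸ (Hmg.X v).pow m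
  have e : evP Sg b m z ⟨_, Sg.aeval_mem b hr⟩ = z v ^ m := by
    rw [evP_eq Sg b m ⟨z, hz⟩]
    exact (evS_spec Sg b _ hr rfl _).trans (by simp)
  intro c
  refine ⟨(c / z v ^ m) • ⟨_, Sg.aeval_mem b hr⟩, ?_⟩
  rw [map_smul, e, smul_eq_mul, div_mul_cancel₀ _ (pow_ne_zero _ h0)]

end Crest.Agent.N265.N
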