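import Crest.Agent.N265.N.Dlt1
import Crest.Agent.N265.N.Val

/-!
# Row 265, layer N, task N-DLT: the class of a point of `Sg.S b` through `𝒱 ⊗ 𝔪_k → 𝔪_(k+1) → O`
-/

set_option autoImplicit false
noncomputable section
open MvPolynomial Module TensorProduct

namespace Crest.Agent.N265.N
open Alg GV Br _root_.Crest.Agent.N265.Pow
variable (Sg : Surf) (b : ℕ)

/-- forms of degree `k` that vanish at `z` -/
def mP (k : ℕ) (z : Pt) : Submodule ℂ (SA Sg k) := LinearMap.ker (evP Sg b k z)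
/-- multiplication of sections -/
def mulA (m n : ℕ) : SA Sg m →ₗ[ℂ] SA Sg n →ₗ[ℂ] SA Sg (n + m) :=
  LinearMap.mk₂ ℂ (fun f g => ⟨f.1 * g.1, by rw [add_comm]; exact SA_mul Sg f.2 g.2⟩)
    (fun _ _ _ => Subtype.ext (add_mul _ _ _)) (fun _ _ _ => Subtype.ext (smul_mul_assoc _ _ _))
    (fun _ _ _ => Subtype.ext (mul_add _ _ _)) (fun _ _ _ => Subtype.ext (mul_smul_comm _ _ _))
@[simp] lemma mulA_val {m n : ℕ} (f : SA Sg m) (g : SA Sg n) : (mulA Sg m n f g).1 = f.1 * g.1 := rfl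
/-- `A₁ ⊗ A_k → A_(k+1)` -/
def muA (k : ℕ) : SA Sg 1 ⊗[ℂ] SA Sg k →ₗ[ℂ] SA Sg (k + 1) := TensorProduct.lift (mulA Sg 1 k)
/-- `A₁ ⊗ A_k` -/
abbrev A1A (k : ℕ) : GV := (triv (SA Sg 1)).tens (triv (SA Sg k))
lemma nsmul_eB_mem (k : ℕ) : k • eB b ∈ DS (Sg.S b).B :=
  nsmul_mem (eB_mem (Finset.mem_singleton_self b)) k
lemma isAB_map_evP (k : ℕ) : IsAB (Sg.S b) (line (k • eB b)) fun z =>
    (⊤ : Submodule ℂ (SA Sg k)).map (evP Sg b k z) :=
  (IsAB.top (in_line (nsmul_eB_mem Sg b k))).congr fun _ hz =>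
    ((Submodule.map_top _).trans (LinearMap.range_eq_top.2 (evP_surj Sg b k hz))).symm
theorem isAB_mP (k : ℕ) : IsAB (Sg.S b) (triv (SA Sg k)) (mP Sg b k) :=
  ((IsAB.top (in_triv _)).ker_of_map (isRM_evP Sg b k) (isAB_map_evP Sg b k)).congr
    fun _ _ => top_inf_eq _
theorem finrank_mP (k : ℕ) {z : Pt} (hz : z ∈ (Sg.S b).pts) :
    finrank ℂ (mP Sg b k z) + 1 = finrank ℂ (SA Sg k) := by
  have := LinearMap.finrank_range_add_finrank_ker (evP Sg b k z)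
  rwa [LinearMap.range_eq_top.2 (evP_surj Sg b k hz), finrank_top, finrank_self, add_comm] at this
theorem kc_mP (k : ℕ) : kc (Sg.S b) (triv (SA Sg k)) (mP Sg b k) =
    (finrank ℂ (SA Sg k) : K (Sg.S b)) - lbK _ (k • eB b) := by
  have h := kc_map (IsAB.top (in_triv (SA Sg k))) (isRM_evP Sg b k) (isAB_map_evP Sg b k)
  have e1 : kc (Sg.S b) (line (k • eB b)) (fun z =>
      (⊤ : Submodule ℂ (SA Sg k)).map (evP Sg b k z)) = lbK _ (k • eB b) :=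
    (kc_congr fun _ hz => (Submodule.map_top _).trans
      (LinearMap.range_eq_top.2 (evP_surj Sg b k hz))).trans (kc_line (nsmul_eB_mem Sg b k))
  have e2 : kc (Sg.S b) (triv (SA Sg k)) (fun z => ⊤ ⊓ LinearMap.ker (evP Sg b k z)) =
      kc (Sg.S b) (triv (SA Sg k)) (mP Sg b k) := kc_congr fun _ _ => top_inf_eq _
  rw [kc_triv, finrank_top] at h
  rw [h, ← e1, ← e2, add_sub_cancel_right]
lemma evP_apply (m : ℕ) (z : (Sg.S b).pts) (f : SA Sg m) : evP Sg b m z.1 f = evS Sg b m f z :=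
  LinearMap.congr_fun (evP_eq Sg b m z) f
lemma mem_mP {m : ℕ} {z : (Sg.S b).pts} {f : SA Sg m} :
    f ∈ mP Sg b m z.1 ↔ evS Sg b m f z = 0 := by rw [← evP_apply]; rfl
lemma evS_mem {m : ℕ} (f : SA Sg m) : evS Sg b m f ∈ Fn (Sg.S b) b m :=
  (isSecM_evS Sg b m).range.le ⟨f, rfl⟩
lemma evS_fn {m : ℕ} (f : SA Sg m) : evS Sg b m f ∈ (Sg.S b).fn := Fn_le (evS_mem Sg b f)
lemma exists_evS_eq {m : ℕ} {f : (Sg.S b).pts → ℂ} (h : f ∈ Fn (Sg.S b) b m) :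
    ∃ g : SA Sg m, evS Sg b m g = f := (isSecM_evS Sg b m).range.ge h
lemma evS_mulA {m n : ℕ} (f : SA Sg m) (g : SA Sg n) :
    evS Sg b (n + m) (mulA Sg m n f g) = evS Sg b m f * evS Sg b n g :=
  evS_mul Sg b f g _ (add_comm _ _) rfl
@[simp] lemma muA_tmul {k : ℕ} (f : SA Sg 1) (g : SA Sg k) :
    muA Sg k (f ⊗ₜ g) = mulA Sg 1 k f g := rfl
lemma map_mP (m : ℕ) (z : (Sg.S b).pts) :
    (mP Sg b m z.1).map (evS Sg b m) = mFn (Sg.S b) b m z := by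
  refine le_antisymm ?_ fun f hf => ?_
  · rintro _ ⟨f, hf, rfl⟩
    exact ⟨evS_mem Sg b f, (mem_mP Sg b).1 hf⟩
  · obtain ⟨g, rfl⟩ := exists_evS_eq Sg b hf.1
    exact ⟨g, (mem_mP Sg b).2 hf.2, rfl⟩
lemma map_muA (k : ℕ) (P : Submodule ℂ (SA Sg 1)) (Q : Submodule ℂ (SA Sg k)) :
    ((tens P Q).map (muA Sg k)).map (evS Sg b (k + 1)) =
      P.map (evS Sg b 1) * Q.map (evS Sg b k) := by
  refine le_antisymm ?_ (Submodule.mul_le.2 ?_)
  · rw [← Submodule.map_comp, Submodule.map_le_iff_le_comap, tens_le]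
    intro v hv w hw
    rw [Submodule.mem_comap, LinearMap.comp_apply, muA_tmul, evS_mulA]
    exact Submodule.mul_mem_mul ⟨v, hv, rfl⟩ ⟨w, hw, rfl⟩
  · rintro _ ⟨v, hv, rfl⟩ _ ⟨w, hw, rfl⟩
    exact ⟨_, ⟨_, tmul_mem hv hw, rfl⟩, evS_mulA Sg b v w⟩
lemma finrank_map_evS {m : ℕ} (P : Submodule ℂ (SA Sg m)) :
    finrank ℂ (P.map (evS Sg b m)) = finrank ℂ P :=
  (Submodule.equivMapOfInjective _ (isSecM_evS Sg b m).inj P).finrank_eq.symm
/-- `V_z · A_k = 𝔪_(z, k+1)` -/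
theorem map_muA_top (k : ℕ) {z : Pt} (hz : z ∈ (Sg.S b).pts) :
    (tens (mP Sg b 1 z) ⊤).map (muA Sg k) = mP Sg b (k + 1) z := by
  refine Submodule.map_injective_of_injective (isSecM_evS Sg b (k + 1)).inj ?_
  rw [map_muA, map_mP Sg b 1 ⟨z, hz⟩, map_mP Sg b (k + 1) ⟨z, hz⟩, Submodule.map_top,
    (isSecM_evS Sg b k).range]
  exact mFn_succ (base_S Sg b) _ k
/-- `𝔪 / 𝔪²` has dimension two (large `k`: `exists_locGen`, or the generators of `S.I` have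
degree `≤ k + 1` and their differentials cut out the tangent space) -/
theorem exists_two (z : (Sg.S b).pts) : ∃ k₀ : ℕ, ∀ k ≥ k₀,
    finrank ℂ ((tens (mP Sg b 1 z.1) (mP Sg b k z.1)).map (muA Sg k)) + 2 =
      finrank ℂ (mP Sg b (k + 1) z.1) := by
  obtain ⟨k₀, h⟩ := exists_two_fn (base_S Sg b) (Sg.S_sm b) (Sg.S_irred b) z
  refine ⟨k₀, fun k hk => ?_⟩
  rw [← finrank_map_evS Sg b, ← finrank_map_evS Sg b (mP Sg b (k + 1) z.1), map_muA, map_mP,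
    map_mP, map_mP]
  exact h k hk

/-- the values at `z` of the regular sections of `𝒱 ⊗ 𝔪_(p,k)` that are killed by multiplication -/
def RR (k : ℕ) (p : Pt) : Pt → Submodule ℂ (A1A Sg k).V :=
  vals (Sg.S b) (regS _ _ ⊓ secs _ (fun z => tens (mP Sg b 1 z) (mP Sg b k p)) ⊓
    secs _ fun _ => LinearMap.ker (muA Sg k))
lemma RR_le (k : ℕ) (p : Pt) {z : Pt} (hz : z ∈ (Sg.S b).pts) :
    RR Sg b k p z ≤ tens (mP Sg b 1 z) (mP Sg b k p) ⊓ LinearMap.ker (muA Sg k) := fun v hv => by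
  obtain ⟨σ, hσ, rfl⟩ := (mem_vals (z := ⟨z, hz⟩)).1 hv
  exact ⟨hσ.1.2 ⟨z, hz⟩, hσ.2 ⟨z, hz⟩⟩
/-- the class of `𝔪_p (k + 1)` -/
def Pcl (k : ℕ) (p : Pt) : K (Sg.S b) :=
  (finrank ℂ (mP Sg b (k + 1) p) : K (Sg.S b)) -
    (kc _ (A1A Sg k) (fun z => tens (mP Sg b 1 z) (mP Sg b k p)) - kc _ (A1A Sg k) (RR Sg b k p))
/-- `k` is large enough for the point `p` -/
structure DltOK (k : ℕ) (p : (Sg.S b).pts) : Prop where
  pos : 1 ≤ k
  ab : IsAB (Sg.S b) (A1A Sg k) (RR Sg b k p.1)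
  rk : ∀ z ∈ (Sg.S b).pts, finrank ℂ (RR Sg b k p.1 z) + finrank ℂ (mP Sg b (k + 1) p.1) =
    finrank ℂ (tens (mP Sg b 1 z) (mP Sg b k p.1)) + 1
  two : finrank ℂ ((tens (mP Sg b 1 p.1) (mP Sg b k p.1)).map (muA Sg k)) + 2 =
    finrank ℂ (mP Sg b (k + 1) p.1)
  res : ∃ ρ ρ' : PtRes (Sg.S b) b p, (∀ i, ρ.C₀.deg i = 0) ∧ ρ'.cls = K.dual _ ρ.cls ∧
    ρ.cls = 1 - lbK _ (-((k + 1 : ℕ) • eB b)) * Pcl Sg b k p.1

namespace DL
variable {Sg b}
/-- `𝔪_(p, n)` inside the function field -/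
def MM (n : ℕ) (p : (Sg.S b).pts) : Submodule ℂ Sg.F := (mP Sg b n p.1).map (SA Sg n).subtype
lemma mul_MM {p : (Sg.S b).pts} {i n k : ℕ} (hk : k = n + i) {g f : Sg.F} (hg : g ∈ SA Sg i)
    (hf : f ∈ MM n p) : g * f ∈ MM k p := by
  obtain ⟨f, hf, rfl⟩ := hf
  subst hk
  refine ⟨mulA Sg i n ⟨g, hg⟩ f, (mem_mP Sg b).2 ?_, rfl⟩
  rw [evS_mulA, Pi.mul_apply, (mem_mP Sg b).1 hf, mul_zero]
lemma pow_mem_SA (l : SA Sg 1) (n : ℕ) : l.1 ^ n ∈ SA Sg n := by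
  induction n with
  | zero => rw [pow_zero]; exact one_mem_SA Sg
  | succ n ih => rw [pow_succ]; exact SA_mul Sg ih l.2
lemma exists_const (g : SA Sg 0) : ∃ c : ℂ, g.1 = algebraMap ℂ _ c ∧ ∀ y, evS Sg b 0 g y = c := by
  obtain ⟨c, hc⟩ := Fn_zero (base_S Sg b) (evS_mem Sg b g)
  have h0 : Hmg (0 • eB b) (C c : R) := by simpa using Hmg.C c
  have : g = ⟨_, Sg.aeval_mem b h0⟩ := (isSecM_evS Sg b 0).inj
    (hc.trans (funext fun y => ((evS_spec Sg b _ h0 rfl y).trans (eval_C _)).symm))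
  exact ⟨c, by rw [this]; exact aeval_C _ _, congrFun hc⟩
lemma muA_surj (k : ℕ) : Function.Surjective (muA Sg k) := fun f => by
  have : SA Sg 1 * SA Sg k ≤ (LinearMap.range (muA Sg k)).map (SA Sg (k + 1)).subtype :=
    Submodule.mul_le.2 fun g hg h hh => ⟨_, ⟨⟨g, hg⟩ ⊗ₜ ⟨h, hh⟩, rfl⟩, rfl⟩
  obtain ⟨_, ⟨t, rfl⟩, e⟩ := this ((SA_succ Sg k).le f.2)
  exact ⟨t, Subtype.ext e⟩
/-- the images of the regular sections of `𝒱 ⊗ 𝔪_(p,k)` -/
def TT (k : ℕ) (p : (Sg.S b).pts) : Submodule ℂ ((Sg.S b).pts → Sg.F) :=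
  (regS _ _ ⊓ secs _ fun z => tens (mP Sg b 1 z) (mP Sg b k p.1)).map
    (((SA Sg (k + 1)).subtype ∘ₗ muA Sg k).compLeft _)
variable {k : ℕ} {p : (Sg.S b).pts}
lemma smul_TT {f : (Sg.S b).pts → ℂ} (hf : f ∈ (Sg.S b).fn) {φ : (Sg.S b).pts → Sg.F}
    (h : φ ∈ TT k p) : (fun y => f y • φ y) ∈ TT k p := by
  obtain ⟨τ, hτ, rfl⟩ := h
  exact ⟨fun y => f y • τ y, ⟨RegV.smul (s := τ) hf hτ.1, fun y => Submodule.smul_mem _ _ (hτ.2 y)⟩,
    funext fun y => map_smul ((SA Sg (k + 1)).subtype ∘ₗ muA Sg k) (f y) (τ y)⟩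
lemma rel1 (l g : SA Sg 1) {f : Sg.F} (hf : f ∈ MM k p) :
    (fun y => evS Sg b 1 l y • (g.1 * f) - evS Sg b 1 g y • (l.1 * f)) ∈ TT k p := by
  obtain ⟨f, hf, rfl⟩ := hf
  refine ⟨fun y => (evS Sg b 1 l y • g - evS Sg b 1 g y • l) ⊗ₜ f, ⟨?_, fun y =>
    tmul_mem ((mem_mP Sg b).2 ?_) hf⟩, funext fun y => ?_⟩
  · exact (((RegV.const g).smul (evS_fn Sg b l)).sub ((RegV.const l).smul (evS_fn Sg b g))).map
      ((TensorProduct.mk ℂ _ _).flip f)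
  · simp [mul_comm]
  · change (evS Sg b 1 l y • g.1 - evS Sg b 1 g y • l.1) * f.1 = _
    simp [sub_mul]
lemma rel (l : SA Sg 1) (i : ℕ) : ∀ n, n + i = k + 1 → ∀ (g : SA Sg i), ∀ f ∈ MM n p,
    (fun y => evS Sg b 1 l y ^ i • (g.1 * f) - evS Sg b i g y • (l.1 ^ i * f)) ∈ TT k p := by
  induction i with
  | zero =>
    intro n _ g f _
    obtain ⟨c, h1, h2⟩ := exists_const (b := b) g
    convert zero_mem (TT k p) using 1
    funext y
    simp [h1, h2, Algebra.smul_def]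
  | succ i ih =>
    intro n hn g f hf
    obtain ⟨t, rfl⟩ := muA_surj i g
    induction t using TensorProduct.induction_on with
    | zero => convert zero_mem (TT k p) using 1; funext y; simp
    | add s t hs ht =>
      convert add_mem hs ht using 1
      funext y
      simp only [map_add, Submodule.coe_add, Pi.add_apply, add_mul, smul_add, add_smul]
      abel
    | tmul g g' =>
      convert add_mem (smul_TT (pow_mem (evS_fn Sg b l) i)
        (rel1 l g (mul_MM (k := k) (by omega) g'.2 hf))) (smul_TT (evS_fn Sg b g)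
          (ih (n + 1) (by omega) g' _ (mul_MM rfl l.2 hf))) using 1
      funext y
      simp only [muA_tmul, evS_mulA, mulA_val, Pi.add_apply, Pi.mul_apply, Pi.pow_apply,
        Algebra.smul_def, map_mul, map_pow]
      ring
section
variable {ι : Type} [Fintype ι] (v : Basis ι ℂ (mP Sg b 1 p.1))
/-- `s ↦ ∑ s_i ⊗ [a v_i]` -/
def Psi (a : Sg.F) : ((Sg.S b).pts → ι → ℂ) →ₗ[ℂ] ((Sg.S b).pts → Sg.F) :=
  (Fintype.linearCombination ℂ fun i => a * (v i).1.1).compLeft _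
/-- `s ↦ ∑ s_i v_i` -/
def Lm : ((Sg.S b).pts → ι → ℂ) →ₗ[ℂ] ((Sg.S b).pts → ℂ) where
  toFun s y := ∑ i, s y i * evS Sg b 1 (v i).1 y
  map_add' s t := by funext y; simp [add_mul, Finset.sum_add_distrib]
  map_smul' c s := by funext y; simp [Finset.mul_sum, mul_assoc]
lemma Psi_apply (a : Sg.F) (s : (Sg.S b).pts → ι → ℂ) (y : (Sg.S b).pts) :
    Psi v a s y = ∑ i, s y i • (a * (v i).1.1) := rfl
lemma Lm_apply (s : (Sg.S b).pts → ι → ℂ) (y : (Sg.S b).pts) :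
    Lm v s y = ∑ i, s y i * evS Sg b 1 (v i).1 y := rfl
/-- a syzygy of degree at most `k` is killed -/
lemma Psi_syz (l : SA Sg 1) {d : ℤ} (hd : d ≤ k) {t : (Sg.S b).pts → ι → ℂ}
    (ht : t ∈ Amb (Sg.S b) b (fun _ => 0) d) (h0 : Lm v t = 0) : Psi v (l.1 ^ k) t ∈ TT k p := by
  rcases lt_or_ge d 0 with h | h
  · have : t = 0 := funext fun y => funext fun i => congrFun
      ((Submodule.mem_bot ℂ).1 ((Fn_neg ((add_zero d).trans_lt h)).le (ht i))) y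
    rw [this, map_zero]; exact zero_mem _
  obtain ⟨n, rfl⟩ := Int.eq_ofNat_of_zero_le h
  obtain ⟨m, rfl⟩ := Nat.exists_eq_add_of_le (Int.ofNat_le.1 hd)
  choose g hg using fun i => exists_evS_eq Sg b (m := n) (add_zero (n : ℤ) ▸ ht i)
  have h1 : ∑ i, mulA Sg n 1 (g i) (v i).1 = 0 := (isSecM_evS Sg b _).inj (by
    rw [map_sum, map_zero, ← h0]
    funext y
    simp only [Finset.sum_apply, evS_mulA, hg, Lm_apply, Pi.mul_apply])
  have h2 : ∑ i, (g i).1 * (v i).1.1 = 0 := by simpa using congrArg Subtype.val h1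
  have h3 := neg_mem (sum_mem (t := Finset.univ) fun i _ => rel (k := n + m) l n (1 + m) (by omega)
    (g i) _ (mul_MM rfl (pow_mem_SA l m) ⟨(v i).1, (v i).2, rfl⟩))
  convert h3 using 1
  funext y
  simp only [Psi_apply, Pi.neg_apply, Finset.sum_apply, Finset.sum_sub_distrib, hg,
    Submodule.subtype_apply, ← Finset.smul_sum, mul_left_comm (g _).1, ← Finset.mul_sum, h2,
    mul_zero, smul_zero, zero_sub, neg_neg, pow_add, mul_assoc]
lemma exists_dec (l : SA Sg 1) (j : ℕ) {σ : SA Sg (k + 1) ⊗[ℂ] SA Sg j}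
    (hσ : σ ∈ tens (mP Sg b (k + 1) p.1) ⊤) : ∃ s ∈ Amb (Sg.S b) b (fun _ : ι => 0) (j + k : ℕ),
      Lm v s = evS Sg b _ (TensorProduct.lift (mulA Sg (k + 1) j) σ) ∧
      (fun y => evS Sg b 1 l y ^ k • (evT _ (evP Sg b j y.1) σ).1) - Psi v (l.1 ^ k) s ∈ TT k p := by
  let U : Submodule ℂ (SA Sg (k + 1) ⊗[ℂ] SA Sg j) :=
    { carrier := {σ | ∃ s ∈ Amb (Sg.S b) b (fun _ : ι => 0) (j + k : ℕ),
        Lm v s = evS Sg b _ (TensorProduct.lift (mulA Sg (k + 1) j) σ) ∧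
        (fun y => evS Sg b 1 l y ^ k • (evT _ (evP Sg b j y.1) σ).1) - Psi v (l.1 ^ k) s ∈ TT k p}
      zero_mem' := ⟨0, zero_mem _, by simp, by
        convert zero_mem (TT k p) using 1; funext y; simp⟩
      add_mem' := by
        rintro σ σ' ⟨s, h1, h2, h3⟩ ⟨s', h1', h2', h3'⟩
        refine ⟨s + s', add_mem h1 h1', by simp only [map_add, h2, h2'], ?_⟩
        convert add_mem h3 h3' using 1
        funext y
        simp only [map_add, Submodule.coe_add, Pi.add_apply, Pi.sub_apply, smul_add]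
        abel
      smul_mem' := by
        rintro c σ ⟨s, h1, h2, h3⟩
        refine ⟨c • s, Submodule.smul_mem _ _ h1, by simp only [map_smul, h2], ?_⟩
        convert Submodule.smul_mem _ c h3 using 1
        funext y
        simp only [map_smul, Submodule.coe_smul, Pi.smul_apply, Pi.sub_apply, smul_sub,
          smul_comm c] }
  refine (tens_le (N := U)).2 (fun f hf h _ => ?_) hσ
  rw [← map_muA_top Sg b k p.2] at hf
  refine (Submodule.map_le_iff_le_comap.2 (tens_le.2 fun w hw g _ => ?_) :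
    _ ≤ U.comap ((TensorProduct.mk ℂ _ _).flip h)) hf
  have e : ∑ i, v.repr ⟨w, hw⟩ i • (v i).1 = w := by
    have := congrArg (mP Sg b 1 p.1).subtype (v.sum_repr ⟨w, hw⟩)
    simpa only [map_sum, map_smul, Submodule.subtype_apply] using this
  refine ⟨fun y i => v.repr ⟨w, hw⟩ i * (evS Sg b j h y * evS Sg b k g y), fun i => ?_, ?_, ?_⟩
  · rw [add_zero, Nat.cast_add]
    exact Submodule.smul_mem _ _ (mul_mem_Fn (evS_mem Sg b h) (evS_mem Sg b g))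
  · funext y
    change _ = evS Sg b _ (mulA Sg (k + 1) j (mulA Sg 1 k w g) h) y
    rw [evS_mulA, evS_mulA, Lm_apply]
    conv_rhs => rw [← e]
    simp only [map_sum, map_smul, Pi.mul_apply, Finset.sum_apply, Pi.smul_apply, smul_eq_mul,
      Finset.sum_mul]
    exact Finset.sum_congr rfl fun i _ => by ring
  · convert smul_TT (evS_fn Sg b h) (rel l k 1 (add_comm _ _) g w.1 ⟨w, hw, rfl⟩) using 1
    funext y
    have e' : ∑ i, v.repr ⟨w, hw⟩ i • (v i).1.1 = w.1 := by simpa using congrArg Subtype.val e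
    change evS Sg b 1 l y ^ k • (evT _ (evP Sg b j y.1) (mulA Sg 1 k w g ⊗ₜ h)).1 - _ = _
    rw [evT_tmul, evP_apply, Psi_apply, Submodule.coe_smul, mulA_val, smul_sub, smul_comm,
      mul_comm w.1]
    congr 1
    conv_rhs => rw [← e']
    simp only [Finset.mul_sum, Finset.smul_sum, mul_smul_comm, smul_smul]
    exact Finset.sum_congr rfl fun i _ => by rw [mul_comm (v.repr _ i), mul_assoc]
end
end DL
open DL

/-- The key step. Let `Q` be `𝔪_(k+1) ⊗ O_z` modulo the image of `𝒱 ⊗ 𝔪_k`, `l(z) ≠ 0`. In `Q` one has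
`[g f ⊗ 1] = [l^j f ⊗ g / l^j]` for `g ∈ A_j`, `f ∈ 𝔪_(k+1-j)`. Hence `Q` is a quotient of
`V_p ⊗ O_z` by all syzygies of `V_p` with coefficients of degree `≤ k`; these generate all syzygies
for large `k` (`GSub.fg`). Stated for homogeneous `σ`, twisted by `l ^ n`. -/
theorem exists_syz_onto (p : (Sg.S b).pts) : ∃ k₀ : ℕ, ∀ k ≥ k₀, ∀ z : (Sg.S b).pts,
    ∀ (j : ℕ) (σ : SA Sg (k + 1) ⊗[ℂ] SA Sg j), σ ∈ tens (mP Sg b (k + 1) p.1) ⊤ →
      TensorProduct.lift (mulA Sg (k + 1) j) σ = 0 →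
      ∃ r ∈ (Sg.S b).fn, r z ≠ 0 ∧ ∃ τ : (Sg.S b).pts → (A1A Sg k).V, RegV (Sg.S b).fn τ ∧
        ∀ y, τ y ∈ tens (mP Sg b 1 y.1) (mP Sg b k p.1) ∧
          muA Sg k (τ y) = r y • evT _ (evP Sg b j y.1) σ := by
  obtain ⟨_, ⟨v⟩⟩ := exists_basis_sub (mP Sg b 1 p.1)
  obtain ⟨n, d, t, ht, hg⟩ := ((gsub_Amb (a := fun _ => 0)).inf_const (LinearMap.ker (Lm v))
    fun f _ s hs => funext fun y => by
      have := congrFun (LinearMap.mem_ker.1 hs) y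
      rw [Lm_apply] at this ⊢
      simp only [Pi.smul_apply', Pi.smul_apply, smul_eq_mul, mul_assoc, ← Finset.mul_sum, this,
        Pi.zero_apply, mul_zero]).fg (base_S Sg b)
  refine ⟨Finset.univ.sup fun c => (d c).toNat, fun k hk z j σ hσ h0 => ?_⟩
  obtain ⟨l', hl', h1⟩ := exists_lin_one (base_S Sg b) z
  obtain ⟨l, rfl⟩ := exists_evS_eq Sg b (m := 1) hl'
  obtain ⟨s, hs, e, hT⟩ := exists_dec v l j hσ
  rw [h0, map_zero] at e
  have h2 : Psi v (l.1 ^ k) s ∈ TT k p := by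
    refine (Submodule.span_le (p := (TT k p).comap (Psi v (l.1 ^ k)))).2 ?_ (hg _ ⟨hs, e⟩)
    rintro _ ⟨c, f, hf, rfl⟩
    have hc : (d c).toNat ≤ k :=
      (Finset.le_sup (f := fun c => (d c).toNat) (Finset.mem_univ c)).trans hk
    convert smul_TT (Fn_le hf) (Psi_syz v l (k := k) (by omega) (ht c).1 (ht c).2) using 1
    refine iff_of_eq (congrArg (· ∈ TT k p) (funext fun y => ?_))
    simp only [Psi_apply, Pi.smul_apply', Pi.smul_apply, smul_eq_mul, Finset.smul_sum, smul_smul]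
  obtain ⟨τ, hτ, e'⟩ := add_mem hT h2
  rw [sub_add_cancel] at e'
  exact ⟨evS Sg b 1 l ^ k, pow_mem (evS_fn Sg b l) k, by simp [h1], τ, hτ.1,
    fun y => ⟨hτ.2 y, Subtype.ext (congrFun e' y)⟩⟩
/-- `SyzD` for `g` = a basis of `𝔪_(p,k+1)` containing local parameters and `Φ` = multiplication
composed with a generating matrix of `𝒱 ⊗ 𝔪_(p,k)` twisted by `O(-k-1)` -/
theorem exists_dltOK (p : (Sg.S b).pts) : ∃ k₀ : ℕ, ∀ k ≥ k₀, DltOK Sg b k p := by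
  classical
  have hS := base_S Sg b
  have hsm := Sg.S_sm b
  have hi := Sg.S_irred b
  obtain ⟨k₁, h₁⟩ := exists_two Sg b p
  obtain ⟨k₂, h₂⟩ := exists_syz_onto Sg b p
  refine ⟨max (max k₁ k₂) 1, fun k hk => ?_⟩
  obtain ⟨x, hx, y, hy, hx0, hy0, hxy, hg⟩ := exists_locGen hS hsm p (d := (k + 1 : ℕ)) (by omega)
  obtain ⟨x, rfl⟩ := exists_evS_eq Sg b hx
  obtain ⟨y, rfl⟩ := exists_evS_eq Sg b hy
  obtain ⟨n, β, i₁, i₂, h12, e₁, e₂⟩ := exists_basis_pair (mP Sg b (k + 1) p.1)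
    (x := ⟨x, (mem_mP Sg b).2 hx0⟩) (y := ⟨y, (mem_mP Sg b).2 hy0⟩)
    (.of_comp (evS Sg b (k + 1) ∘ₗ (mP Sg b (k + 1) p.1).subtype) (by
      convert hxy using 1; funext i; fin_cases i <;> rfl))
  obtain ⟨c, hc, hc'⟩ := exists_coord β
  obtain ⟨e, he, he'⟩ := exists_proj (mP Sg b k p.1)
  obtain ⟨m, ⟨B⟩⟩ := exists_basis (SA Sg 1 ⊗[ℂ] (SA Sg 1 ⊗[ℂ] SA Sg k))
  choose g hg1 _ hg2 using fun i => Sg.exists_hmg b (β i).1.2
  have hg3 : ∀ i (z : (Sg.S b).pts), eval z.1 (g i) = evS Sg b _ (β i).1 z := fun i z =>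
    (evS_spec Sg b _ (hg1 i) (hg2 i) z).symm
  let δ : D := -(((k + 1 : ℕ) : ℤ) • eB b)
  have hδ : δ ∈ DS (Sg.S b).B := neg_mem (zsmul_mem (eB_mem (Finset.mem_singleton_self b)) _)
  have hδ' : δ - 1 • eB b ∈ DS (Sg.S b).B := sub_mem hδ (nsmul_eB_mem Sg b 1)
  let ψ : Pt → (Fin m → ℂ) →ₗ[ℂ] (A1A Sg k).V := fun z =>
    kz e (evP Sg b 1 z) ∘ₗ B.equivFun.symm.toLinearMap
  have hψ : IsRM (Sg.S b) (co fun _ : Fin m => δ - 1 • eB b) ((A1A Sg k).shift δ) ψ := by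
    refine IsRM.mk' ((regM_kz (isRM_evP Sg b 1).reg).comp_const _) fun z hz v => ?_
    have h1 : evP Sg b 1 (gpt z) = chi (1 • eB b) • evP Sg b 1 z :=
      LinearMap.ext fun f => (isRM_evP Sg b 1).eqv_apply hz f
    change kz e (evP Sg b 1 (gpt z)) (B.equivFun.symm (chi (δ - 1 • eB b) • v)) =
      chi δ • TensorProduct.congr (LinearEquiv.refl ℂ _) (LinearEquiv.refl ℂ _)
        (kz e (evP Sg b 1 z) (B.equivFun.symm v))
    rw [h1, kz_smul, map_smul, map_smul, smul_smul, ← chi_add, add_sub_cancel, congr_refl_refl,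
      LinearEquiv.refl_apply]
  have hψT : ∀ z v, ψ z v ∈ tens (mP Sg b 1 z) (mP Sg b k p.1) := fun z v => kz_mem he _
  have hψl : ∀ (z : (Sg.S b).pts) (l : SA Sg 1), ∀ t ∈ tens (mP Sg b 1 z.1) (mP Sg b k p.1),
      ψ z.1 (B.equivFun (l ⊗ₜ t)) = evS Sg b 1 l z • t := fun z l t ht => by
    rw [← evP_apply, ← kz_id he' l ht]
    exact congrArg (kz e _) (B.equivFun.symm_apply_apply _)
  have hl : ∀ z : (Sg.S b).pts, ∃ l : SA Sg 1, evS Sg b 1 l z = 1 := fun z => by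
    obtain ⟨l, hl⟩ := evP_surj Sg b 1 z.2 1
    exact ⟨l, (evP_apply Sg b 1 z l).symm.trans hl⟩
  have hμ : ∀ z, ∀ t ∈ tens (mP Sg b 1 z) (mP Sg b k p.1), muA Sg k t ∈ mP Sg b (k + 1) p.1 :=
    fun z => (tens_le (N := (mP Sg b (k + 1) p.1).comap (muA Sg k))).2 fun l _ f hf =>
      (mem_mP Sg b).2 (by rw [muA_tmul, evS_mulA, Pi.mul_apply, (mem_mP Sg b).1 hf, mul_zero])
  obtain ⟨Φ, hΦ, hΦ'⟩ := exists_mhmg (X := Sg.S b) (a := fun _ : Fin m => δ - 1 • eB b)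
    (b := fun _ : Fin n => δ) isEqv_top (φ := fun z => (c ∘ₗ muA Sg k) ∘ₗ ψ z.1)
    ((RegM.const _).comp hψ.reg) fun z v _ => by
      have := hψ.eqv_apply z.2 v
      change c (muA Sg k (ψ (gpt z.1) (gd _ v))) = chi δ • c (muA Sg k (ψ z.1 v))
      rw [← map_smul, ← map_smul]
      refine congrArg (fun t => c (muA Sg k t)) (this.trans ?_)
      exact congrArg (chi δ • ·) (LinearEquiv.congr_fun congr_refl_refl (ψ z.1 v))
  replace hΦ' : ∀ (z : (Sg.S b).pts) v, mev z.1 Φ v = c (muA Sg k (ψ z.1 v)) := fun z v =>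
    hΦ' z v trivial
  have hgc : ∀ (z : (Sg.S b).pts), ∀ f ∈ mP Sg b (k + 1) p.1,
      ∑ i, eval z.1 (g i) * c f i = evS Sg b _ f z := fun z f hf => by
    conv_rhs => rw [← hc f hf]
    simp only [map_sum, map_smul, Finset.sum_apply, Pi.smul_apply, smul_eq_mul, hg3, mul_comm]
  have H : SyzD (Sg.S b) b p (k + 1 : ℕ) (fun (_ : Unit) i => g i) (fun _ => δ - 1 • eB b) Φ
      i₁ i₂ := by
    refine ⟨fun _ i => by simpa only [zero_sub, neg_neg, natCast_zsmul] using hg1 i,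
      fun _ => ⟨hδ', by simp [δ, eB]⟩, hΦ, fun z hz v => funext fun _ => ?_,
      fun i => (hg3 i p).trans ((mem_mP Sg b).1 (β i).2), fun z hz ho => ?_, h12, ?_,
      fun z j σ hσ h0 => ?_⟩
    · rw [hΦ' ⟨z, hz⟩]
      refine (hgc ⟨z, hz⟩ _ (hμ z _ (hψT z v))).trans ((mem_mP Sg b (z := ⟨z, hz⟩)).1 ?_)
      exact (map_muA_top Sg b k hz).le ⟨_, tens_mono le_rfl le_top (hψT z v), rfl⟩
    · obtain ⟨u, hu⟩ := D0.exists_ne hS p
      obtain ⟨w, hw⟩ : ∃ w, p.1 u * z w ≠ p.1 w * z u :=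
        not_forall.1 fun h => ho _ (D0.smul_of_minors hu h)
      obtain ⟨v, hv⟩ := exists_evS_eq Sg b (m := 1) (sub_mem
        (Submodule.smul_mem _ (p.1 u) (X_mem_Fn hS w)) (Submodule.smul_mem _ (p.1 w) (X_mem_Fn hS u)))
      obtain ⟨f, hf⟩ := evP_surj Sg b k hz 1
      by_contra hn
      push Not at hn
      have := hgc ⟨z, hz⟩ (mulA Sg 1 k v f) ((mem_mP Sg b).2 (by
        rw [evS_mulA, Pi.mul_apply, hv]; simp [mul_comm]))
      rw [evS_mulA, Pi.mul_apply, hv, ← evP_apply, hf] at this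
      simp only [hn, zero_mul, Finset.sum_const_zero, mul_one] at this
      exact hw (sub_eq_zero.1 this.symm)
    · rw [funext (hg3 i₁), funext (hg3 i₂), e₁, e₂]; exact hg
    · rcases lt_or_ge (j + -((k + 1 : ℕ) : ℤ)) 0 with h | h
      · have : σ = 0 := funext fun y => funext fun i => congrFun
          ((Submodule.mem_bot ℂ).1 ((Fn_neg h).le (hσ i))) y
        exact ⟨1, one_mem _, one_ne_zero, 0, zero_mem _, RegV.zero, by simp [this]⟩
      obtain ⟨j', hj⟩ := Int.eq_ofNat_of_zero_le h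
      choose a ha using fun i => exists_evS_eq Sg b (m := j') (hj ▸ hσ i)
      obtain ⟨r, hr, hr0, τ, hτ, h3⟩ := h₂ k (by omega) z j' (∑ i, (β i).1 ⊗ₜ a i)
        (sum_mem fun i _ => tmul_mem (β i).2 trivial) ((isSecM_evS Sg b _).inj (funext fun y => by
          have := congrFun (D0.mem_ker_act.1 h0 y) ()
          rw [mev_apply] at this
          simpa only [map_sum, lift.tmul, evS_mulA, Finset.sum_apply, Pi.mul_apply, ha, ← hg3,
            map_zero, Pi.zero_apply] using this))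
      obtain ⟨l, hl1⟩ := hl z
      refine ⟨evS Sg b 1 l * r, mul_mem (evS_fn Sg b l) hr, by simpa [hl1] using hr0,
        fun y => B.equivFun (l ⊗ₜ τ y), fun _ => trivial,
        hτ.map (B.equivFun.toLinearMap ∘ₗ TensorProduct.mk ℂ _ _ l), funext fun y => ?_⟩
      rw [D0.act0, hΦ', hψl y l _ (h3 y).1, map_smul, (h3 y).2, map_sum, smul_smul, map_smul]
      simp only [evT_tmul, evP_apply, ha, hc']
      rfl
  have hT : IsAB (Sg.S b) (A1A Sg k) fun z => tens (mP Sg b 1 z) (mP Sg b k p.1) :=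
    (isAB_mP Sg b 1).tens (IsAB.const (in_triv _) (Submodule.map_id _))
  have hrg : ∀ z ∈ (Sg.S b).pts, (⊤ : Submodule ℂ _).map (ψ z) =
      tens (mP Sg b 1 z) (mP Sg b k p.1) := fun z hz => by
    refine le_antisymm (by rintro _ ⟨v, -, rfl⟩; exact hψT z v) fun t ht => ?_
    obtain ⟨l, hl1⟩ := hl ⟨z, hz⟩
    exact ⟨_, trivial, (hψl ⟨z, hz⟩ l t ht).trans (by rw [hl1, one_smul])⟩
  have htop := IsAB.top (X := Sg.S b) (in_co (deg := fun _ : Fin m => δ - 1 • eB b) fun _ => hδ')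
  have hM := (hT.shift hδ).congr fun z hz => (hrg z hz).symm
  have hK := htop.ker_of_map hψ hM
  have hker : ∀ z ∈ (Sg.S b).pts, SyzD.Rv (Sg.S b) Φ z ⊓ LinearMap.ker (ψ z) =
      ⊤ ⊓ LinearMap.ker (ψ z) := fun z hz => by
    refine le_antisymm (inf_le_inf_right _ le_top) fun v hv => ⟨?_, hv.2⟩
    obtain ⟨σ, h1, h2, h3⟩ := hK.gen ⟨z, hz⟩ v hv
    exact (SyzD.mem_Rv (z := ⟨z, hz⟩)).2 ⟨σ, ⟨h1, fun y => by
      rw [hΦ', LinearMap.mem_ker.1 (h2 y).2, map_zero, map_zero]⟩, h3⟩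
  have hmap : ∀ z ∈ (Sg.S b).pts, (SyzD.Rv (Sg.S b) Φ z).map (ψ z) = RR Sg b k p.1 z := by
    intro z hz
    refine le_antisymm ?_ fun t ht => ?_
    · rintro _ ⟨v, hv, rfl⟩
      obtain ⟨ρ, ⟨h1, h2⟩, rfl⟩ := (SyzD.mem_Rv (z := ⟨z, hz⟩)).1 hv
      refine (mem_vals (z := ⟨z, hz⟩)).2 ⟨fun y => ψ y.1 (ρ y), ⟨⟨hψ.reg.apply h1,
        fun y => hψT _ _⟩, fun y => ?_⟩, rfl⟩
      rw [LinearMap.mem_ker, ← hc _ (hμ _ _ (hψT y.1 (ρ y))), ← hΦ', h2]
      simp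
    · obtain ⟨τ, ⟨⟨h1, h2⟩, h3⟩, rfl⟩ := (mem_vals (z := ⟨z, hz⟩)).1 ht
      obtain ⟨l, hl1⟩ := hl ⟨z, hz⟩
      refine ⟨_, (SyzD.mem_Rv (z := ⟨z, hz⟩)).2 ⟨fun y => B.equivFun (l ⊗ₜ τ y),
        ⟨RegV.map (s := τ) (B.equivFun.toLinearMap ∘ₗ TensorProduct.mk ℂ _ _ l) h1, fun y => ?_⟩,
        rfl⟩, (hψl ⟨z, hz⟩ l _ (h2 _)).trans (by rw [hl1, one_smul])⟩
      rw [hΦ', hψl y l _ (h2 y), map_smul, LinearMap.mem_ker.1 (h3 y), smul_zero, map_zero]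
  have hRv := H.isAB_Rv hS hsm hi
  have hR' := hRv.map_of_ker (hT.shift hδ).hin hψ (hK.congr fun z hz => (hker z hz).symm)
  have hR : IsAB (Sg.S b) (A1A Sg k) (RR Sg b k p.1) := isAB_unshift (hR'.congr hmap) hT.hin
  have hn : finrank ℂ (mP Sg b (k + 1) p.1) = Fintype.card (Fin n) := finrank_eq_card_basis β
  refine ⟨by omega, hR, fun z hz => ?_, h₁ k (by omega), ?_⟩
  · have a1 := H.finrank_Rv hS hsm hi hz
    have a2 := Alg.finrank_map_add_inf_ker (SyzD.Rv (Sg.S b) Φ z) (ψ z)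
    have a3 := Alg.finrank_map_add_inf_ker (⊤ : Submodule ℂ (Fin m → ℂ)) (ψ z)
    rw [hmap z hz, hker z hz] at a2
    rw [hrg z hz, finrank_top, Module.finrank_fintype_fun_eq_card] at a3
    have key : ∀ a b c d e f g : ℕ, a + b = c + 1 → d + e = a → f + e = c → g = b →
        d + g = f + 1 := by omega
    exact key _ _ _ _ _ _ _ a1 a2 a3 hn
  · obtain ⟨ρ, h0, e0⟩ := H.exists_res hS hsm hi
    obtain ⟨ρ', e0'⟩ := H.exists_dual hS hsm hi
    refine ⟨ρ, ρ', h0, by rw [e0, e0'], ?_⟩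
    have a2 := (kc_map hRv hψ hR').trans (congrArg₂ (· + ·) (kc_congr hker)
      ((kc_congr (V := (A1A Sg k).shift δ) hmap).trans (kc_shift hR hδ)))
    have a3 := (kc_map htop hψ hM).trans (congrArg (_ + ·)
      ((kc_congr (V := (A1A Sg k).shift δ) hrg).trans (kc_shift hT hδ)))
    rw [e0, a2, a3, Pcl, hn, nsmul_eq_mul, ← natCast_zsmul (eB b) (k + 1)]
    change 1 - _ * lbK _ δ + _ = 1 - lbK _ δ * _
    ring

end Crest.Agent.N265.N
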