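import Crest.Agent.N265.K.AB4
import Crest.Agent.N265.V.Loc

/-!
# Row 265, layer N, task N-PBA: tangent classes, variation of annihilators
-/

set_option autoImplicit false
noncomputable section
open MvPolynomial Module

namespace Crest.Agent.N265.N
open Alg GV Bun
variable {X Y : Spc} {V W : GV}

namespace PBa
lemma extV_val (S : Finset Var) (u : S → ℂ) (v : S) : extV S u v.1 = u v := dif_pos v.2
lemma extV_res {S : Finset Var} (hS : X.Vars S) {x ξ : Pt} (hξ : ξ ∈ X.Tan x) :
    extV S (fun v : S => ξ v.1) = ξ := by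
  obtain ⟨u, rfl⟩ := hS.tan_le x hξ
  exact congrArg _ (funext fun v => extV_val S u v)
lemma mev_val {κ : Type} (x : Pt) (f : κ → Var) (S : Finset Var) (u : S → ℂ) :
    mev x (B0.dl f (Subtype.val : S → Var)) u = fun j => extV S u (f j) := by
  funext j
  by_cases h : f j ∈ S
  · exact (B0.mev_dl_of_eq x Subtype.val_injective u (i := ⟨f j, h⟩) rfl).trans
      (extV_val S u ⟨f j, h⟩).symm
  · exact (B0.mev_dl_of_ne x u fun i (e : f j = i.1) => h (e ▸ i.2)).trans (by simp [extV, h])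
lemma mev_ext {κ ι : Type} [Fintype ι] (x : Pt) (f : κ → Var) {y : ι → Var}
    (hy : Function.Injective y) (a : ι → ℂ) :
    mev x (B0.dl f y) a = fun j => Function.extend y a 0 (f j) := by
  funext j
  by_cases h : ∃ i, y i = f j
  · obtain ⟨i, hi⟩ := h
    rw [B0.mev_dl_of_eq x hy a hi.symm, ← hi, hy.extend_apply]
  · rw [B0.mev_dl_of_ne x a fun i e => h ⟨i, e.symm⟩, Function.extend_apply' _ _ _ h]
    rfl
lemma dAt_dir_zero (x : Pt) (r : R) : dAt x 0 r = 0 := by
  simpa using dAt_dir_smul x 0 0 r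
/-- the class of the tangent bundle does not depend on the choices -/
lemma kl_tan_eq {n m : ℕ} (h : X.Sm n) (h' : X.Sm m) {S S' : Finset Var} (hS : X.Vars S)
    (hS' : X.Vars S') : (Bun.tan X S hS n h).kl = (Bun.tan X S' hS' m h').kl := by
  refine kl_iso (B0.dl (Subtype.val : S' → Var) (Subtype.val : S → Var))
    (B0.mhmg_dl fun _ _ e => congrArg vdeg e) fun x _ => ⟨?_, ?_⟩
  · refine eq_bot_iff.2 fun (u : S → ℂ) hu => ?_
    have h1 : extV S u ∈ X.Tan x := hu.1
    have h2 : (fun v : S' => extV S u v.1) = 0 :=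
      (mev_val x (Subtype.val : S' → Var) S u).symm.trans hu.2
    have h3 := extV_res hS' h1
    rw [h2, map_zero] at h3
    exact funext fun v => (extV_val S u v).symm.trans (congrFun h3.symm v.1)
  · refine le_antisymm ?_ fun (u : S' → ℂ) hu => ?_
    · rintro _ ⟨u, hu, rfl⟩
      have h1 : extV S u ∈ X.Tan x := hu
      change extV S' (mev x (B0.dl (Subtype.val : S' → Var) (Subtype.val : S → Var)) u) ∈ X.Tan x
      rw [mev_val, extV_res hS' h1]
      exact h1
    · have h1 : extV S' u ∈ X.Tan x := hu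
      refine ⟨fun v : S => extV S' u v.1, ?_, (mev_val x _ S _).trans ?_⟩
      · change extV S (fun v : S => extV S' u v.1) ∈ X.Tan x
        rw [extV_res hS h1]
        exact h1
      · rw [extV_res hS h1]
        exact funext fun v => extV_val S' u v
end PBa
open PBa

/-- the cone tangent bundle of a projective bundle:
`0 → O(1) ⊗ A → TP → TX → 0` (`IsPSub.mem_tan`, `finrank_tan`) -/
theorem psub_kl_tan {P : Spc} {A : Bun X} {δ b y} (h : IsPSub P A δ b y) {n m : ℕ} (hX : X.Sm n)
    (hP : P.Sm m) {Vx Vp : Finset Var} (hVx : X.Vars Vx) (hVp : P.Vars Vp) :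
    (Bun.tan P Vp hVp m hP).kl =
      K.pull h.proj (Bun.tan X Vx hVx n hX).kl + lbK P (eB b - δ) * K.pull h.proj A.kl := by
  have hd : eB b - δ ∈ DS P.B := sub_mem h.b_mem (DS_mono h.proj.sub h.hδ)
  rw [K.pull_kl, K.pull_kl, ← kl_twist _ _ hd, add_comm]
  refine kl_ses ⟨B0.dl (Subtype.val : Vp → Var) y,
    B0.dl (Subtype.val : Vx → Var) (Subtype.val : Vp → Var),
    B0.mhmg_dl fun _ i e => (congrArg vdeg e).trans (h.vdeg_y i),
    B0.mhmg_dl fun _ _ e => congrArg vdeg e, fun z hz => ?_⟩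
  have hx := h.proj.map z hz
  have e0 : ∀ (a : A.ι → ℂ) (v : Var), v.1 ∈ X.B → Function.extend y a (0 : Pt) v = 0 :=
    fun a v hv => Function.extend_apply' _ _ _ (by rintro ⟨i, rfl⟩; exact h.notMem i hv)
  have e1 : ∀ a : A.ι → ℂ, restr X.B (Function.extend y a (0 : Pt)) = 0 := fun a =>
    funext fun v => by
      unfold restr
      split_ifs with hv
      · exact e0 a v hv
      · rfl
  have e2 : ∀ a ∈ A.L (restr X.B z), Function.extend y a (0 : Pt) ∈ P.Tan z := fun a ha => by
    refine (h.mem_tan hz).2 ⟨by rw [e1]; exact zero_mem _, fun v hv => Or.inr ?_, fun c hc => ?_⟩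
    · by_contra hn
      exact hv (Function.extend_apply' _ _ _ hn)
    · simp only [e1, dAt_dir_zero, zero_mul, zero_add, h.inj.extend_apply]
      exact hc _ hx a ha
  have k1 : A.L (restr X.B z) ⊓ LinearMap.ker (mev z (B0.dl (Subtype.val : Vp → Var) y)) = ⊥ := by
    refine eq_bot_iff.2 fun a ha => ?_
    have h2 := (mev_ext z (Subtype.val : Vp → Var) h.inj a).symm.trans ha.2
    have h3 := extV_res hVp (e2 a ha.1)
    rw [h2, map_zero] at h3
    exact funext fun i => (h.inj.extend_apply a (0 : Pt) i).symm.trans (congrFun h3.symm (y i))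
  have k2 : (A.L (restr X.B z)).map (mev z (B0.dl (Subtype.val : Vp → Var) y)) =
      (P.Tan z).comap (extV Vp) ⊓
        LinearMap.ker (mev z (B0.dl (Subtype.val : Vx → Var) (Subtype.val : Vp → Var))) := by
    refine le_antisymm ?_ fun u hu => ?_
    · rintro _ ⟨a, ha, rfl⟩
      have h3 := extV_res hVp (e2 a ha)
      rw [Submodule.mem_inf, Submodule.mem_comap, LinearMap.mem_ker, mev_val,
        mev_ext z _ h.inj, h3]
      exact ⟨e2 a ha, funext fun v => e0 a v.1 (hVx.1 _ v.2)⟩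
    · obtain ⟨h1, h2, h3⟩ := (h.mem_tan hz).1 (show extV Vp u ∈ P.Tan z from hu.1)
      have h4 := (mev_val z (Subtype.val : Vx → Var) Vp u).symm.trans hu.2
      have h5 : restr X.B (extV Vp u) = 0 := by
        rw [← extV_res hVx h1, ← map_zero (extV Vx), ← h4]
        exact congrArg _ (funext fun v => if_pos (hVx.1 _ v.2))
      refine ⟨fun i => extV Vp u (y i), ?_, (mev_ext z _ h.inj _).trans (funext fun v => ?_)⟩
      · rw [SetLike.mem_coe, ← perp_perp (A.L _)]
        intro a0 ha0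
        obtain ⟨c, rfl, hc⟩ := A.alg.cogen _ hx a0 ha0
        have h6 := h3 c hc
        simp only [h5, dAt_dir_zero, zero_mul, zero_add] at h6
        simpa only [mul_comm] using h6
      · by_cases hv : ∃ i, y i = v.1
        · obtain ⟨i, hi⟩ := hv
          rw [← extV_val Vp u v, ← hi, h.inj.extend_apply]
        · rw [Function.extend_apply' _ _ _ hv, ← extV_val Vp u v]
          by_contra hn
          have h7 := (h2 v.1 (Ne.symm hn)).resolve_right hv
          exact hn ((congrFun h5 v.1).symm.trans (if_pos h7))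
  refine ⟨k1, k2, ?_⟩
  change ((P.Tan z).comap (extV Vp)).map
    (mev z (B0.dl (Subtype.val : Vx → Var) (Subtype.val : Vp → Var))) =
      (X.Tan (restr X.B z)).comap (extV Vx)
  refine Submodule.eq_of_le_of_finrank_eq ?_ ?_
  · rintro _ ⟨u, hu, rfl⟩
    have h1 := ((h.mem_tan hz).1 (show extV Vp u ∈ P.Tan z from hu)).1
    rw [Submodule.mem_comap, mev_val,
      show (fun v : Vx => extV Vp u v.1) = fun v : Vx => restr X.B (extV Vp u) v.1 from
        funext fun v => (if_pos (hVx.1 _ v.2)).symm, extV_res hVx h1]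
    exact h1
  · have h1 := B0.finrank_split ((P.Tan z).comap (extV Vp))
      (mev z (B0.dl (Subtype.val : Vx → Var) (Subtype.val : Vp → Var)))
    rw [← k2, B0.finrank_map_of_inj k1, hVp.finrank_comap, h.finrank_tan hz] at h1
    rw [hVx.finrank_comap]
    omega
lemma exists_vars (X : Spc) : ∃ V, X.Vars V := X.fin
/-- the class of the cone tangent bundle (`0` if the space is not smooth of constant dimension) -/
def tanK (X : Spc) : K X := by
  classical exact if h : ∃ n, X.Sm n then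
    (Bun.tan X (exists_vars X).choose (exists_vars X).choose_spec _ h.choose_spec).kl else 0
theorem tanK_eq {n : ℕ} (h : X.Sm n) {Vx : Finset Var} (hV : X.Vars Vx) :
    tanK X = (Bun.tan X Vx hV n h).kl := by
  unfold tanK
  rw [dif_pos ⟨n, h⟩]
  exact kl_tan_eq _ _ _ _
theorem psub_tanK {P : Spc} {A : Bun X} {δ b y} (h : IsPSub P A δ b y) {n r : ℕ} (hX : X.Sm n)
    (hA : A.Rk r) : tanK P = K.pull h.proj (tanK X) + lbK P (eB b - δ) * K.pull h.proj A.kl := by
  obtain ⟨Vx, hVx⟩ := exists_vars X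
  obtain ⟨Vp, hVp⟩ := exists_vars P
  rw [tanK_eq (h.sm hX hA) hVp, tanK_eq hX hVx]
  exact psub_kl_tan h hX _ hVx hVp
/-- on the graph of a line bundle, the line bundle becomes `O(δ - e_b)` -/
lemma graph_pull_kl {P : Spc} {A : Bun X} {δ b y} (h : IsPSub P A δ b y) (hA : A.Rk 1) :
    K.pull h.proj A.kl = lbK P (δ - eB b) := by
  have := h.kl_quot (Bun.zero P) 0 (B0.mhmg_zero _ _) fun z hz => ⟨?_,
    Subsingleton.elim (α := Submodule ℂ (Empty → ℂ)) _ _⟩
  · rw [K.pull_kl, this, kl_zero, add_zero]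
  · obtain ⟨h1, h2, h3, -⟩ := (h.mem z).1 hz
    rw [B0.mev_zero, LinearMap.ker_zero, inf_top_eq]
    refine (Submodule.eq_of_le_of_finrank_eq ((Submodule.span_singleton_le_iff_mem _ _).2 h2)
      ?_).symm
    rw [finrank_span_singleton h3, hA _ h1]
theorem graph_tanK {P : Spc} {A : Bun X} {δ b y} (h : IsPSub P A δ b y) {n : ℕ} (hX : X.Sm n)
    (hA : A.Rk 1) : tanK P = K.pull h.proj (tanK X) + 1 := by
  rw [psub_tanK h hX hA, graph_pull_kl h hA, ← lbK_add, sub_add_sub_cancel, sub_self, lbK_zero]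

/-- the variation of the annihilator -/
lemma isVar_perp {T M : Type} [AddCommGroup M] [Module ℂ M] [FiniteDimensional ℂ M]
    {𝒜 : Subalgebra ℂ (T → ℂ)} {x₀ : T} {δ : (T → ℂ) →ₗ[ℂ] ℂ} (hδ : PDer 𝒜 x₀ δ)
    {L : T → Submodule ℂ M} (hL : Alg 𝒜 L) {a : M →ₗ[ℂ] M} (h : IsVar 𝒜 x₀ δ L a) :
    IsVar 𝒜 x₀ δ (fun x => (L x).dualAnnihilator) (-a.dualMap) := by
  intro σ hσ hm
  refine (Submodule.mem_dualAnnihilator _).2 fun v hv => ?_
  obtain ⟨τ, hτ, hs, rfl⟩ := hL.exists_section hv
  have e := hδ.dV_bilin (LinearMap.id : Dual ℂ M →ₗ[ℂ] M →ₗ[ℂ] ℂ) hσ hτ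
  rw [show (fun x => (LinearMap.id : Dual ℂ M →ₗ[ℂ] M →ₗ[ℂ] ℂ) (σ x) (τ x)) = fun _ => 0 from
    funext fun x => (Submodule.mem_dualAnnihilator _).1 (hm x) _ (hs x), dV_zero] at e
  have e' := (Submodule.mem_dualAnnihilator _).1 (hm x₀) _ (h τ hτ hs)
  simp only [LinearMap.id_apply, map_sub] at e e'
  simp only [LinearMap.sub_apply, LinearMap.neg_apply, LinearMap.dualMap_apply]
  linear_combination -e - e'

end Crest.Agent.N265.N
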