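import Crest.Agent.N265.Sp.Dim
import Crest.Agent.N265.Sp.Elim
import Crest.Agent.N265.K.AB1b

/-!
# Row 265, layer N, dimension induction, part 0 (helper83): abstract geometry

* `Spc.sm_of_conn` : connected + tangent bound + one point of the right dimension ⇒ smooth, irreducible;
* `Spc.exists_ldim_over` : a point of large dimension over every point of an irreducible base;
* `Spc.leLoc` : the closed locus `L x ≤ M x`;
* `conn_pencil` : a space that parametrises the hyperplanes `T ≤ H < U` is connected;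
* `sm_of_corr` : smoothness through a correspondence.
-/

set_option autoImplicit false
noncomputable section
open MvPolynomial Module

namespace Crest.Agent.N265
open Alg
variable {X Y N : Spc}

/-- Fogarty's argument -/
theorem Spc.sm_of_conn (hc : X.Conn) {n : ℕ} (ht : ∀ x ∈ X.pts, finrank ℂ (X.Tan x) ≤ n) {x₀ : Pt}
    (hx₀ : x₀ ∈ X.pts) (hd : (n : ℕ∞) ≤ X.ldim x₀) : X.Irred ∧ X.Sm n := by
  obtain ⟨P, hP, hxP, e⟩ := Jac.exists_comp_ldim hx₀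
  have hi := Jac.comp_irred X P hP
  have hl : ∀ z ∈ (Jac.comp X P hP).pts, (n : ℕ∞) ≤ (Jac.comp X P hP).ldim z := fun z hz => by
    rw [Jac.ldim_irred hi hz, Jac.comp_I, ← e]; exact hd
  obtain ⟨-, -, -, Z, hZ, hZ'⟩ := Jac.clopen_of_tan_le hi (Jac.comp_sub X P hP) fun z hz =>
    le_trans (by exact_mod_cast ht z hz.1) (hl z hz)
  have hX : X.pts ⊆ (Jac.comp X P hP).pts := by
    rcases hc.2 _ Z (Jac.comp_sub X P hP) hZ
      (fun y hy => by rw [hZ']; by_cases h1 : y ∈ (Jac.comp X P hP).pts <;> simp [h1, hy])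
      (by rw [hZ']; exact Set.disjoint_sdiff_right) with h1 | h1
    · rw [h1] at hxP; exact hxP.elim
    · rwa [hZ', Set.sdiff_eq_empty] at h1
  have e' : Jac.comp X P hP = X := Spc.ext rfl (Set.Subset.antisymm (Jac.comp_sub X P hP).2 hX)
  rw [e'] at hi hl
  exact ⟨hi, Spc.sm_of fun x hx => ⟨ht x hx, hl x hx⟩⟩

theorem Spc.exists_ldim_over (p : Proj N X) (hX : X.Irred)
    (hs : ∀ x ∈ X.pts, ∃ y ∈ N.pts, restr X.B y = x) {x : Pt} (hx : x ∈ X.pts) :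
    ∃ y ∈ N.pts, restr X.B y = x ∧ X.ldim x + (N.B \ X.B).card ≤ N.ldim y := by
  obtain ⟨W, hW, hi, hc⟩ := Jac.exists_dominant (Y := N) (X := X) hX hs
  have hB : X.B ⊆ W.B := hW.1 ▸ p.sub
  have h1 := Jac.pdim_add_le_of_dominant hi hB
  have e : W.img X.B hB = X :=
    Jac.spc_ext_I rfl (Ideal.ext fun r => by rw [Spc.mem_img_I, ← hc, Jac.mem_comap_kill])
  obtain ⟨y, hy, e'⟩ : x ∈ (W.img X.B hB).pts := e.symm ▸ hx
  refine ⟨y, hW.2 hy, e', le_trans ?_ (Jac.ldim_mono hW.2 hy)⟩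
  rw [hc, hW.1] at h1
  rw [Jac.ldim_irred hi hy, Jac.ldim_irred hX hx]
  exact_mod_cast h1

theorem conn_of_corr (p : Proj N X) (q : Proj N Y) (hX : X.Conn)
    (sX : ∀ x ∈ X.pts, ∃ y ∈ N.pts, restr X.B y = x)
    (sY : ∀ x ∈ Y.pts, ∃ y ∈ N.pts, restr Y.B y = x)
    (hc : ∀ y₁ ∈ N.pts, ∀ y₂ ∈ N.pts, restr X.B y₁ = restr X.B y₂ →
      ∃ C : Spc, C.Sub Y ∧ C.Conn ∧ restr Y.B y₁ ∈ C.pts ∧ restr Y.B y₂ ∈ C.pts) : Y.Conn := by
  obtain ⟨⟨x, hx⟩, hX⟩ := hX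
  obtain ⟨y, hy, -⟩ := sX x hx
  refine ⟨⟨_, q.map y hy⟩, fun Z₁ Z₂ h₁ h₂ hu hd => ?_⟩
  have p₁ := (Spc.fib_sub q h₁).proj.trans p
  have p₂ := (Spc.fib_sub q h₂).proj.trans p
  have key : ∀ {Z : Spc} (h : Z.Sub Y) (hB : X.B ⊆ (N.fib Z).B),
      ((N.fib Z).img X.B hB).pts = ∅ → Z.pts = ∅ := fun {Z} h hB h0 =>
    Set.eq_empty_of_forall_notMem fun z hz => by
      obtain ⟨y, hy, rfl⟩ := sY z (h.2 hz)
      exact Set.eq_empty_iff_forall_notMem.1 h0 _ ⟨y, (Spc.mem_fib_pre q h).2 ⟨hy, hz⟩, rfl⟩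
  refine (hX _ _ p₁.img_sub p₂.img_sub (fun x hx => ?_)
    (Set.disjoint_left.2 ?_)).imp (key h₁ _) (key h₂ _)
  · obtain ⟨y, hy, rfl⟩ := sX x hx
    exact (hu (q.map y hy)).imp (fun h => ⟨y, (Spc.mem_fib_pre q h₁).2 ⟨hy, h⟩, rfl⟩)
      fun h => ⟨y, (Spc.mem_fib_pre q h₂).2 ⟨hy, h⟩, rfl⟩
  · rintro x ⟨y₁, hy₁, e₁⟩ ⟨y₂, hy₂, e₂⟩
    rw [Spc.mem_fib_pre q h₁] at hy₁
    rw [Spc.mem_fib_pre q h₂] at hy₂
    obtain ⟨C, hC, hc', m₁, m₂⟩ := hc y₁ hy₁.1 y₂ hy₂.1 (e₁.trans e₂.symm)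
    have b₁ : Z₁.B = C.B := h₁.1.trans hC.1.symm
    have b₂ : Z₂.B = C.B := h₂.1.trans hC.1.symm
    rcases hc'.2 (C.fib Z₁) (C.fib Z₂) (Spc.fib_sub_of_subset b₁.le) (Spc.fib_sub_of_subset b₂.le)
      (fun z hz => (hu (hC.2 hz)).imp (fun h => (Spc.mem_fib_of_eq b₁).2 ⟨hz, h⟩)
        fun h => (Spc.mem_fib_of_eq b₂).2 ⟨hz, h⟩)
      (Set.disjoint_left.2 fun z a b => Set.disjoint_left.1 hd ((Spc.mem_fib_of_eq b₁).1 a).2
        ((Spc.mem_fib_of_eq b₂).1 b).2) with h | h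
    · exact Set.eq_empty_iff_forall_notMem.1 h _ ((Spc.mem_fib_of_eq b₁).2 ⟨m₁, hy₁.2⟩)
    · exact Set.eq_empty_iff_forall_notMem.1 h _ ((Spc.mem_fib_of_eq b₂).2 ⟨m₂, hy₂.2⟩)

/-- **smoothness through a correspondence** -/
theorem sm_of_corr (p : Proj N X) (q : Proj N Y) (hX : X.Irred)
    (sX : ∀ x ∈ X.pts, ∃ y ∈ N.pts, restr X.B y = x)
    (sY : ∀ x ∈ Y.pts, ∃ y ∈ N.pts, restr Y.B y = x)
    (hc : ∀ y₁ ∈ N.pts, ∀ y₂ ∈ N.pts, restr X.B y₁ = restr X.B y₂ →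
      ∃ C : Spc, C.Sub Y ∧ C.Conn ∧ restr Y.B y₁ ∈ C.pts ∧ restr Y.B y₂ ∈ C.pts)
    {x₀ : Pt} (hx₀ : x₀ ∈ X.pts)
    (iso : ∀ y ∈ N.pts, restr X.B y = x₀ → ∃ g : R, eval y g ≠ 0 ∧ ∀ z ∈ N.pts,
      restr Y.B z = restr Y.B y → eval z g ≠ 0 → ∃ c : ℕ → ℂ, ∀ v, z v = c v.1 * y v)
    {m n : ℕ} (hm : (m : ℕ∞) ≤ X.ldim x₀) (ht : ∀ y ∈ Y.pts, finrank ℂ (Y.Tan y) ≤ n)
    (hd : n + (N.B \ Y.B).card ≤ m + (N.B \ X.B).card) : Y.Irred ∧ Y.Sm n := by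
  obtain ⟨y, hy, e, h1⟩ := Spc.exists_ldim_over p hX sX hx₀
  obtain ⟨g, hg, h2⟩ := iso y hy e
  have h3 := (add_le_add_left hm _).trans (h1.trans (Spc.ldim_le_of_isolated q hy hg h2))
  refine Spc.sm_of_conn (conn_of_corr p q hX.conn sX sY hc) ht (q.map y hy) ?_
  refine (ENat.add_le_add_iff_right (ENat.natCast_ne_top (N.B \ Y.B).card)).1 (le_trans ?_ h3)
  exact_mod_cast hd

section
variable {M : Type} [AddCommGroup M] [Module ℂ M] [FiniteDimensional ℂ M]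

/-- the closed locus `L x ≤ L' x` -/
def Spc.leLoc (X : Spc) (L L' : Pt → Submodule ℂ M) (hL : GenA X L) (hL' : CogA X L')
    (hi : ∀ x ∈ X.pts, L x ≤ L' x → L (gpt x) ≤ L' (gpt x)) : Spc :=
  X.ofClosed {x | x ∈ X.pts ∧ L x ≤ L' x} (fun _ h => h.1)
    (fun x hx hn => by
      obtain ⟨v, hv, hv'⟩ := SetLike.not_le_iff_exists.1 fun h => hn ⟨hx, h⟩
      obtain ⟨a, ha, ha'⟩ : ∃ a ∈ (L' x).dualAnnihilator, a v ≠ 0 := by
        by_contra h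
        push Not at h
        exact hv' ((Subspace.forall_mem_dualAnnihilator_apply_eq_zero_iff _ _).1 h)
      obtain ⟨σ, s1, s2, s3⟩ := hL ⟨x, hx⟩ v hv
      obtain ⟨α, a1, a2, a3⟩ := hL' ⟨x, hx⟩ a ha
      obtain ⟨r, hr⟩ := Spc.mem_fn.1 (regV_scalar.1 ((RegM.of_regV a1).apply s1))
      refine ⟨r, ?_, fun y hy => ?_⟩
      · rw [← hr ⟨x, hx⟩, s3, a3]; exact ha'
      · rw [← hr ⟨y, hy.1⟩]
        exact (Submodule.mem_dualAnnihilator _).1 (a2 _) _ (hy.2 (s2 ⟨y, hy.1⟩)))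
    fun x hx => ⟨X.inv x hx.1, hi x hx.1 hx.2⟩
lemma Spc.leLoc_sub (X : Spc) (L L' : Pt → Submodule ℂ M) (hL hL' hi) :
    (X.leLoc L L' hL hL' hi).Sub X := Spc.ofClosed_sub _ _ _ _ _
lemma Spc.mem_leLoc {X : Spc} {L L' : Pt → Submodule ℂ M} {hL hL' hi} {x : Pt} :
    x ∈ (X.leLoc L L' hL hL' hi).pts ↔ x ∈ X.pts ∧ L x ≤ L' x := Iff.rfl

lemma exists_dual_hyp {H U : Submodule ℂ M} (h : H ≤ U) (e : finrank ℂ H + 1 = finrank ℂ U) :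
    ∃ φ : Dual ℂ M, U ⊓ LinearMap.ker φ = H := by
  obtain ⟨v, hv, hv'⟩ := SetLike.exists_of_lt (lt_of_le_of_ne h fun e' => by
    rw [e'] at e; omega)
  obtain ⟨a, ha, ha'⟩ : ∃ a ∈ H.dualAnnihilator, a v ≠ 0 := by
    by_contra h
    push Not at h
    exact hv' ((Subspace.forall_mem_dualAnnihilator_apply_eq_zero_iff _ _).1 h)
  have h1 : H ≤ U ⊓ LinearMap.ker a :=
    le_inf h fun w hw => (Submodule.mem_dualAnnihilator _).1 ha w hw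
  have h2 : U ⊓ LinearMap.ker a < U := lt_of_le_of_ne inf_le_left fun e' => ha' (e'.ge hv).2
  have := Submodule.finrank_lt_finrank_of_lt h2
  exact ⟨a, (Submodule.eq_of_le_of_finrank_le h1 (by omega)).symm⟩

lemma finrank_inf_ker {U : Submodule ℂ M} {φ : Dual ℂ M} (h : ¬ U ≤ LinearMap.ker φ) :
    finrank ℂ (U ⊓ LinearMap.ker φ : Submodule ℂ M) + 1 = finrank ℂ U := by
  have h1 := finrank_map_add_inf_ker U φ
  have h2 : finrank ℂ (U.map φ) ≤ 1 := (Submodule.finrank_le _).trans (finrank_self ℂ).le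
  have h3 := Submodule.finrank_lt_finrank_of_lt
    (lt_of_le_of_ne inf_le_left fun e => h (e.ge.trans inf_le_right) : U ⊓ LinearMap.ker φ < U)
  omega

/-- a space that parametrises the hyperplanes `T ≤ H < U` is connected -/
theorem conn_pencil {L : Pt → Submodule ℂ M} (hL : GenA Y L)
    (hi : ∀ y ∈ Y.pts, L (gpt y) = L y) {T U : Submodule ℂ M}
    (h1 : ∀ y ∈ Y.pts, T ≤ L y ∧ L y ≤ U ∧ finrank ℂ (L y) + 1 = finrank ℂ U)
    (h2 : ∀ H, T ≤ H → H ≤ U → finrank ℂ H + 1 = finrank ℂ U → ∃ y ∈ Y.pts, L y = H)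
    (h3 : ∀ y ∈ Y.pts, ∀ y' ∈ Y.pts, L y = L y' → ∃ c : ℕ → ℂ, ∀ v, y' v = c v.1 * y v)
    (hne : Y.pts.Nonempty) : Y.Conn := by
  classical
  refine ⟨hne, fun Z₁ Z₂ s₁ s₂ hu hd => ?_⟩
  by_contra hcon
  rw [not_or, ← Ne, ← Ne, ← Set.nonempty_iff_ne_empty, ← Set.nonempty_iff_ne_empty] at hcon
  obtain ⟨⟨y₁, m₁⟩, y₂, m₂⟩ := hcon
  obtain ⟨t₁, u₁, d₁⟩ := h1 y₁ (s₁.2 m₁)
  obtain ⟨t₂, u₂, d₂⟩ := h1 y₂ (s₂.2 m₂)
  obtain ⟨φ₁, e₁⟩ := exists_dual_hyp u₁ d₁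
  obtain ⟨φ₂, e₂⟩ := exists_dual_hyp u₂ d₂
  have hne' : L y₁ ≠ L y₂ := fun e => by
    obtain ⟨c, hc⟩ := h3 _ (s₁.2 m₁) _ (s₂.2 m₂) e
    obtain ⟨c, hc, hc'⟩ := Spc.exists_scal_ne (s₁.2 m₁) (s₂.2 m₂) hc
    exact Set.disjoint_left.1 hd ((funext hc' : y₂ = Sp.bsc c y₁) ▸ Sp.bsc_mem m₁ fun b _ => hc b) m₂
  obtain ⟨c, hc⟩ := Infinite.exists_notMem_finset Y.B
  let v₁ : Var := (c, 0, 0)
  let v₂ : Var := (c, 1, 0)
  let P := Spc.full {c} {v₁, v₂}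
  have hP : P.Conn := (Spc.full_irred fun b hb =>
    ⟨v₁, by simp, (Finset.mem_singleton.1 hb).symm⟩).conn
  have hdj : Disjoint P.B Y.B := Finset.disjoint_singleton_left.2 hc
  let φ : Pt → Dual ℂ M := fun t => t v₁ • φ₁ + t v₂ • φ₂
  have hφ : RegM (P.fib Y).fn fun t => φ t.1 :=
    ((RegM.const φ₁).smul (Spc.mem_fn.2 ⟨MvPolynomial.X v₁, fun _ => (eval_X _).symm⟩)).add
      ((RegM.const φ₂).smul (Spc.mem_fn.2 ⟨MvPolynomial.X v₂, fun _ => (eval_X _).symm⟩))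
  have hφg : ∀ t, φ (gpt t) = chi (eB c) • φ t := fun t => by
    simp only [φ, gpt, vdeg, v₁, v₂, zero_smul, add_zero, smul_add, mul_smul]
  have hφr : ∀ t, φ (restr P.B t) = φ t := fun t => by simp [φ, restr, P, v₁, v₂]
  let Γ := (P.fib Y).leLoc (fun γ => L (restr Y.B γ)) (fun γ => LinearMap.ker (φ γ))
    (hL.pull (Spc.fib_snd P Y)) (cogA_ker hφ) fun γ hγ h => by
      rw [restr_gpt, hi _ hγ.2.1, hφg]
      exact fun w hw => by rw [LinearMap.mem_ker, LinearMap.smul_apply, h hw, smul_zero]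
  have hΓ : Γ.Sub (P.fib Y) := Spc.leLoc_sub _ _ _ _ _ _
  have pP : Proj Γ P := hΓ.proj.trans (Spc.fib_fst P Y)
  have pY : Proj Γ Y := hΓ.proj.trans (Spc.fib_snd P Y)
  have hU : ∀ t ∈ P.pts, ¬ U ≤ LinearMap.ker (φ t) := fun t ht h => by
    obtain ⟨v, -, hv⟩ := ht.1 c (Finset.mem_singleton_self c)
    have h0 : ∀ u ∈ U, t v₁ * φ₁ u + t v₂ * φ₂ u = 0 := fun u hu => h hu
    rcases Finset.mem_insert.1 (ht.2 v hv).1 with rfl | hv'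
    · refine hne' (Submodule.eq_of_le_of_finrank_le (fun u hu => ?_) (by omega)).symm
      have a := h0 u (u₂ hu)
      rw [show φ₂ u = 0 from (e₂.ge hu).2, mul_zero, add_zero] at a
      exact e₁.le ⟨u₂ hu, (mul_eq_zero.1 a).resolve_left hv⟩
    · obtain rfl := Finset.mem_singleton.1 hv'
      refine hne' (Submodule.eq_of_le_of_finrank_le (fun u hu => ?_) (by omega))
      have a := h0 u (u₁ hu)
      rw [show φ₁ u = 0 from (e₁.ge hu).2, mul_zero, zero_add] at a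
      exact e₂.le ⟨u₁ hu, (mul_eq_zero.1 a).resolve_left hv⟩
  have hmem : ∀ t ∈ P.pts, ∀ y ∈ Y.pts, L y ≤ LinearMap.ker (φ t) →
      t + y ∈ Γ.pts ∧ restr P.B (t + y) = t ∧ restr Y.B (t + y) = y := fun t ht y hy h => by
    obtain ⟨a1, a2, a3⟩ := Spc.add_mem_fib hdj ht hy
    refine ⟨⟨a1, ?_⟩, a2, a3⟩
    dsimp only
    rwa [a3, ← hφr, a2]
  have hL' : ∀ γ ∈ Γ.pts, L (restr Y.B γ) = U ⊓ LinearMap.ker (φ (restr P.B γ)) := fun γ hγ => by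
    obtain ⟨-, a1, a2⟩ := h1 _ (pY.map γ hγ)
    have a3 := finrank_inf_ker (hU _ (pP.map γ hγ))
    exact Submodule.eq_of_le_of_finrank_le (le_inf a1 (hφr γ ▸ hγ.2)) (by omega)
  have hc' : Γ.Conn := Spc.conn_of_fibres pP hP fun t ht => by
    refine ⟨?_, fun W₁ W₂ w₁ w₂ _ wd γ₁ g₁ γ₂ g₂ r₁ r₂ => ?_⟩
    · obtain ⟨y, hy, e⟩ := h2 (U ⊓ LinearMap.ker (φ t)) (le_inf (t₁.trans u₁) fun u hu => by
        have a1 : φ₁ u = 0 := (e₁.ge (t₁ hu)).2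
        have a2 : φ₂ u = 0 := (e₂.ge (t₂ hu)).2
        simp [φ, a1, a2]) inf_le_left (finrank_inf_ker (hU t ht))
      exact ⟨_, (hmem t ht y hy (e.le.trans inf_le_right)).1,
        (hmem t ht y hy (e.le.trans inf_le_right)).2.1⟩
    · obtain ⟨a, ha⟩ := h3 _ (pY.map _ (w₁.2 g₁)) _ (pY.map _ (w₂.2 g₂))
        (by rw [hL' _ (w₁.2 g₁), hL' _ (w₂.2 g₂), r₁, r₂])
      obtain ⟨a, a1, a2⟩ := Spc.exists_scal_ne (w₁.2 g₁) (w₂.2 g₂)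
        (c := fun b => if b ∈ Y.B then a b else 1) fun v => by
          by_cases hv : v.1 ∈ Y.B
          · simpa [restr, hv] using ha v
          by_cases hv' : v.1 ∈ P.B
          · simpa [restr, hv, hv'] using congrFun (r₂.trans r₁.symm) v
          · have hv'' : v.1 ∉ Γ.B := fun h => (Finset.mem_union.1 h).elim hv' hv
            simp [Sp.eq_zero_of_notMem (w₁.2 g₁) hv'', Sp.eq_zero_of_notMem (w₂.2 g₂) hv'']
      exact Set.disjoint_left.1 wd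
        ((funext a2 : γ₂ = Sp.bsc a γ₁) ▸ Sp.bsc_mem g₁ fun b _ => a1 b) g₂
  have hs : ∀ v ∈ ({v₁, v₂} : Finset Var), Pi.single v (1 : ℂ) ∈ P.pts := fun v hv => by
    have hb : v.1 = c := by
      rcases Finset.mem_insert.1 hv with rfl | h
      · rfl
      · rw [Finset.mem_singleton.1 h]
    refine ⟨fun b hb' => ⟨v, hb.trans (Finset.mem_singleton.1 hb').symm, by simp⟩, fun w hw => ?_⟩
    obtain rfl : w = v := by_contra fun h => hw (Pi.single_eq_of_ne h _)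
    exact ⟨hv, Finset.mem_singleton.2 hb⟩
  have hv : v₁ ≠ v₂ := by simp [v₁, v₂]
  have k₁ := hmem _ (hs v₁ (by simp)) _ (s₁.2 m₁) fun u hu => by
    have a1 : φ₁ u = 0 := (e₁.ge hu).2
    simp [φ, a1, Pi.single_eq_of_ne hv.symm]
  have k₂ := hmem _ (hs v₂ (by simp)) _ (s₂.2 m₂) fun u hu => by
    have a1 : φ₂ u = 0 := (e₂.ge hu).2
    simp [φ, a1, Pi.single_eq_of_ne hv]
  rcases hc'.2 (Γ.fib Z₁) (Γ.fib Z₂) (Spc.fib_sub pY s₁) (Spc.fib_sub pY s₂)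
    (fun z hz => (hu (pY.map z hz)).imp (fun h => (Spc.mem_fib_pre pY s₁).2 ⟨hz, h⟩)
      fun h => (Spc.mem_fib_pre pY s₂).2 ⟨hz, h⟩)
    (Set.disjoint_left.2 fun z a b => Set.disjoint_left.1 hd ((Spc.mem_fib_pre pY s₁).1 a).2
      ((Spc.mem_fib_pre pY s₂).1 b).2) with h | h
  · exact Set.eq_empty_iff_forall_notMem.1 h _
      ((Spc.mem_fib_pre pY s₁).2 ⟨k₁.1, k₁.2.2.symm ▸ m₁⟩)
  · exact Set.eq_empty_iff_forall_notMem.1 h _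
      ((Spc.mem_fib_pre pY s₂).2 ⟨k₂.1, k₂.2.2.symm ▸ m₂⟩)
end

end Crest.Agent.N265
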