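import Crest.Agent.N265.N.Tr

/-!
# Row 265, layer N: the classes on the nested space
-/

set_option autoImplicit false
noncomputable section
open MvPolynomial Module TensorProduct

namespace Crest.Agent.N265.N
open Crest.Agent.R274
open Defs_781 Lat_781 SnapA_99 SnapB_99 SnapE_99 Gen7_750 Xs1_781 SkDefs_474
open Alg GV Br Bun Fib M _root_.Crest.Agent.N265.Pow

/-- the quotient line of `L' < L` -/
theorem exists_line {X : Spc} {V : GV} {L L' : Pt → Submodule ℂ V.V} (h : IsAB X V L)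
    (h' : IsAB X V L') (le : ∀ x ∈ X.pts, L' x ≤ L x) {r : ℕ}
    (hr : ∀ x ∈ X.pts, finrank ℂ (L x) = r + 1) (hr' : ∀ x ∈ X.pts, finrank ℂ (L' x) = r) :
    ∃ l : Bun X, l.Rk 1 ∧ l.kl = kc X V L - kc X V L' ∧
      kc X (lam (r + 1) V) (fun x => lamS (r + 1) (L x)) =
        kc X (lam r V) (fun x => lamS r (L' x)) * l.kl := by
  obtain ⟨W, φ, hφ, hm, hk, e⟩ := h.exists_sq h' le
  obtain ⟨A, hA⟩ := h.exists_pres
  obtain ⟨A', hA'⟩ := h'.exists_pres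
  obtain ⟨l, hl⟩ := hm.exists_pres
  have rA : A.Rk (r + 1) := fun x hx => (hA.finrank hx).trans (hr x hx)
  have rA' : A'.Rk r := fun x hx => (hA'.finrank hx).trans (hr' x hx)
  have rl : l.Rk 1 := fun x hx => by
    have := finrank_map_add_ker (L x) (φ x)
    rw [hk x hx, inf_eq_right.2 (le x hx), hr x hx, hr' x hx] at this
    rw [hl.finrank hx]; omega
  refine ⟨l, rl, hl.kl.trans e, ?_⟩
  rw [← hA.kl_det rA, ← hA'.kl_det rA', ← kl_det_one rl]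
  exact kl_det_ses (hA'.ses hA hl IsRM.id hφ fun x hx => ⟨by simp, by
    rw [Submodule.map_id, hk x hx, inf_eq_right.2 (le x hx)], rfl⟩) rA' rl rA

variable {Sg : Surf} {p : ℕ} {k k' : ℤ} {β β' : Sg.V.G} {n n' : ℕ} {X : Spc}
  {I I' J : Pt → XL Sg Sg.F} {z : (Sg.S 0).pts} {j : ℕ} {v : K (Sg.S 0)}
/-- restriction to the point `z` -/
abbrev atZ (hX : 0 ∉ X.B) (z : (Sg.S 0).pts) : K (X.fib (Sg.S 0)) →+* K X :=
  K.atPt ((base_S Sg 0).disj hX) (Sg.S_ttriv 0) z.1 z.2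
lemma atZ_Acl (hX : 0 ∉ X.B) : atZ hX z (Acl (r1 Sg k) X p I) = ucl (r1 Sg k) X I p := by
  rw [Acl, map_mul, K.atPt_lbK, Sg1.lbK_eB hX, one_mul, K.atPt_pull_fst]
lemma atZ_Bcl (h : IFam X p β n k I) (hX : 0 ∉ X.B) (hj : 2 ≤ j) :
    atZ hX z (Bcl (r1 Sg k) X p I) =
      kc X (WA Sg (ad Sg p k).W (j + 1)) (fun x => (ad Sg p k).KK ((r1 Sg k).pc (I x) p) (j + 1)) -
        kc X (WA Sg (ad Sg p k).W (j + 1)) fun x => (ad Sg p k).ZK ((r1 Sg k).pc (I x) p) j z.1 := by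
  obtain ⟨r, hr⟩ := h.fam.exists_rk'
  have s := h.fam.syzF hX hr
  rw [Bcl, map_mul, K.atPt_lbK, Sg1.lbK_eB hX, one_mul, ← s.bcl_eq hj]
  exact s.atPt_bcl hj z.2
/-- `𝓢' = 𝓢 - ℓ ⊗ O_z` -/
theorem SS_step (hv : PtCl Sg p z j v) {r : ℕ}
    (h : Step Sg 0 X ((r1 Sg k).G p) (fun x => (r1 Sg k).pc (I x) p) (fun x => (r1 Sg k).pc (I' x) p)
      (fun i x => (r1 Sg k).KK (I x) p i) (fun i x => (r1 Sg k).KK (I' x) p i) 2 r z.1) :
    SS (r1 Sg k) X p I' = SS (r1 Sg k) X p I - K.pull (Spc.fib_fst X _)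
      (ucl (r1 Sg k) X I p - ucl (r1 Sg k) X I' p) * K.pull (Spc.fib_snd X _) v := by
  have := h.bcl_sub (hv.hj.trans (Nat.le_succ j)) hv.hd
  rw [hv.eq, map_mul (K.pull _), K.pull_lbK _ (neg_mem (nsmul_mem (eB_S Sg) _)), map_sub (K.pull _) 1,
    map_one]
  simp only [SS, Acl, Bcl, ucl, map_sub] at this ⊢
  linear_combination lbK _ (-(p • eB 0)) * this

section chi
variable (hv : PtCl Sg p z j v) (hX : 0 ∉ X.B) {L : K X}
  (e : SS (r1 Sg k) X p I' = SS (r1 Sg k) X p I -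
    K.pull (Spc.fib_fst X _) L * K.pull (Spc.fib_snd X _) v)
include hv e
lemma atZ_step : atZ hX z (SS (r1 Sg k) X p I') = atZ hX z (SS (r1 Sg k) X p I) := by
  rw [e, map_sub, map_mul, hv.atPt_eq hX, mul_zero, sub_zero]
lemma chiK_left {T : K (X.fib (Sg.S 0))} :
    piK X _ 0 (K.dual _ (SS (r1 Sg k) X p I') * T) =
      piK X _ 0 (K.dual _ (SS (r1 Sg k) X p I) * T) - K.dual X L * atZ hX z T := by
  rw [← hv.piK_mul_dual hX, ← piK_mul (base_S Sg 0) hX, ← map_sub, e, K.pull_dual, map_sub (K.dual _),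
    map_mul (K.dual _)]
  congr 1; ring
lemma chiK_right {T W : K (X.fib (Sg.S 0))} :
    piK X _ 0 (T * (W - SS (r1 Sg k) X p I')) =
      piK X _ 0 (T * (W - SS (r1 Sg k) X p I)) + L * atZ hX z T := by
  rw [← hv.piK_mul hX, ← piK_mul (base_S Sg 0) hX, ← map_add, e]
  congr 1; ring
lemma chiK_mov : chiK (r1 Sg k) (r1 Sg k') X p I' J + chiK (r1 Sg k') (r1 Sg k) X p J I' =
    chiK (r1 Sg k) (r1 Sg k') X p I J + chiK (r1 Sg k') (r1 Sg k) X p J I +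
      K.dual X L * (atZ hX z (SS (r1 Sg k') X p J) - Top.tK X k') +
      L * K.dual X (atZ hX z (SS (r1 Sg k') X p J)) := by
  simp only [chiK]
  rw [chiK_left hv hX e, chiK_right hv hX e, map_sub (atZ hX z), r1_V, K.atPt_lbK, K.atPt_dual]
  ring
lemma chiK_fix : chiK (r1 Sg k) (r1 Sg k) X p I' I' = chiK (r1 Sg k) (r1 Sg k) X p I I +
    L * K.dual X (atZ hX z (SS (r1 Sg k) X p I)) +
      K.dual X L * (atZ hX z (SS (r1 Sg k) X p I) - Top.tK X k) := by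
  simp only [chiK]
  rw [chiK_left hv hX e, chiK_right hv hX e, map_sub (atZ hX z), r1_V, K.atPt_lbK, K.atPt_dual,
    atZ_step hv hX e]
  ring
end chi

variable {β₁ β₂ : Sg.V.G} {n₁ n₂ : ℕ} {k₁ k₂ : ℤ} {b b' M₀ : ℕ}
  {u : Uni Sg p β₁ β₂ n₁ n₂ k₁ k₂ b} {u' : Uni Sg p β₁ β₂ (n₁ + 1) n₂ k₁ k₂ b'}
theorem hasNestK {h : u.Good} {h' : u'.Good} (d : u.PData h M₀) (d' : u'.PData h' M₀) (hb : b ≠ b')
    (hv : PtCl Sg p z j v) : Top.HasNestK d.piece d'.piece z.1 v := by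
  let ν := nd h h' hb d'.hr₁ z hv.hj hv.hd
  have U1 : (d.U1 z.1).kl = ν.u := (d.eU1 _ z.2).trans (atZ_Acl u.nb)
  have U1' : (d'.U1 z.1).kl = ν.u' := (d'.eU1 _ z.2).trans (atZ_Acl u'.nb)
  have B1 : (d.B1 z.1).kl = ν.s := (d.eB1 _ z.2).trans (atZ_Bcl u.f₁ u.nb (hv.hj.trans j.le_succ))
  have B1' : (d'.B1 z.1).kl = ν.s' :=
    (d'.eB1 _ z.2).trans (atZ_Bcl u'.f₁ u'.nb (hv.hj.trans j.le_succ))
  obtain ⟨N, π, π', L, hL, hN, hm, z₂, z₁, ht⟩ : ∃ (N : Spc) (π : Proj N u.F) (π' : Proj N u'.F)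
      (L : K N), L = K.pull π (ucl (r1 Sg k₁) u.F u.I₁ p) - K.pull π' (ucl (r1 Sg k₁) u'.F u'.I₁ p) ∧
      0 ∉ N.B ∧ (∀ y ∈ N.pts, (ad Sg p k₁).Mod ((r1 Sg k₁).pc (u.I₁ (restr u.F.B y)) p)
        ((r1 Sg k₁).pc (u'.I₁ (restr u'.F.B y)) p) z.1 ∧
        EqL (u.I₂ (restr u.F.B y)) (u'.I₂ (restr u'.F.B y))) ∧
      ZData N u.F (K.dual _ (d.U1 z.1).kl) (K.dual _ (d.B1 z.1).kl) (d'.r₁ + 2) L ∧
      ZData N u'.F (d'.B1 z.1).kl (d'.U1 z.1).kl d'.r₁ (K.dual N L) ∧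
      K.pull π' (tanK u'.F) = K.pull π (tanK u.F) +
        L * K.dual N (K.pull π ((d.U1 z.1).kl - (d.B1 z.1).kl)) +
        K.dual N L * K.pull π' ((d'.U1 z.1).kl - (d'.B1 z.1).kl) := by
    rw [U1, U1', B1, B1']; exact ν.exists_N
  have hr : d.r₁ = d'.r₁ + 1 := by
    have := (rt_of_ifam u'.f₁ h'.1.nonempty.choose_spec).rkU_succ 0
    rw [Nat.zero_add, ← d.hr₁, ← d'.hr₁] at this; omega
  have f₁ := u.f₁.pull π
  have f₁' := u'.f₁.pull π'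
  have f₂ := u.f₂.pull π
  have f₂' := u'.f₂.pull π'
  have e₂ : ∀ y ∈ N.pts, EqL (u.I₂ (restr u.F.B y)) (u'.I₂ (restr u'.F.B y)) := fun y hy => (hm y hy).2
  have le₁ : ∀ y ∈ N.pts, (r1 Sg k₁).pc (u'.I₁ (restr u'.F.B y)) p ≤
      (r1 Sg k₁).pc (u.I₁ (restr u.F.B y)) p := fun y hy => (hm y hy).1.1
  have st := (fam_of_ifam f₁ hN).step (fam_of_ifam f₁' hN) ν.ok z.2 fun y hy => (hm y hy).1
  have eL : L = ucl (r1 Sg k₁) N (fun y => u.I₁ (restr u.F.B y)) p -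
      ucl (r1 Sg k₁) N (fun y => u'.I₁ (restr u'.F.B y)) p := by
    rw [← u.f₁.fam.pull_ucl π le_rfl, ← u'.f₁.fam.pull_ucl π' le_rfl]; exact hL
  have eS := SS_step hv st
  rw [← eL] at eS
  have eS₂ := SS_congr (𝔞 := r1 Sg k₂) (p := p) e₂
  obtain ⟨l, rl, el, edet⟩ := exists_line (f₁.fam.ab p le_rfl) (f₁'.fam.ab p le_rfl) le₁
    (r := d'.r₁ + 1) (fun y hy => by rw [f₁.finrank_pc hy, ← d.hr₁, hr])
    fun y hy => by rw [f₁'.finrank_pc hy, d'.hr₁]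
  replace el : l.kl = L := el.trans eL.symm
  have a₁ : K.pull π ((d.U1 z.1).kl - (d.B1 z.1).kl) =
      atZ hN z (SS (r1 Sg k₁) N p fun y => u.I₁ (restr u.F.B y)) := by
    rw [← u.f₁.fam.pull_SS u.nb π hN, K.atPt_pull π u.dis, d.eU1 _ z.2, d.eB1 _ z.2, SS,
      map_sub (K.atPt _ _ _ _)]; rfl
  have a₁' : K.pull π' ((d'.U1 z.1).kl - (d'.B1 z.1).kl) =
      atZ hN z (SS (r1 Sg k₁) N p fun y => u.I₁ (restr u.F.B y)) := by
    rw [← atZ_step hv hN eS, ← u'.f₁.fam.pull_SS u'.nb π' hN, K.atPt_pull π' u'.dis, d'.eU1 _ z.2,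
      d'.eB1 _ z.2, SS, map_sub (K.atPt _ _ _ _)]; rfl
  have a₂ : K.pull π ((d.U2 z.1).kl - (d.B2 z.1).kl) =
      atZ hN z (SS (r1 Sg k₂) N p fun y => u.I₂ (restr u.F.B y)) := by
    rw [← u.f₂.fam.pull_SS u.nb π hN, K.atPt_pull π u.dis, d.eU2 _ z.2, d.eB2 _ z.2, SS,
      map_sub (K.atPt _ _ _ _)]; rfl
  have a₂' : K.pull π' ((d'.U2 z.1).kl - (d'.B2 z.1).kl) =
      atZ hN z (SS (r1 Sg k₂) N p fun y => u.I₂ (restr u.F.B y)) := by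
    rw [eS₂, ← u'.f₂.fam.pull_SS u'.nb π' hN, K.atPt_pull π' u'.dis, d'.eU2 _ z.2,
      d'.eB2 _ z.2, SS, map_sub (K.atPt _ _ _ _)]; rfl
  have l₁ : K.pull π d.l1.kl = K.pull π' d'.l1.kl := by
    rw [d.el1, d'.el1, u.f₁.pull_lcl, u'.f₁.pull_lcl]
    exact kc_congr fun y hy => ((f₁'.ty y hy).lS_eq (f₁.ty y hy) (f₁.le hy)
      (Amb.le_of_pc (f₁'.fam.le y hy) (f₁'.fam.reg y hy) le_rfl (le₁ y hy))).symm
  have l₂ : K.pull π d.l2.kl = K.pull π' d'.l2.kl := by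
    rw [d.el2, d'.el2, u.f₂.pull_lcl, u'.f₂.pull_lcl]
    exact kc_congr fun y hy => (f₂.ty y hy).lS_eq (f₂'.ty y hy) (f₂'.le hy) (e₂ y hy).le
  obtain ⟨P, A, δ, c, y, hP, Z, E, hZ, q, hA, rA, hE, hz, hq, hl⟩ := z₂
  have Z₂ := z2_of (d.rU1 _ z.2) (d.rB1 _ z.2) hP hA (hr ▸ rA) hZ E hE hz q hq π l (el.trans hl)
  obtain ⟨P', A', δ', c', y', hP', Z', E', hZ', q', hA', rA', hE', hz', hq', hl'⟩ := z₁
  have Z₁ := z1_of (d'.rU1 _ z.2) (d'.rB1 _ z.2) d'.rl1 (d'.det1 _ z.2) hP' hA' rA' hZ' E' hE'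
    hz' q' hq' π' l
    (by rw [el, ← K.dual_dual L, hl', K.dual_lbK, neg_sub])
  refine ⟨N, π, π', l, (base_S Sg 0).disj hN, rl, rfl, l₁, l₂, ?_, ?_, Z₂.1, Z₁, Z₂.2, ?_, ?_, ?_, ?_⟩
  · have := a₁.trans a₁'.symm
    rw [map_sub, map_sub, sub_eq_sub_iff_add_eq_add] at this
    exact this
  · have := a₂.trans a₂'.symm
    rw [map_sub, map_sub, sub_eq_sub_iff_add_eq_add] at this
    exact this
  · change K.pull π' (d'.Nm.kl - d'.Em.kl) = K.pull π (d.Nm.kl - d.Em.kl) + K.dual N l.kl *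
      (K.pull π ((d.U2 z.1).kl - (d.B2 z.1).kl) - Top.tK N k₂) +
      l.kl * K.dual N (K.pull π ((d.U2 z.1).kl - (d.B2 z.1).kl))
    rw [d.emov, d'.emov, a₂, el, Uni.movK, Uni.movK, map_add, map_add,
      u.f₁.fam.pull_chiK u.f₂.fam u.nb π hN, u.f₂.fam.pull_chiK u.f₁.fam u.nb π hN,
      u'.f₁.fam.pull_chiK u'.f₂.fam u'.nb π' hN, u'.f₂.fam.pull_chiK u'.f₁.fam u'.nb π' hN,
      ← chiK_mov hv hN eS]
    simp only [chiK, eS₂]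
  · change K.pull π' d'.Ob.kl = K.pull π d.Ob.kl + K.dual N l.kl * Top.tK N k₁
    have c₂ : chiK (r1 Sg k₂) (r1 Sg k₂) N p (fun y => u.I₂ (restr u.F.B y))
        (fun y => u.I₂ (restr u.F.B y)) = _ := chiK_congr e₂ e₂
    rw [a₁, a₁'] at ht
    rw [d.eOb, d'.eOb, el, Uni.obK, Uni.obK, Uni.fixK, Uni.fixK, Uni.tcl, Uni.tcl, ← tanK_eq,
      ← tanK_eq]
    simp only [map_sub, map_add, map_one]
    rw [u.f₁.fam.pull_chiK u.f₁.fam u.nb π hN, u.f₂.fam.pull_chiK u.f₂.fam u.nb π hN,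
      u'.f₁.fam.pull_chiK u'.f₁.fam u'.nb π' hN, u'.f₂.fam.pull_chiK u'.f₂.fam u'.nb π' hN,
      chiK_fix hv hN eS, c₂]
    exact by linear_combination ht
  · change Op.pull π' d'.X0 * op N l.kl ^ 2 = Op.pull π d.X0
    have dd : K.pull π u.ddK = K.pull π' u'.ddK * l.kl := by
      rw [Uni.ddK, Uni.ddK, map_mul, map_mul, u.f₁.fam.pull_dcl, u.f₂.fam.pull_dcl,
        u'.f₁.fam.pull_dcl, u'.f₂.fam.pull_dcl, ← d.hr₁, ← d'.hr₁, hr, dcl_congr (𝔞 := r1 Sg k₂) e₂,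
        mul_right_comm]
      exact congrArg (· * _) edet
    rw [d.eX0, d'.eX0]
    simp only [map_mul, map_pow, map_sub, map_one, Op.pull_op, dd, l₁, l₂,
      Op.pull_lb _ (zsmul_mem (eT_mem _) _)]
    ring
  · change K.pull (π'.fib_map _) d'.σ = K.pull (π.fib_map _) d.σ -
      K.pull (Spc.fib_fst N _) l.kl * K.pull (Spc.fib_snd N _) v
    rw [d.eσ, d'.eσ, map_add, map_add, u.f₁.fam.pull_SS u.nb π hN, u.f₂.fam.pull_SS u.nb π hN,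
      u'.f₁.fam.pull_SS u'.nb π' hN, u'.f₂.fam.pull_SS u'.nb π' hN, eS, eS₂, el]
    ring

/-- **the nested spaces** -/
theorem exists_nest (Sg : Surf) (p : ℕ) : ∃ v : Pt → K (Sg.S 0),
    (∀ q (hq : q ∈ (Sg.S 0).pts), v q • one (Sg.S 0) = Top.ptc _ (Sg.S_ttriv 0) q hq) ∧
    ∀ {β₁ β₂ : Sg.V.G} {n₁ n₂ : ℕ} {k₁ k₂ : ℤ} {b b' N : ℕ}
      {u : Uni Sg p β₁ β₂ n₁ n₂ k₁ k₂ b} {u' : Uni Sg p β₁ β₂ (n₁ + 1) n₂ k₁ k₂ b'}
      {h : u.Good} {h' : u'.Good} (d : u.PData h N) (d' : u'.PData h' N), b ≠ b' →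
      ∀ q ∈ (Sg.S 0).pts, Top.HasNestK d.piece d'.piece q (v q) := by
  classical
  choose j v hv using exists_ptCl Sg p
  refine ⟨fun q => if hq : q ∈ (Sg.S 0).pts then v ⟨q, hq⟩ else 0, fun q hq => ?_,
    fun d d' hb q hq => ?_⟩
  · simp only [dif_pos hq]; exact (hv ⟨q, hq⟩).smul_one
  · simp only [dif_pos hq]; exact hasNestK d d' hb (hv ⟨q, hq⟩)

end Crest.Agent.N265.N
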