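import Crest.Agent.N265.N.Dim0

/-!
# Row 265, layer N, dimension induction, part 1 (helper83): the nested correspondence

`F`, `F'` carry families of subspaces, `T x z ≤ U x` is generated (`= V_z · U_p(x)`);
`N = {(x, z, x') | T x z ≤ U' x' ≤ U x, V' x' = V x}`.
-/

set_option autoImplicit false
noncomputable section
open MvPolynomial Module

namespace Crest.Agent.N265
open Alg Sp _root_.Crest.Agent.N265.Pow

/-- invariant algebraic families -/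
structure IAl (X : Spc) {M : Type} [AddCommGroup M] [Module ℂ M] (L : Pt → Submodule ℂ M) :
    Prop where
  gen : GenA X L
  cog : CogA X L
  inv : ∀ x ∈ X.pts, L (gpt x) = L x

lemma IAl.pull {X Y : Spc} {M : Type} [AddCommGroup M] [Module ℂ M] [FiniteDimensional ℂ M]
    {L : Pt → Submodule ℂ M} (h : IAl X L) (p : Proj Y X) : IAl Y fun y => L (restr X.B y) :=
  ⟨h.gen.pull p, h.cog.pull p, fun y hy => by
    rw [restr_gpt, h.inv _ (p.map y hy)]⟩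
lemma IAl.const (X : Spc) {M : Type} [AddCommGroup M] [Module ℂ M] [FiniteDimensional ℂ M]
    (U : Submodule ℂ M) : IAl X fun _ => U :=
  ⟨genA_of_alg (L := fun _ => U) (Alg.const U), cogA_of_alg (L := fun _ => U) (Alg.const U),
    fun _ _ => rfl⟩
/-- a bundle in a space on which the grading acts by a scalar -/
lemma IsAB.ial {X : Spc} {V : GV} {L : Pt → Submodule ℂ V.V} (h : IsAB X V L)
    (hs : ∀ U : Submodule ℂ V.V, V.Stab U) : IAl X L :=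
  ⟨h.gen, h.cog, fun x hx => (h.eqv x hx).symm.trans (hs _)⟩
lemma GenA.mono {X Y : Spc} {M : Type} [AddCommGroup M] [Module ℂ M] [FiniteDimensional ℂ M]
    {L : Pt → Submodule ℂ M} (h : GenA X L) (p : Y.Sub X) : GenA Y L :=
  (h.pull p.proj).congr fun y hy => by rw [X.restr_eq (p.2 hy)]

/-- a closed locus given by three inclusions and its description -/
lemma exists_nest (X : Spc) {M M' : Type} [AddCommGroup M] [Module ℂ M] [FiniteDimensional ℂ M]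
    [AddCommGroup M'] [Module ℂ M'] [FiniteDimensional ℂ M'] {T U U' : Pt → Submodule ℂ M}
    {V V' : Pt → Submodule ℂ M'} (hT : GenA X T) (hT' : ∀ x ∈ X.pts, T (gpt x) = T x)
    (hU : IAl X U) (hU' : IAl X U') (hV : IAl X V) (hV' : IAl X V') :
    ∃ N : Spc, N.Sub X ∧ ∀ y, y ∈ N.pts ↔ y ∈ X.pts ∧ T y ≤ U' y ∧ U' y ≤ U y ∧ V' y = V y := by
  let N₁ := X.leLoc T U' hT hU'.cog fun x hx h => by rwa [hT' x hx, hU'.inv x hx]
  let N₂ := X.leLoc U' U hU'.gen hU.cog fun x hx h => by rwa [hU.inv x hx, hU'.inv x hx]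
  let N₃ := X.leLoc V' V hV'.gen hV.cog fun x hx h => by rwa [hV.inv x hx, hV'.inv x hx]
  let N₄ := X.leLoc V V' hV.gen hV'.cog fun x hx h => by rwa [hV.inv x hx, hV'.inv x hx]
  have e₁ : (N₁.fib N₂).B = X.B := Finset.union_self _
  have e₂ : (N₃.fib N₄).B = X.B := Finset.union_self _
  have key : ∀ y, y ∈ ((N₁.fib N₂).fib (N₃.fib N₄)).pts ↔
      y ∈ X.pts ∧ T y ≤ U' y ∧ U' y ≤ U y ∧ V' y = V y := fun y => by
    rw [Spc.mem_fib_of_eq (e₂.trans e₁.symm), Spc.mem_fib_of_eq (Y := N₁) (Z := N₂) rfl,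
      Spc.mem_fib_of_eq (Y := N₃) (Z := N₄) rfl, Spc.mem_leLoc, Spc.mem_leLoc, Spc.mem_leLoc,
      Spc.mem_leLoc, le_antisymm_iff]
    tauto
  refine ⟨_, ⟨?_, fun y hy => ((key y).1 hy).1⟩, key⟩
  change (N₁.fib N₂).B ∪ (N₃.fib N₄).B = X.B
  rw [e₁, e₂, Finset.union_self]

/-- **the induction step, abstract form** -/
theorem dim_step {F S F' : Spc} (d₁ : Disjoint F.B S.B) (d₂ : Disjoint F.B F'.B)
    (d₃ : Disjoint S.B F'.B) {A M₀ M M' : Type} [AddCommGroup A] [Module ℂ A]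
    [FiniteDimensional ℂ A] [AddCommGroup M₀] [Module ℂ M₀] [FiniteDimensional ℂ M₀]
    [AddCommGroup M] [Module ℂ M] [FiniteDimensional ℂ M] [AddCommGroup M'] [Module ℂ M']
    [FiniteDimensional ℂ M'] (μ : TensorProduct ℂ A M₀ →ₗ[ℂ] M) {P : Pt → Submodule ℂ A}
    {U₀ : Pt → Submodule ℂ M₀} {U U' : Pt → Submodule ℂ M} {V V' : Pt → Submodule ℂ M'}
    (hP : IAl S P) (hU₀ : IAl F U₀) (hU : IAl F U) (hV : IAl F V) (hU' : IAl F' U')
    (hV' : IAl F' V')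
    (rk : ∀ x ∈ F.pts, ∀ x' ∈ F'.pts, finrank ℂ (U' x') + 1 = finrank ℂ (U x))
    (lt : ∀ x ∈ F.pts, ∀ z ∈ S.pts, (tens (P z) (U₀ x)).map μ < U x)
    (E1 : ∀ x ∈ F.pts, ∀ z ∈ S.pts, ∀ H, (tens (P z) (U₀ x)).map μ ≤ H → H ≤ U x →
      finrank ℂ H + 1 = finrank ℂ (U x) → ∃ x' ∈ F'.pts, U' x' = H ∧ V' x' = V x)
    (E2 : ∀ x' ∈ F'.pts, ∃ x ∈ F.pts, ∃ z ∈ S.pts,
      (tens (P z) (U₀ x)).map μ ≤ U' x' ∧ U' x' ≤ U x ∧ V' x' = V x)
    (inj : ∀ y ∈ F'.pts, ∀ y' ∈ F'.pts, U' y = U' y' → V' y = V' y' →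
      ∃ c : ℕ → ℂ, ∀ v, y' v = c v.1 * y v)
    {x₀ z₀ : Pt} (hx₀ : x₀ ∈ F.pts) (hz₀ : z₀ ∈ S.pts) {g : R} (hg : eval z₀ g ≠ 0)
    (iso : ∀ x ∈ F.pts, ∀ z ∈ S.pts, eval z g ≠ 0 → ∀ x' ∈ F'.pts,
      (tens (P z₀) (U₀ x₀)).map μ ≤ U' x' → U' x' ≤ U x₀ → (tens (P z) (U₀ x)).map μ ≤ U' x' →
      U' x' ≤ U x → V x = V x₀ →
      (∃ c : ℕ → ℂ, ∀ v, x v = c v.1 * x₀ v) ∧ ∃ c : ℕ → ℂ, ∀ v, z v = c v.1 * z₀ v)
    (iF : F.Irred) (iS : S.Irred) {m s n : ℕ} (sF : F.Sm m) (sS : S.Sm s)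
    (ht : ∀ y ∈ F'.pts, finrank ℂ (F'.Tan y) ≤ n)
    (hd : n + F.B.card + S.B.card ≤ m + s + F'.B.card) : F'.Irred ∧ F'.Sm n := by
  classical
  let X := F.fib S
  let W := X.fib F'
  have dX : Disjoint X.B F'.B := Finset.disjoint_union_left.2 ⟨d₂, d₃⟩
  have pF : Proj W F := (Spc.fib_fst X F').trans (Spc.fib_fst F S)
  have pS : Proj W S := (Spc.fib_fst X F').trans (Spc.fib_snd F S)
  have pF' : Proj W F' := Spc.fib_snd X F'
  obtain ⟨N, hN, mN⟩ := exists_nest W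
    (T := fun y => (tens (P (restr S.B y)) (U₀ (restr F.B y))).map μ)
    (((hP.pull pS).gen.tens (hU₀.pull pF).gen).map (φ := fun _ => μ) (RegM.const μ))
    (fun y hy => by
      have h1 := (hP.pull pS).inv y hy
      have h2 := (hU₀.pull pF).inv y hy
      rw [h1, h2])
    (hU.pull pF) (hU'.pull pF') (hV.pull pF) (hV'.pull pF')
  have p : Proj N X := hN.proj.trans (Spc.fib_fst X F')
  have q : Proj N F' := hN.proj.trans pF'
  have rF : ∀ y, restr F.B (restr X.B y) = restr F.B y := restr_restr Finset.subset_union_left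
  have rS : ∀ y, restr S.B (restr X.B y) = restr S.B y := restr_restr Finset.subset_union_right
  have mk : ∀ w ∈ X.pts, ∀ x' ∈ F'.pts, (tens (P (restr S.B w)) (U₀ (restr F.B w))).map μ ≤ U' x' →
      U' x' ≤ U (restr F.B w) → V' x' = V (restr F.B w) →
      w + x' ∈ N.pts ∧ restr X.B (w + x') = w ∧ restr F'.B (w + x') = x' := by
    intro w hw x' hx' a1 a2 a3
    obtain ⟨b1, b2, b3⟩ := Spc.add_mem_fib dX hw hx'
    refine ⟨(mN _).2 ⟨b1, ?_⟩, b2, b3⟩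
    rw [← rF, ← rS, b2, b3]
    exact ⟨a1, a2, a3⟩
  obtain ⟨w1, w2, w3⟩ := Spc.add_mem_fib d₁ hx₀ hz₀
  have sX : ∀ w ∈ X.pts, ∃ y ∈ N.pts, restr X.B y = w := fun w hw => by
    have h1 := lt _ hw.1 _ hw.2.1
    obtain ⟨v, hv, hv'⟩ := SetLike.exists_of_lt h1
    obtain ⟨a, ha, ha'⟩ : ∃ a ∈ ((tens (P (restr S.B w)) (U₀ (restr F.B w))).map μ).dualAnnihilator,
        a v ≠ 0 := by
      by_contra h
      push Not at h
      exact hv' ((Subspace.forall_mem_dualAnnihilator_apply_eq_zero_iff _ _).1 h)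
    have h2 : (tens (P (restr S.B w)) (U₀ (restr F.B w))).map μ ≤
        U (restr F.B w) ⊓ LinearMap.ker a :=
      le_inf h1.le fun u hu => (Submodule.mem_dualAnnihilator _).1 ha u hu
    obtain ⟨x', hx', e1, e2⟩ := E1 _ hw.1 _ hw.2.1 _ h2 inf_le_left
      (finrank_inf_ker fun h => ha' (h hv))
    obtain ⟨c1, c2, -⟩ := mk w hw x' hx' (e1 ▸ h2) (e1 ▸ inf_le_left) e2
    exact ⟨_, c1, c2⟩
  refine sm_of_corr p q (iF.fib iS d₁) sX (fun x' hx' => ?_) (fun y₁ h₁ y₂ h₂ e => ?_) w1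
    (fun y hy e => ⟨kill S.B g, ?_, fun z hz e' hz' => ?_⟩) (m := m + s)
    (by rw [((sF.fib sS d₁) _ w1).2]) ht ?_
  · obtain ⟨x, hx, z, hz, a1, a2, a3⟩ := E2 x' hx'
    obtain ⟨b1, b2, b3⟩ := Spc.add_mem_fib d₁ hx hz
    obtain ⟨c1, -, c2⟩ := mk _ b1 x' hx' (by rwa [b2, b3]) (by rwa [b2]) (by rwa [b2])
    exact ⟨_, c1, c2⟩
  · have hw := p.map y₁ h₁
    obtain ⟨C, hC, mC⟩ := exists_nest F'
      (T := fun _ => (tens (P (restr S.B y₁)) (U₀ (restr F.B y₁))).map μ) (IAl.const F' _).gen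
      (fun _ _ => rfl) (IAl.const F' (U (restr F.B y₁))) hU' (IAl.const F' (V (restr F.B y₁))) hV'
    have m₁ : restr F'.B y₁ ∈ C.pts := (mC _).2 ⟨q.map _ h₁, ((mN _).1 h₁).2⟩
    have hx : restr F.B y₁ ∈ F.pts := pF.map _ (hN.2 h₁)
    refine ⟨C, hC, conn_pencil (hU'.gen.mono hC) (fun y hy => hU'.inv y (hC.2 hy))
      (fun y hy => ⟨((mC y).1 hy).2.1, ((mC y).1 hy).2.2.1, rk _ hx _ (hC.2 hy)⟩)
      (fun H a1 a2 a3 => ?_) (fun y hy y' hy' e' => inj y (hC.2 hy) y' (hC.2 hy') e'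
        (((mC y).1 hy).2.2.2.trans ((mC y').1 hy').2.2.2.symm)) ⟨_, m₁⟩, m₁,
      (mC _).2 ⟨q.map _ h₂, ?_⟩⟩
    · obtain ⟨x', hx', e1, e2⟩ := E1 _ hx _ (pS.map _ (hN.2 h₁)) H a1 a2 a3
      exact ⟨x', (mC _).2 ⟨hx', e1 ▸ a1, e1 ▸ a2, e2⟩, e1⟩
    · rw [← rF, ← rS, e, rF, rS]
      exact ((mN _).1 h₂).2
  · rwa [eval_kill, ← rS, e, w3]
  · obtain ⟨-, a1, a2, a3⟩ := (mN _).1 hy
    obtain ⟨-, b1, b2, b3⟩ := (mN _).1 hz
    have e1 : restr F.B y = x₀ := by rw [← rF, e, w2]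
    have e2 : restr S.B y = z₀ := by rw [← rS, e, w3]
    rw [e'] at b1 b2 b3
    rw [e1] at a1 a2 a3
    rw [e2] at a1
    rw [eval_kill] at hz'
    obtain ⟨⟨c, hc⟩, c', hc'⟩ := iso _ (pF.map _ (hN.2 hz)) _ (pS.map _ (hN.2 hz)) hz' _
      (q.map _ hy) a1 a2 b1 b2 (b3.symm.trans a3)
    refine ⟨fun b => if b ∈ F.B then c b else if b ∈ S.B then c' b else 1, fun v => ?_⟩
    by_cases h1 : v.1 ∈ F.B
    · simpa [← e1, restr, h1] using hc v
    by_cases h2 : v.1 ∈ S.B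
    · simpa [← e2, restr, h1, h2] using hc' v
    by_cases h3 : v.1 ∈ F'.B
    · simpa [restr, h1, h2, h3] using congrFun e' v
    · have h4 : v.1 ∉ W.B := fun h => (Finset.mem_union.1 h).elim
        (fun h => (Finset.mem_union.1 h).elim h1 h2) h3
      simp [eq_zero_of_notMem (hN.2 hy) h4, eq_zero_of_notMem (hN.2 hz) h4]
  · have e1 : N.B \ F'.B = X.B := by
      rw [hN.1]; exact Finset.union_sdiff_cancel_right dX
    have e2 : N.B \ X.B = F'.B := by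
      rw [hN.1]; exact Finset.union_sdiff_cancel_left dX
    have e3 : X.B.card = F.B.card + S.B.card := Finset.card_union_of_disjoint d₁
    rw [e1, e2, e3]
    omega

end Crest.Agent.N265
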