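import Crest.Agent.N265.N.Dim1
import Crest.Agent.N265.N.Dlt
import Crest.Agent.N265.Fib.Pers

/-!
# Row 265, layer N, dimension induction, part 2 (helper83): the isolated point, fibrewise
-/

set_option autoImplicit false
noncomputable section
open MvPolynomial Module

namespace Crest.Agent.N265.N
open Crest.Agent.R274
open Defs_781 Lat_781 SnapA_99 SnapB_99 SnapE_99 Gen7_750 Xs1_781 SkDefs_474
open Alg Br Fib _root_.Crest.Agent.N265.Pow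
variable {Sg : Surf} {b : ℕ} {V : Type} [AddCommGroup V] [Module ℂ V] [Module Sg.F V]
  [IsScalarTower ℂ Sg.F V]

lemma mem_AA_of_SA {m : ℕ} (f : SA Sg m) : f.1 ∈ AA Sg.V.X m := (AA_nat Sg.V m).ge f.2

/-- saturation -/
lemma mem_Gm_of_SA {I : XLat Sg.V.X V} {p : ℤ} {k : ℕ} {u : V}
    (h : ∀ a : SA Sg k, a.1 • u ∈ Gm I.toLat (k + p)) : u ∈ Gm I.toLat p := mem_Gm.2 fun i => by
  have h1 : Sg.V.X.t i ^ (-((k : ℤ) + p)) • Sg.V.X.t i ^ k • u ∈ I.M {i} :=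
    mem_Gm.1 (h ⟨Sg.V.X.t i ^ k, (AA_nat Sg.V k).le (T1_pow_le_AA k
    (Submodule.pow_mem_pow _ (t_mem_T1 i) k))⟩) i
  rwa [smul_smul, ← zpow_natCast, ← zpow_add₀ (Sg.V.X.t_ne i),
    show -((k : ℤ) + p) + k = -p by ring] at h1

/-- `g` and the linear forms that vanish at `z` generate the irrelevant ideal if `g(z) ≠ 0` -/
lemma mem_Gm_of_mP {I : XLat Sg.V.X V} {p : ℤ} {z : Pt} (hz : z ∈ (Sg.S b).pts) {k : ℕ}
    (g : SA Sg (k + 1)) (hg : evP Sg b (k + 1) z g ≠ 0) {u : V}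
    (hgu : g.1 • u ∈ Gm I.toLat ((k + 1 : ℕ) + p))
    (hl : ∀ l ∈ mP Sg b 1 z, l.1 • u ∈ Gm I.toLat (p + 1)) : u ∈ Gm I.toLat p := by
  let φ : SA Sg (k + 1) →ₗ[ℂ] V :=
    ((LinearMap.toSpanSingleton Sg.F V u).restrictScalars ℂ) ∘ₗ (SA Sg (k + 1)).subtype
  have h1 : mP Sg b (k + 1) z ≤ (Gm I.toLat ((k + 1 : ℕ) + p)).comap φ := by
    rw [← map_muA_top Sg b k hz, Submodule.map_le_iff_le_comap]
    refine tens_le.2 fun l hl' f _ => ?_
    have h2 := AA_smul_mem (mem_AA_of_SA f) (hl l hl')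
    rw [smul_smul, mul_comm, show (k : ℤ) + (p + 1) = (k + 1 : ℕ) + p by push_cast; ring] at h2
    exact h2
  refine mem_Gm_of_SA (k := k + 1) fun a => ?_
  have h2 : a - (evP Sg b (k + 1) z a / evP Sg b (k + 1) z g) • g ∈ mP Sg b (k + 1) z := by
    rw [mP, LinearMap.mem_ker, map_sub, map_smul, smul_eq_mul, div_mul_cancel₀ _ hg, sub_self]
  have h3 := h1 h2
  rw [Submodule.mem_comap, map_sub, map_smul] at h3
  exact (Submodule.sub_mem_iff_left _ (Submodule.smul_mem _ _ hgu)).1 h3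

lemma scal_of_mP {z z' : Pt} (hz : z ∈ (Sg.S b).pts) (hz' : z' ∈ (Sg.S b).pts)
    (h : mP Sg b 1 z ≤ mP Sg b 1 z') : ∃ c : ℕ → ℂ, ∀ v, z' v = c v.1 * z v := by
  have h0 : ∀ {y : Pt}, y ∈ (Sg.S b).pts → ∀ v : Var, ¬ (v.1 = b ∧ v.2.2 = 0) → y v = 0 :=
    fun {y} hy v hv => by_contra fun hn => hv ⟨by_contra fun h' => hn
      (Sp.eq_zero_of_notMem hy fun h'' => h' (Finset.mem_singleton.1 h'')), Sg.S_ttriv b y hy v hn⟩
  obtain ⟨c, -, hc⟩ := Spc.exists_scal_of_minors hz hz' fun u v _ => by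
    by_cases hu : u.1 = b ∧ u.2.2 = 0
    swap
    · rw [h0 hz u hu, h0 hz' u hu, zero_mul, mul_zero]
    by_cases hv : v.1 = b ∧ v.2.2 = 0
    swap
    · rw [h0 hz v hv, h0 hz' v hv, zero_mul, mul_zero]
    have hr : Hmg (1 • eB b) (C (z u) * X v - C (z v) * X u : R) := by
      rw [one_smul]
      exact (((Hmg.X v).C_mul _).cast (vdeg_eq hv)).sub (((Hmg.X u).C_mul _).cast (vdeg_eq hu))
    have e : ∀ y (hy : y ∈ (Sg.S b).pts), evP Sg b 1 y ⟨_, Sg.aeval_mem b hr⟩ =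
        z u * y v - z v * y u := fun y hy => by
      rw [evP_eq Sg b 1 ⟨y, hy⟩]
      exact (evS_spec Sg b _ hr rfl _).trans (by simp)
    have h1 : evP Sg b 1 z' ⟨_, Sg.aeval_mem b hr⟩ = 0 :=
      h (show evP Sg b 1 z _ = 0 by rw [e z hz]; ring)
    rwa [e z' hz', sub_eq_zero] at h1
  exact ⟨c, hc⟩

lemma mP_sup {z z' : Pt} (hz : z ∈ (Sg.S b).pts) (h : ¬ mP Sg b 1 z' ≤ mP Sg b 1 z) :
    mP Sg b 1 z ⊔ mP Sg b 1 z' = ⊤ :=
  (LinearMap.isCoatom_ker_of_surjective (evP_surj Sg b 1 hz)).2 _ (left_lt_sup.2 h)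

/-- a non-zero form does not vanish at some point -/
lemma exists_evP_ne {m : ℕ} {g : SA Sg m} (hg : g ≠ 0) : ∃ z ∈ (Sg.S b).pts, ∃ r : R,
    eval z r ≠ 0 ∧ ∀ y ∈ (Sg.S b).pts, evP Sg b m y g = eval y r := by
  obtain ⟨r, hr, -, e⟩ := Sg.exists_hmg b g.2
  have h1 : ∀ y ∈ (Sg.S b).pts, evP Sg b m y g = eval y r := fun y hy => by
    rw [evP_eq Sg b m ⟨y, hy⟩]
    exact evS_spec Sg b g hr e _
  by_contra h
  push Not at h
  refine hg (Subtype.ext (e.symm.trans ((Sg.mem_I_hmg hr).1 fun z hz => by_contra fun hn => ?_)))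
  obtain ⟨y, hy, h2⟩ := h z hz r hn
  exact h2 (h1 y hy)

lemma ial_mP (k : ℕ) : IAl (Sg.S b) (mP Sg b k) :=
  (isAB_mP Sg b k).ial fun U => Submodule.map_id U

end Crest.Agent.N265.N
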