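import Crest.Agent.N265.N.Dim2
import Crest.Agent.N265.M.Fix
import Crest.Agent.N265.Fib.P5

/-!
# Row 265, layer N, dimension induction, part 3 (helper83): `good_step`
-/

set_option autoImplicit false
noncomputable section
open MvPolynomial Module TensorProduct

namespace Crest.Agent.N265.N.Dim
open Crest.Agent.R274
open Defs_781 Lat_781 SnapA_99 SnapB_99 SnapE_99 Gen7_750 Xs1_781 SkDefs_474
open Alg GV Br N Fib M _root_.Crest.Agent.N265.Pow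
variable {Sg : Surf} {p c : ℕ} {k : ℤ} {I J : XL Sg Sg.F} {β : Sg.V.G} {n : ℕ}

lemma stab_r1 (k : ℤ) (j : ℕ) (U : Submodule ℂ ((r1 Sg k).G j).V) : ((r1 Sg k).G j).Stab U :=
  stab_of_le fun _ hv => U.smul_mem (chi (k • eT)) hv

lemma ial_pc {X : Spc} {I : Pt → XL Sg Sg.F} (h : LFam (r1 Sg k) X p I) {j : ℕ} (hj : p ≤ j) :
    IAl X fun x => (r1 Sg k).pc (I x) j := (h.ab j hj).ial (stab_r1 k j)

/-- multiplication by linear forms -/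
def mu (Sg : Surf) (k : ℤ) (p : ℕ) :
    SA Sg 1 ⊗[ℂ] ((r1 Sg k).G p).V →ₗ[ℂ] ((r1 Sg k).G (1 + p)).V :=
  (r1 Sg k).mul p 1 ∘ₗ (TensorProduct.comm ℂ _ _).toLinearMap

lemma inc_mu (l : SA Sg 1) (w : ((r1 Sg k).G p).V) :
    (r1 Sg k).inc (1 + p) (mu Sg k p (l ⊗ₜ w)) = l.1 • (r1 Sg k).inc p w :=
  (r1 Sg k).inc_mul p 1 (w ⊗ₜ l)

lemma cast_one_add (p : ℕ) : ((1 + p : ℕ) : ℤ) = p + 1 := by push_cast; ring

lemma T_le_iff (h : LeL I (r1 Sg k).O) {P : Submodule ℂ (SA Sg 1)} {H : Submodule ℂ Sg.F} :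
    (tens P ((r1 Sg k).pc I p)).map (mu Sg k p) ≤ H.comap ((r1 Sg k).inc (1 + p)) ↔
      P.map (SA Sg 1).subtype • Gm I.toLat p ≤ H := by
  have e : Gm I.toLat p = ((r1 Sg k).pc I p).map ((r1 Sg k).inc p) :=
    (Amb.map_pc (𝔞 := r1 Sg k) h p).symm
  rw [Submodule.map_le_iff_le_comap, tens_le, Submodule.smul_le, e]
  constructor
  · rintro H' _ ⟨l, hl, rfl⟩ _ ⟨w, hw, rfl⟩
    exact Set.mem_of_eq_of_mem (inc_mu l w).symm (H' l hl w hw)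
  · intro H' l hl w hw
    rw [Submodule.mem_comap, Submodule.mem_comap, inc_mu]
    exact H' _ ⟨l, hl, rfl⟩ _ ⟨w, hw, rfl⟩

lemma pc_one_add (J : XL Sg Sg.F) :
    (r1 Sg k).pc J (1 + p) = (Gm J.toLat (p + 1)).comap ((r1 Sg k).inc (1 + p)) := by
  rw [Amb.pc, cast_one_add]

lemma T_le_pc {z : Pt} (hz : z ∈ (Sg.S c).pts) (h : LeL I (r1 Sg k).O) :
    (tens (mP Sg c 1 z) ((r1 Sg k).pc I p)).map (mu Sg k p) ≤ (r1 Sg k).pc J (1 + p) ↔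
      van (pnt Sg c z hz) 1 • Gm I.toLat p ≤ Gm J.toLat (p + 1) := by
  rw [pc_one_add, T_le_iff h, Fib.map_mP hz, Nat.cast_one]

lemma exists_ne (h : Ty I β n) (le : LeL I (OX Sg.V.X)) (hr : RegL I.toLat p) :
    ∃ g ∈ (r1 Sg k).pc I p, g ≠ 0 := Submodule.exists_mem_ne_zero_of_ne_bot fun h0 => by
  have h1 := h.finrank_pc (k := k) le hr
  have h2 := h.rkU_pos le hr
  rw [h0, finrank_bot] at h1
  omega

lemma ty_down {x : Pnt Sg.V.X} (h : Ty I β n) (h1 : One x J I) : Ty J β (n + 1) :=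
  let ⟨f, hf, a1, a2⟩ := h
  ⟨f, hf, h1.fc.trans a1, by rw [h1.fc.len_trans a1, h1.len, a2, add_comm]⟩

lemma ty_up (h : Ty I β (n + 1)) (le : LeL I (OX Sg.V.X)) :
    ∃ x J, One x I J ∧ Ty J β n ∧ LeL J (OX Sg.V.X) := by
  obtain ⟨f, hf, a1, a2⟩ := h
  obtain ⟨x, J, b1, b2, b3⟩ := a1.exists_bot a2
  exact ⟨x, J, b1, ⟨f, hf, b2, b3⟩,
    (b1.fc.le_OL (le.trans (OL_zero Sg.V.T).symm.le)).trans (OL_zero Sg.V.T).le⟩

variable {β₁ β₂ : Sg.V.G} {n₁ n₂ : ℕ} {k₁ k₂ : ℤ} {b b' : ℕ}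

/-- **dimension induction** -/
theorem good_step {u : Uni Sg p β₁ β₂ n₁ n₂ k₁ k₂ b} (h : u.Good)
    (u' : Uni Sg p β₁ β₂ (n₁ + 1) n₂ k₁ k₂ b') (hb : b ≠ b') : u'.Good := by
  obtain ⟨c, hc⟩ := Infinite.exists_notMem_finset ({b, b'} : Finset ℕ)
  rw [Finset.mem_insert, Finset.mem_singleton, not_or] at hc
  have f₁ := u.f₁.fam
  have f₂ := u.f₂.fam
  have f₁' := u'.f₁.fam
  have f₂' := u'.f₂.fam
  have rk : ∀ x ∈ u.F.pts, ∀ x' ∈ u'.F.pts, finrank ℂ ((r1 Sg k₁).pc (u'.I₁ x') (1 + p)) + 1 =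
      finrank ℂ ((r1 Sg k₁).pc (u.I₁ x) (1 + p)) := fun x hx x' hx' => by
    have h1 := Amb.finrank_pc (f₁.le x hx) (f₁.reg x hx) (j := 1 + p) (by omega)
    have h2 := Amb.finrank_pc (f₁'.le x' hx') (f₁'.reg x' hx') (j := 1 + p) (by omega)
    rw [(u.f₁.ty x hx).cL] at h1
    rw [(u'.f₁.ty x' hx').cL] at h2
    omega
  have eq₂ : ∀ {x x' : Pt}, x ∈ u.F.pts → x' ∈ u.F.pts →
      (r1 Sg k₂).pc (u.I₂ x) p = (r1 Sg k₂).pc (u.I₂ x') p → EqL (u.I₂ x) (u.I₂ x') :=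
    fun hx hx' e => eqv_of_le (Amb.le_of_pc (f₂.le _ hx) (f₂.reg _ hx) le_rfl e.le)
      (Amb.le_of_pc (f₂.le _ hx') (f₂.reg _ hx') le_rfl e.ge)
  obtain ⟨x₀, hx₀⟩ := h.1.nonempty
  obtain ⟨g, hg, hg0⟩ := exists_ne (k := k₁) (u.f₁.ty x₀ hx₀) (u.f₁.le hx₀) (f₁.reg x₀ hx₀)
  obtain ⟨z₀, hz₀, r, hr, hr'⟩ := exists_evP_ne (b := c) (g := g ())
    fun h0 => hg0 (funext fun _ => h0)
  refine dim_step (F := u.F) (S := Sg.S c) (F' := u'.F) ?_ ?_ ?_ (mu Sg k₁ p) (ial_mP 1)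
    (ial_pc f₁ le_rfl) (ial_pc f₁ (Nat.le_add_left p 1)) (ial_pc f₂ le_rfl)
    (ial_pc f₁' (Nat.le_add_left p 1)) (ial_pc f₂' le_rfl) rk (fun x hx z hz => ?_)
    (fun x hx z hz H a1 a2 a3 => ?_) (fun x' hx' => ?_) (fun y hy y' hy' e₁ e₂ => ?_) hx₀ hz₀ hr
    (fun x hx z hz hz' x' hx' a1 a2 a3 a4 a5 => ?_) h.1 (Sg.S_irred c) h.2 (Sg.S_sm c)
    (fun y hy => u'.finrank_tan_le hy) ?_
  · rw [u.B, Sg.S_B, Finset.disjoint_singleton]; exact fun e => hc.1 e.symm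
  · rw [u.B, u'.B, Finset.disjoint_singleton]; exact hb
  · rw [u'.B, Sg.S_B, Finset.disjoint_singleton]; exact hc.2
  · refine lt_of_le_of_ne ((T_le_pc hz (f₁.le x hx)).2 ((Submodule.smul_mono_left
      (van_le _ _)).trans (add_comm (1 : ℤ) p ▸ AA_smul_le _ 1 p))) fun e => ?_
    obtain ⟨g, hg, hg0⟩ := exists_ne (k := k₁) (u.f₁.ty x hx) (u.f₁.le hx) (f₁.reg x hx)
    refine (ng Sg).van_smul_ne (pnt Sg c z hz) (f₁.reg x hx) le_rfl (fun h0 => hg0 ?_)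
      (le_antisymm ((T_le_pc hz (f₁.le x hx)).1 e.le) ?_)
    · have h1 := Pnt.Gm_mem_loc (x := pnt Sg c z hz) (Amb.mem_pc.1 hg)
      rw [h0, Submodule.mem_bot, smul_eq_zero] at h1
      exact (r1 Sg k₁).inc_inj p ((h1.resolve_left (zpow_ne_zero _ (Sg.V.X.t_ne _))).trans
        (map_zero _).symm)
    · rw [← cast_one_add, ← Amb.map_pc (f₁.le x hx) (1 + p), ← e, Submodule.map_le_iff_le_comap,
        T_le_iff (f₁.le x hx), Fib.map_mP hz, Nat.cast_one]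
  · obtain ⟨N, b1, b2⟩ := (ng Sg).exists_one_of_hyper (pnt Sg c z hz) (f₁.reg x hx) le_rfl
      (H := H.map ((r1 Sg k₁).inc (1 + p)))
      (by rw [← Nat.cast_one, ← Fib.map_mP hz, ← T_le_iff (f₁.le x hx)]
          exact a1.trans (Submodule.le_comap_map _ _))
      (by rw [Submodule.map_le_iff_le_comap, ← pc_one_add]; exact a2)
      (by rw [← cast_one_add, ← Amb.map_pc (f₁.le x hx),
          ← (Submodule.equivMapOfInjective _ ((r1 Sg k₁).inc_inj _) _).finrank_eq,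
          ← (Submodule.equivMapOfInjective _ ((r1 Sg k₁).inc_inj _) _).finrank_eq, a3])
    obtain ⟨x', hx', e₁, e₂⟩ := u'.ex N (u.I₂ x) (b1.le.trans (u.f₁.le hx)) (u.f₂.le hx)
      (ty_down (u.f₁.ty x hx) b1) (u.f₂.ty x hx)
    refine ⟨x', hx', ?_, Amb.pc_congr (𝔞 := r1 Sg k₂) e₂ p⟩
    rw [Amb.pc_congr (𝔞 := r1 Sg k₁) e₁, pc_one_add, b2,
      Submodule.comap_map_eq_of_injective ((r1 Sg k₁).inc_inj _)]
  · obtain ⟨y, J, b1, b2, b3⟩ := ty_up (u'.f₁.ty x' hx') (u'.f₁.le hx')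
    obtain ⟨x, hx, e₁, e₂⟩ := u.ex J (u'.I₂ x') b3 (u'.f₂.le hx') b2 (u'.f₂.ty x' hx')
    obtain ⟨z, hz, rfl⟩ := pnt_surj c y
    refine ⟨x, hx, z, hz, (T_le_pc hz (f₁.le x hx)).2 ?_,
      Amb.pc_mono (𝔞 := r1 Sg k₁) (b1.le.trans e₁.symm.le) _,
      (Amb.pc_congr (𝔞 := r1 Sg k₂) e₂ p).symm⟩
    rw [Gm_congr e₁]
    exact b1.van_smul_le p
  · obtain ⟨a, -, ha⟩ := u'.uniq y hy y' hy'
      (eqv_of_le (Amb.le_of_pc (f₁'.le _ hy) (f₁'.reg _ hy) (Nat.le_add_left p 1) e₁.le)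
        (Amb.le_of_pc (f₁'.le _ hy') (f₁'.reg _ hy') (Nat.le_add_left p 1) e₁.ge))
      (eqv_of_le (Amb.le_of_pc (f₂'.le _ hy) (f₂'.reg _ hy) le_rfl e₂.le)
        (Amb.le_of_pc (f₂'.le _ hy') (f₂'.reg _ hy') le_rfl e₂.ge))
    exact ⟨fun _ => a, fun v => congrFun ha v⟩
  · obtain ⟨q, rfl⟩ : ∃ q, p = q + 1 := ⟨p - 1, by have := f₁.two; omega⟩
    have a6 := a3.trans a2
    rw [pc_one_add, T_le_iff (f₁.le x hx), Submodule.smul_le] at a6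
    have h1 : LeL (u.I₁ x) (u.I₁ x₀) := Amb.le_of_pc (f₁.le x hx) (f₁.reg x hx) le_rfl fun w hw =>
      mem_Gm_of_mP hz (g ()) (by rwa [hr' z hz]) (by
        have := AA_smul_mem (mem_AA_of_SA (w ())) (Amb.mem_pc.1 hg)
        rw [r1_inc, smul_eq_mul, mul_comm] at this
        exact this) fun l hl => a6 _ ⟨l, hl, rfl⟩ _ hw
    have h2 : EqL (u.I₁ x) (u.I₁ x₀) := eqv_of_cL h1 (Filter.Eventually.of_forall fun e => by
      rw [(u.f₁.ty x hx).cL, (u.f₁.ty x₀ hx₀).cL])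
    obtain ⟨a, -, ha⟩ := u.uniq x₀ hx₀ x hx h2.symm (eq₂ hx₀ hx a5.symm)
    refine ⟨⟨fun _ => a, fun v => congrFun ha v⟩, scal_of_mP hz₀ hz (by_contra fun hn => ?_)⟩
    rw [Amb.pc_congr (𝔞 := r1 Sg k₁) h2] at a3
    rw [pc_one_add, T_le_iff (f₁.le x₀ hx₀)] at a1 a3
    have h3 : (r1 Sg k₁).pc (u.I₁ x₀) (1 + (q + 1)) ≤ (r1 Sg k₁).pc (u'.I₁ x') (1 + (q + 1)) := by
      rw [← Amb.map_mul_pc (f₁.le x₀ hx₀) (f₁.reg x₀ hx₀) le_rfl 1, Submodule.map_le_iff_le_comap]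
      refine tens_le.2 fun w hw l _ => ?_
      have h4 := (T_le_iff (k := k₁) (f₁.le x₀ hx₀) (P := ⊤)
        (H := Gm (u'.I₁ x').toLat ((q + 1 : ℕ) + 1))).2 (by
        rw [← mP_sup hz hn, Submodule.map_sup, Submodule.sup_smul]
        exact sup_le a3 a1) ⟨_, tmul_mem (Submodule.mem_top (x := l)) hw, rfl⟩
      rw [← pc_one_add] at h4
      exact h4
    have h4 := Submodule.finrank_mono h3
    have h5 := rk x₀ hx₀ x' hx'
    omega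
  · rw [u.B, u'.B, Sg.S_B]
    simp only [Uni.dim, Finset.card_singleton]
    omega

end Crest.Agent.N265.N.Dim
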