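import Crest.Agent.N265.N.Dlt0b
import Crest.Agent.N265.K.Wt

/-!
# Row 265, layer N, task N-DLT0: a resolution of a point and its dual from a matrix of syzygies

(`regS`, `vals`, `LocGen` are in `N/Dlt0a`, `SyzD`, `Rv` in `N/Dlt0b`)
-/

set_option autoImplicit false
set_option linter.unusedSectionVars false
set_option backward.isDefEq.respectTransparency false
noncomputable section
open MvPolynomial Module

namespace Crest.Agent.N265.N
open Alg GV D0
variable {S : Spc} {b : ℕ}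

namespace D0
lemma zsmul_eB_mem (hS : Base S b) (k : ℤ) : k • eB b ∈ DS S.B :=
  zsmul_mem (eB_mem (by simp [hS.B])) k
lemma kl_const {ι : Type} [Fintype ι] [DecidableEq ι] (d : D) (h) :
    (Bun.triv S (fun _ : ι => d) h).kl = Fintype.card ι • lbK S d := by
  rw [kl_triv, Finset.sum_const, Finset.card_univ, lbK]
/-- the pairing of two vector valued functions -/
def pr {κ : Type} [Fintype κ] (σ t : S.pts → κ → ℂ) : S.pts → ℂ := fun z => ∑ k, σ z k * t z k
lemma pr_mem {κ : Type} [Fintype κ] {σ t : S.pts → κ → ℂ} (hσ : RegV S.fn σ) (ht : RegV S.fn t) :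
    pr σ t ∈ S.fn := fsum_mem _ fun k _ => fmul_mem (regV_pi.1 hσ k) (regV_pi.1 ht k)
end D0

namespace SyzD
variable {p : S.pts} {ι κ : Type} [Fintype ι] [Fintype κ] [DecidableEq ι] [DecidableEq κ] {d : ℤ}
  {g : Matrix Unit ι R} {e : κ → D} {Φ : Matrix ι κ R} {i₁ i₂ : ι}
lemma pair_single (σ : ι → ℂ) (i : ι) : ∑ j, σ j * (Pi.single i 1 : ι → ℂ) j = σ i := by
  simp [Pi.single_apply]
lemma Fr.pair_one {t : ι → S.pts → κ → ℂ} {r : S.pts → ℂ} {a c : ι → S.pts → ℂ}
    (F : Fr p g Φ i₁ i₂ t r a c) (z : S.pts) (σ : ι → ℂ) :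
    ∑ k, mev z.1 Φ.transpose σ k * t i₁ z k =
      r z * (σ i₁ * eval z.1 (g () i₂) - σ i₂ * eval z.1 (g () i₁)) := by
  rw [← pair_mev, F.e₁]
  simp only [Pi.sub_apply, Pi.smul_apply, smul_eq_mul, mul_sub, Finset.sum_sub_distrib,
    mul_left_comm (σ _), ← Finset.mul_sum, pair_single]
  ring
lemma Fr.pair_other {t : ι → S.pts → κ → ℂ} {r : S.pts → ℂ} {a c : ι → S.pts → ℂ}
    (F : Fr p g Φ i₁ i₂ t r a c) (z : S.pts) (σ : ι → ℂ) {i : ι} (h1 : i ≠ i₁) (h2 : i ≠ i₂) :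
    ∑ k, mev z.1 Φ.transpose σ k * t i z k = r z * σ i - a i z * σ i₁ - c i z * σ i₂ := by
  rw [← pair_mev, F.eq i h1 h2]
  simp only [Pi.sub_apply, Pi.smul_apply, smul_eq_mul, mul_sub, Finset.sum_sub_distrib,
    mul_left_comm (σ _), ← Finset.mul_sum, pair_single]
variable (h : SyzD S b p d g e Φ i₁ i₂) (hS : Base S b) (hsm : S.Sm 3) (hi : S.Irred)
include h hS hsm hi
lemma range_g {z : Pt} (hz : z ∈ S.pts) (ho : ∀ c : ℂ, z ≠ c • p.1) :
    LinearMap.range (mev z g) = ⊤ := by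
  obtain ⟨j, hj⟩ := h.off z hz ho
  exact top_unique fun w _ => ⟨(w () / eval z (g () j)) • Pi.single j 1, by
    rw [map_smul, mev_g_single]; funext u; simp [hj]⟩
/-- a matrix of weight zero with kernel `Rv` and last rows `Φ` -/
lemma exists_quot : ∃ (n : ℕ) (e' : Fin n ⊕ ι → D) (Ψ : Matrix (Fin n ⊕ ι) κ R),
    (∀ j, e' j ∈ DS S.B ∧ e' j none = 0) ∧ (∀ i, e' (Sum.inr i) = -(d • eB b)) ∧ MHmg e e' Ψ ∧
      ∀ z ∈ S.pts, LinearMap.ker (mev z Ψ) = Rv S Φ z ∧ ∀ v, mev z Ψ v ∘ Sum.inr = mev z Φ v := by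
  have hab := h.isAB_Rv hS hsm hi
  obtain ⟨n, e', π, he', hπ, hk⟩ :=
    (isAlg_iff.2 hab.alg).cogen.exists_hmg (isEqv_iff.2 hab.eqv) fun k => (h.he k).1
  refine ⟨n, Sum.elim (fun j => if e' j none = 0 then e' j else 0) fun _ => -(d • eB b),
    Matrix.fromRows (Matrix.of fun j k => if e' j none = 0 then π j k else 0) Φ, ?_,
    fun _ => rfl, ?_, fun z hz => ⟨?_, fun v => rfl⟩⟩
  · rintro (j | i)
    · by_cases hj : e' j none = 0
      · simp [hj, he' j]
      · simp [hj]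
    · exact ⟨neg_mem (zsmul_eB_mem hS d), by simp [eB]⟩
  · rintro (j | i) k
    · by_cases hj : e' j none = 0
      · simpa [hj] using hπ j k
      · simpa [hj] using Hmg.zero _
    · exact h.hΦ i k
  · have h1 : ∀ v j, mev z (Matrix.fromRows
        (Matrix.of fun j k => if e' j none = 0 then π j k else 0) Φ) v (Sum.inl j) =
        mev z π v j := fun v j => by
      refine Finset.sum_congr rfl fun k _ => ?_
      by_cases hj : e' j none = 0
      · simp [hj]
      · have : eval z (π j k) = 0 := by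
          by_contra h0
          have := hπ.nwt_eq hS.tt hz h0
          simp [Bun.nwt, (h.he k).2, hj] at this
        simp [hj, this]
    ext v
    rw [LinearMap.mem_ker]
    refine ⟨fun hv => ?_, fun hv => funext ?_⟩
    · rw [← hk z hz]
      exact funext fun j => (h1 v j).symm.trans (congrFun hv _)
    · rintro (j | i)
      · rw [h1]; rw [← hk z hz] at hv; exact congrFun hv j
      · exact congrFun (Rv_le hz hv) i
/-- `C₀ = O`, `C₁ = O(-d)^ι`, `C₂` = image of `⊕ O(e)` under `(π, Φ)` with `ker π = Rv`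
(`Bun.exists_quot`), `f` = second projection -/
theorem exists_res : ∃ ρ : PtRes S b p, (∀ i, ρ.C₀.deg i = 0) ∧
    ρ.cls = 1 - Fintype.card ι • lbK S (-(d • eB b)) +
      (kc S (co e) (fun _ => ⊤) - kc S (co e) (Rv S Φ)) := by
  have hab := h.isAB_Rv hS hsm hi
  obtain ⟨n, e', Ψ, he', hr, hΨ, hk⟩ := h.exists_quot hS hsm hi
  have hk' : ∀ z ∈ S.pts, ⊤ ⊓ LinearMap.ker (mev z Ψ) = Rv S Φ z := fun z hz => by
    rw [top_inf_eq, (hk z hz).1]
  have hC : IsAB S (co e') fun z => (⊤ : Submodule ℂ _).map (mev z Ψ) :=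
    (IsAB.top hab.hin).map_of_ker (in_co fun j => (he' j).1) (isRM_mev hΨ)
      (hab.congr fun z hz => (hk' z hz).symm)
  have hf : ∀ z ∈ S.pts, ∀ v, mev z (K3.fm Sum.inr) (mev z Ψ v) = mev z Φ v := fun z hz v =>
    (K3.mev_fm _ _ _).trans ((hk z hz).2 v)
  have hm : ∀ z ∈ S.pts, ((⊤ : Submodule ℂ _).map (mev z Ψ)).map (mev z (K3.fm Sum.inr)) =
      LinearMap.range (mev z Φ) := fun z hz => by
    rw [← Submodule.map_comp, Submodule.map_top]
    exact congrArg _ (LinearMap.ext (hf z hz))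
  let C₂ : Bun S :=
    { ι := Fin n ⊕ ι, deg := e', hdeg := fun j => (he' j).1
      L := fun z => (⊤ : Submodule ℂ _).map (mev z Ψ)
      eqv := isEqv_iff.2 hC.eqv, alg := isAlg_iff.2 hC.alg }
  refine ⟨
    { C₂ := C₂
      C₁ := Bun.triv S (fun _ : ι => -(d • eB b)) fun _ => neg_mem (zsmul_eB_mem hS d)
      C₀ := Bun.triv S (fun _ : Unit => 0) fun _ => zero_mem _
      f := K3.fm Sum.inr
      g := g
      ε := LinearMap.proj ()
      hf := K3.mhmg_fm _ fun i => (hr i).symm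
      hg := h.hg
      w₂ := fun j => (he' j).2
      w₁ := fun _ => by simp [Bun.triv, eB]
      w₀ := fun _ => rfl
      cx := fun z hz => ⟨(hm z hz).le.trans (le_inf le_top ?_), le_top⟩
      off := fun z hz ho => ⟨(hm z hz).trans ((h.Rv_off hS hsm hi hz ho).2.trans
        (top_inf_eq _).symm), (Submodule.map_top _).trans (h.range_g hS hsm hi hz ho)⟩
      rk := fun z hz => ?_
      inj := fun τ hτ hreg h0 => ?_
      mid := fun j σ hσ hP => ?_
      top := fun j σ hσ hP => ?_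
      eps := ?_
      ne := ⟨fun _ => 1, trivial, one_ne_zero⟩ }, fun _ => rfl, ?_⟩
  · rintro _ ⟨v, rfl⟩
    exact h.cx z hz v
  · have h1 := h.finrank_Rv hS hsm hi hz
    have h2 := (mev z Ψ).finrank_range_add_finrank_ker
    rw [(hk z hz).1, ← Submodule.map_top] at h2
    change finrank ℂ (⊤ : Submodule ℂ (Unit → ℂ)) +
      finrank ℂ ((⊤ : Submodule ℂ _).map (mev z Ψ)) = finrank ℂ (⊤ : Submodule ℂ (ι → ℂ))
    simp only [finrank_top, Module.finrank_fintype_fun_eq_card, Fintype.card_unique] at h2 ⊢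
    omega
  · funext z j
    refine congrFun (eq_zero_of_off hS hsm hi p (regV_pi.1 hreg j) fun y hy => ?_) z
    obtain ⟨v, -, hv⟩ := hτ y
    have h1 : mev y.1 Φ v = 0 := by
      rw [← hf _ y.2, hv, ← act0]; exact congrFun h0 y
    have h2 : v ∈ LinearMap.ker (mev y.1 Ψ) := by
      rw [(hk _ y.2).1, (h.Rv_off hS hsm hi y.2 hy).1]; exact h1
    exact congrFun (hv.symm.trans h2) j
  · obtain ⟨r, hr, h0, τ, -, hτ, e₁⟩ := h.onto p j σ (sdeg_neg (b := b) (ι := ι) d ▸ hσ) hP.2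
    refine ⟨r, hr, h0, fun z => mev z.1 Ψ (τ z), fun z => ⟨_, trivial, rfl⟩, regV_mev Ψ hτ, ?_⟩
    rw [← e₁]
    exact funext fun z => (act0 _ _ _).trans ((hf _ z.2 _).trans (act0 Φ τ z).symm)
  · obtain ⟨r, hr, a, ha, c, hc, h0, e₁⟩ := h.gen _ _ (hσ ()) hP.2
    refine ⟨r, hr, h0,
      fun z => a z • (Pi.single i₁ 1 : ι → ℂ) + c z • (Pi.single i₂ 1 : ι → ℂ), fun _ => trivial,
      ((RegV.const _).smul ha).add ((RegV.const _).smul hc), funext fun z => ?_⟩
    have e₂ : mev z.1 g (a z • (Pi.single i₁ 1 : ι → ℂ) + c z • (Pi.single i₂ 1 : ι → ℂ)) =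
        fun _ => a z * eval z.1 (g () i₁) + c z * eval z.1 (g () i₂) := by
      rw [map_add, map_smul, map_smul, mev_g_single, mev_g_single]; rfl
    exact (act0 _ _ _).trans (e₂.trans (funext fun _ => (congrFun e₁ z).symm))
  · rintro _ ⟨v, -, rfl⟩
    change ∑ i, eval p.1 (g () i) * v i = 0
    simp [h.zero]
  · have h1 := kc_map (IsAB.top hab.hin) (isRM_mev hΨ) hC
    rw [kc_congr (V := co e) (L' := Rv S Φ) hk'] at h1
    change (Bun.triv S _ _).kl - (Bun.triv S _ _).kl + C₂.kl = _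
    rw [kl_const, kl_const, Bun.kl_eq_kc, h1, lbK_zero]
    simp [C₂]
omit hS hsm hi in
lemma g_rel {t : ι → S.pts → κ → ℂ} {r : S.pts → ℂ} {a c : ι → S.pts → ℂ}
    (F : Fr p g Φ i₁ i₂ t r a c) (z : S.pts) {i : ι} (h1 : i ≠ i₁) (h2 : i ≠ i₂) :
    r z * eval z.1 (g () i) = a i z * eval z.1 (g () i₁) + c i z * eval z.1 (g () i₂) := by
  have := congrFun (h.cx _ z.2 (t i z)) ()
  rw [F.eq i h1 h2] at this
  simp only [map_sub, map_smul, mev_g_single, Pi.sub_apply, Pi.smul_apply, smul_eq_mul,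
    Pi.zero_apply] at this
  linear_combination this
/-- exactness of the dual complex in the middle -/
lemma dual_mid {σ : S.pts → ι → ℂ} (hσ : RegV S.fn σ)
    (h0 : ∀ z : S.pts, mev z.1 Φ.transpose (σ z) = 0) :
    ∃ s ∈ S.fn, s p ≠ 0 ∧ ∃ u ∈ S.fn, ∀ z i, eval z.1 (g () i) * u z = s z * σ z i := by
  obtain ⟨t, n, r, a, c, -, F⟩ := h.exists_fr hS hsm hi
  have hσ' := regV_pi.1 hσ
  have h1 := eq_zero_of_mul hi F.hr (fsub_mem (fmul_mem (hσ' i₁) (S.eval_mem_fn (g () i₂)))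
    (fmul_mem (hσ' i₂) (S.eval_mem_fn (g () i₁)))) F.r0 fun z => by
      rw [← F.pair_one, h0]; simp
  obtain ⟨r', hr', u, hu, h2, e₂, e₁⟩ := h.gen.koszul hS hsm hi (h.g_mem i₁) (h.g_mem i₂)
    (h.zero i₁) (h.zero i₂) (hσ' i₂) (hσ' i₁) (funext fun z => (sub_eq_zero.1 (h1 z)).symm)
  refine ⟨r * r', mul_mem F.hr hr', mul_ne_zero F.r0 h2, r * u, mul_mem F.hr hu, fun z i => ?_⟩
  have k1 : r' z * σ z i₁ = u z * eval z.1 (g () i₁) := congrFun e₁ z
  have k2 : r' z * σ z i₂ = u z * eval z.1 (g () i₂) := congrFun e₂ z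
  simp only [Pi.mul_apply]
  by_cases j1 : i = i₁
  · rw [j1]; linear_combination -r z * k1
  by_cases j2 : i = i₂
  · rw [j2]; linear_combination -r z * k2
  have k3 := F.pair_other z (σ z) j1 j2
  have k4 := h.g_rel F z j1 j2
  simp only [h0, Pi.zero_apply, zero_mul, Finset.sum_const_zero] at k3
  linear_combination u z * k4 + r' z * k3 - a i z * k1 - c i z * k2
/-- the image of `Φᵀ` near `p` -/
lemma dual_top {t : ι → S.pts → κ → ℂ} {r : S.pts → ℂ} {a c : ι → S.pts → ℂ}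
    (F : Fr p g Φ i₁ i₂ t r a c) {σ : S.pts → κ → ℂ} (hσ : RegV S.fn σ)
    (hP : ∀ z : S.pts, σ z ∈ perp (Rv S Φ z.1)) {m : ℤ} (hm : pr σ (t i₁) ∈ Fn S b m)
    (h0 : pr σ (t i₁) p = 0) : ∃ s ∈ S.fn, s p ≠ 0 ∧ ∃ τ : S.pts → ι → ℂ, RegV S.fn τ ∧
      ∀ z, mev z.1 Φ.transpose (τ z) = s z • σ z := by
  obtain ⟨s, hs, α, hα, β, hβ, h1, e₁⟩ := h.gen _ _ hm h0
  let τ : S.pts → ι → ℂ := fun z i => if i = i₁ then r z * β z else if i = i₂ then -(r z * α z)
    else r z * s z * pr σ (t i) z + a i z * β z - c i z * α z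
  have hτ : RegV S.fn τ := regV_pi.2 fun i => by
    by_cases j1 : i = i₁
    · simpa only [τ, if_pos j1] using fmul_mem F.hr hβ
    by_cases j2 : i = i₂
    · simp only [τ, if_neg j1, if_pos j2]
      exact neg_mem (fmul_mem F.hr hα)
    · simpa only [τ, if_neg j1, if_neg j2] using fsub_mem (fadd_mem (fmul_mem (fmul_mem F.hr hs)
        (pr_mem hσ (F.ht i))) (fmul_mem (F.hac i).1 hβ)) (fmul_mem (F.hac i).2 hα)
  have hs' : r * r * s ∈ S.fn := mul_mem (mul_mem F.hr F.hr) hs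
  let ω : S.pts → κ → ℂ := fun z => mev z.1 Φ.transpose (τ z) - (r * r * s) z • σ z
  have hω : RegV S.fn ω := (regV_mev _ hτ).sub (hσ.smul hs')
  have k0 : ∀ z (v : κ → ℂ), ∑ k, ω z k * v k =
      ∑ k, mev z.1 Φ.transpose (τ z) k * v k - r z * r z * s z * ∑ k, σ z k * v k := fun z v => by
    simp only [ω, Pi.sub_apply, Pi.smul_apply, Pi.mul_apply, smul_eq_mul, sub_mul,
      Finset.sum_sub_distrib, Finset.mul_sum, mul_assoc]
  have k1 : ∀ z, ∀ i ∈ Finset.univ.erase i₂, ∑ k, ω z k * t i z k = 0 := fun z i hi => by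
    have j2 := Finset.ne_of_mem_erase hi
    have k2 : s z * pr σ (t i₁) z = α z * eval z.1 (g () i₁) + β z * eval z.1 (g () i₂) :=
      congrFun e₁ z
    rw [k0]
    by_cases j1 : i = i₁
    · rw [j1, F.pair_one]
      simp only [τ, if_pos, if_neg h.ne.symm, pr] at k2 ⊢
      linear_combination -(r z * r z) * k2
    · rw [F.pair_other z _ j1 j2]
      simp only [τ, if_pos, if_neg h.ne.symm, if_neg j1, if_neg j2, pr]
      ring
  refine ⟨_, hs', mul_ne_zero (mul_ne_zero F.r0 F.r0) h1, τ, hτ, fun z => ?_⟩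
  refine sub_eq_zero.1 (funext fun k => ?_)
  obtain ⟨s', hs'', h2, ρ, hρ, l, e₂⟩ := h.decomp hS hsm hi F (Pi.single k 1)
  refine eq_zero_of_mul hi hs'' (regV_pi.1 hω k) h2 (fun y => ?_) z
  have k3 : ∑ j, ω y j * ρ y j = 0 := by
    rw [k0, ← pair_mev, hρ.2, hP y _ (mem_Rv.2 ⟨ρ, hρ, rfl⟩)]; simp
  have k4 := congrArg (fun v : κ → ℂ => ∑ j, ω y j * v j) (e₂ y)
  simp only [Pi.smul_apply, Pi.add_apply, smul_eq_mul, mul_add, Finset.sum_add_distrib, k3,
    mul_left_comm (ω y _), ← Finset.mul_sum, pair_single, Finset.sum_apply, zero_add] at k4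
  rw [k4]
  simp only [Finset.mul_sum]
  rw [Finset.sum_comm]
  refine Finset.sum_eq_zero fun i hi => ?_
  simp only [mul_left_comm (ω y _), ← Finset.mul_sum, k1 y i hi, mul_zero]
lemma t_notMem {t : ι → S.pts → κ → ℂ} {r : S.pts → ℂ} {a c : ι → S.pts → ℂ}
    (F : Fr p g Φ i₁ i₂ t r a c) : t i₁ p ∉ Rv S Φ p.1 := fun ht => by
  have h12 : i₁ ∈ Finset.univ.erase i₂ := by simp [h.ne]
  have h0 : Submodule.span ℂ ((fun i => t i p) '' (Finset.univ.erase i₂ : Finset ι)) ≤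
      Rv S Φ p.1 ⊔ Submodule.span ℂ
        ((fun i => t i p) '' ((Finset.univ.erase i₂).erase i₁ : Finset ι)) := by
    refine Submodule.span_le.2 ?_
    rintro _ ⟨i, hi, rfl⟩
    by_cases j : i = i₁
    · exact Submodule.mem_sup_left (j ▸ ht)
    · exact Submodule.mem_sup_right (Submodule.subset_span
        ⟨i, Finset.mem_coe.2 (Finset.mem_erase.2 ⟨j, hi⟩), rfl⟩)
  have h1 := card_le_of_top (Rv S Φ p.1) ((Finset.univ.erase i₂).erase i₁) (fun i => t i p)
    fun v => sup_le le_sup_left h0 (h.mem_sup_span hS hsm hi F v)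
  have h2 := h.finrank_Rv hS hsm hi p.2
  have h3 := Finset.card_erase_add_one h12
  have h4 := Finset.card_erase_add_one (Finset.mem_univ i₂)
  rw [Finset.card_univ] at h4
  omega
/-- the dual complex `O → O(d)^ι → perp Rv` with `gᵀ`, `Φᵀ`, `ε = ⟨·, t i₁ p⟩` -/
theorem exists_dual : ∃ ρ' : PtRes S b p,
    ρ'.cls = K.dual S (1 - Fintype.card ι • lbK S (-(d • eB b)) +
      (kc S (co e) (fun _ => ⊤) - kc S (co e) (Rv S Φ))) := by
  have hab := h.isAB_Rv hS hsm hi
  obtain ⟨t, n, r, a, c, ht, F⟩ := h.exists_fr hS hsm hi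
  let A : Bun S :=
    { ι := κ, deg := e, hdeg := fun k => (h.he k).1, L := Rv S Φ
      eqv := isEqv_iff.2 hab.eqv, alg := isAlg_iff.2 hab.alg }
  have hker : ∀ z, perp (LinearMap.range (mev z Φ)) = LinearMap.ker (mev z Φ.transpose) :=
    fun z => by rw [← Submodule.map_top, perp_map, perp_top]; rfl
  have hg : ∀ z (u : Unit → ℂ) i, mev z g.transpose u i = eval z (g () i) * u () :=
    fun z u i => by simp [mev_apply]
  refine ⟨
    { C₂ := Bun.triv S (fun _ : Unit => 0) fun _ => zero_mem _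
      C₁ := Bun.triv S (fun _ : ι => d • eB b) fun _ => zsmul_eB_mem hS d
      C₀ := A.ann
      f := g.transpose
      g := Φ.transpose
      ε := dotProductBilin ℂ ℂ (t i₁ p)
      hf := fun i u => (h.hg u i).cast (by simp [Bun.triv])
      hg := fun k i => (h.hΦ i k).cast (by simp only [Bun.triv, Bun.ann, A]; abel)
      w₂ := fun _ => rfl
      w₁ := fun _ => by simp [Bun.triv, eB]
      w₀ := fun k => by simp [Bun.ann, A, (h.he k).2]
      cx := fun z hz => ⟨?_, ?_⟩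
      off := fun z hz ho => ⟨?_, ?_⟩
      rk := fun z hz => ?_
      inj := fun τ _ hreg h0 => ?_
      mid := fun j σ hσ hP => ?_
      top := fun j σ hσ hP => ?_
      eps := ?_
      ne := ?_ }, ?_⟩
  · refine le_inf le_top ((Submodule.map_top _).le.trans ?_)
    rw [← K3.perp_ker, ← hker]
    exact perp_anti (by rintro _ ⟨v, rfl⟩; exact h.cx z hz v)
  · refine (Submodule.map_top _).le.trans ?_
    rw [← K3.perp_ker]
    exact perp_anti (Rv_le hz)
  · refine (Submodule.map_top _).trans (Eq.trans ?_ (top_inf_eq _).symm)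
    rw [← K3.perp_ker, ← hker, (h.Rv_off hS hsm hi hz ho).2]
  · refine (Submodule.map_top _).trans ?_
    rw [← K3.perp_ker, ← (h.Rv_off hS hsm hi hz ho).1]
    rfl
  · have h1 := h.finrank_Rv hS hsm hi hz
    have h2 := finrank_perp (Rv S Φ z)
    change finrank ℂ (perp (Rv S Φ z)) + finrank ℂ (⊤ : Submodule ℂ (Unit → ℂ)) =
      finrank ℂ (⊤ : Submodule ℂ (ι → ℂ))
    simp only [finrank_top, Module.finrank_fintype_fun_eq_card, Fintype.card_unique]
    omega
  · funext z u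
    refine congrFun (eq_zero_of_off hS hsm hi p (regV_pi.1 hreg u) fun y hy => ?_) z
    obtain ⟨i, hi⟩ := h.off _ y.2 hy
    exact (mul_eq_zero.1 ((hg _ _ _).symm.trans ((congrFun (act0 _ τ y) i).symm.trans
      (congrFun (congrFun h0 y) i)))).resolve_left hi
  · obtain ⟨s, hs, h0, u, hu, e₁⟩ := h.dual_mid hS hsm hi (regV_of_Amb hσ) (mem_ker_act.1 hP.2)
    refine ⟨s, hs, h0, fun z _ => u z, fun _ => trivial, regV_pi.2 fun _ => hu,
      funext fun z => funext fun i => ?_⟩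
    exact (congrFun (act0 _ _ z) i).trans ((hg _ _ _).trans (e₁ z i))
  · obtain ⟨s, hs, h0, τ, hτ, e₁⟩ := h.dual_top hS hsm hi F (regV_of_Amb hσ) hP.1
      (m := j + n i₁) (by
        have : pr σ (t i₁) = ∑ k, (fun z => σ z k) * fun z => t i₁ z k := by
          funext z; simp [pr]
        rw [this]
        refine sum_mem fun k _ => ?_
        convert mul_mem_Fn (hσ k) (ht i₁ k) using 2
        simp only [sdeg, Bun.ann, A, Finsupp.neg_apply]
        ring) ((dotProduct_comm _ _).trans hP.2)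
    exact ⟨s, hs, h0, τ, fun _ => trivial, hτ, funext fun z => (act0 _ _ _).trans (e₁ z)⟩
  · rintro _ ⟨v, -, rfl⟩
    refine (dotProduct_comm _ _).trans ((F.pair_one p v).trans ?_)
    simp [h.zero]
  · by_contra hn
    push Not at hn
    refine h.t_notMem hS hsm hi F ?_
    rw [← perp_perp (Rv S Φ p.1)]
    exact hn
  · have h1 : kc S (co e) (fun _ => ⊤) = A.amb.kl := (Bun.kl_eq_kc A.amb).symm
    have h2 : kc S (co e) (Rv S Φ) = A.kl := (Bun.kl_eq_kc A).symm
    have h3 : K.dual S A.amb.kl = A.ann.amb.kl :=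
      (K.dual_kl _).trans (K3.dual_of_top fun _ _ => rfl)
    change A.ann.kl - (Bun.triv S _ _).kl + (Bun.triv S _ _).kl = _
    rw [kl_const, kl_const, h1, h2, map_add, map_sub, map_sub, h3, K.dual_kl, map_one, map_nsmul,
      K.dual_lbK, neg_neg, lbK_zero]
    simp only [Fintype.card_unique, one_smul]
    ring
end SyzD

end Crest.Agent.N265.N
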