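import Crest.Agent.N265.N.Locex
import Crest.Agent.N265.K.AB3
import Crest.Agent.N265.Sp.Dim
import Crest.Agent.N265.Jac.Jac

/-!
# Row 265, layer N, task N-DLT0, first part: local parameters at a point of a smooth surface
-/

set_option autoImplicit false
noncomputable section
open MvPolynomial Module

namespace Crest.Agent.N265.N
open Alg GV
variable {S : Spc} {b : ℕ}

/-- regular vector valued functions -/
def regS (S : Spc) (M : Type) [AddCommGroup M] [Module ℂ M] : Submodule ℂ (S.pts → M) where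
  carrier := {τ | RegV S.fn τ}
  add_mem' := fun h h' => h.add h'
  zero_mem' := RegV.zero
  smul_mem' := fun c _ h => h.csmul c
/-- the values at `z` of a space of functions -/
def vals (S : Spc) {M : Type} [AddCommGroup M] [Module ℂ M] (P : Submodule ℂ (S.pts → M))
    (z : Pt) : Submodule ℂ M := ⨆ h : z ∈ S.pts, P.map (LinearMap.proj ⟨z, h⟩)
lemma vals_eq {M : Type} [AddCommGroup M] [Module ℂ M] (P : Submodule ℂ (S.pts → M))
    (z : S.pts) : vals S P z.1 = P.map (LinearMap.proj z) := by simp [vals, z.2]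
lemma mem_vals {M : Type} [AddCommGroup M] [Module ℂ M] {P : Submodule ℂ (S.pts → M)}
    {z : S.pts} {v : M} : v ∈ vals S P z.1 ↔ ∃ σ ∈ P, σ z = v := by rw [vals_eq]; rfl
lemma genA_vals {M : Type} [AddCommGroup M] [Module ℂ M] {P : Submodule ℂ (S.pts → M)}
    (h : P ≤ regS S M) : GenA S (vals S P) := fun x v hv => by
  obtain ⟨σ, hσ, rfl⟩ := mem_vals.1 hv
  exact ⟨σ, h hσ, fun y => mem_vals.2 ⟨σ, hσ, rfl⟩, rfl⟩

namespace D0
lemma fn_mul_eq_zero (hi : S.Irred) {f g : S.pts → ℂ} (hf : f ∈ S.fn) (hg : g ∈ S.fn)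
    (h : f * g = 0) : f = 0 ∨ g = 0 := by
  obtain ⟨r, hr⟩ := hf
  obtain ⟨s, hs⟩ := hg
  have : r * s ∈ S.I := fun z hz => by
    rw [map_mul, ← hr ⟨z, hz⟩, ← hs ⟨z, hz⟩]; exact congrFun h ⟨z, hz⟩
  exact (hi.mem_or_mem this).imp (fun h => funext fun z => (hr z).trans (h _ z.2))
    fun h => funext fun z => (hs z).trans (h _ z.2)
lemma eq_zero_of_mul (hi : S.Irred) {f g : S.pts → ℂ} (hf : f ∈ S.fn) (hg : g ∈ S.fn) {z : S.pts}
    (h0 : f z ≠ 0) (h : ∀ y, f y * g y = 0) (y : S.pts) : g y = 0 :=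
  congrFun ((fn_mul_eq_zero hi hf hg (funext h)).resolve_left fun e => h0 (congrFun e z)) y
lemma one_le_ldim {X : Spc} {x : Pt} (hx : x ∈ X.pts) {u : Var} (hu : x u ≠ 0) :
    1 ≤ X.ldim x := by
  obtain ⟨P, hP, hx'⟩ := Jac.exists_comp hx
  have := hP.1.1
  have h := Jac.hq_succ_le (J := mx x) (J' := X.I) (m := mx x) (p := P) le_rfl hP.1.2
    fun q _ h1 h2 => by
      rw [le_antisymm h1 h2]
      refine lt_of_le_of_ne (Jac.mem_comp.1 hx').2 fun e => ?_
      have h3 : (MvPolynomial.X u - C (x u) : R) ∈ (Jac.comp X P hP).I := by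
        rw [Jac.comp_I, e]; exact Jac.X_sub_mem_mx x u
      have h4 := h3 _ ((Jac.comp X P hP).inv x hx')
      simp only [map_sub, eval_X, eval_C, gpt, sub_eq_zero] at h4
      have h5 : chi (vdeg u) = chi 0 := by
        rw [chi_zero]; exact mul_right_cancel₀ hu (h4.trans (one_mul _).symm)
      have h6 := congrArg (fun d : D => d (some u.1)) (chi_inj h5)
      simp [vdeg_some] at h6
  rw [Jac.ldim_eq]
  exact le_add_self.trans h
lemma exists_ne (hS : Base S b) (p : S.pts) : ∃ u : Var, p.1 u ≠ 0 := by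
  obtain ⟨u, -, hu⟩ := S.rel _ p.2 b (by simp [hS.B])
  exact ⟨u, hu⟩
/-- the line through `p` -/
abbrev ln (hS : Base S b) (p : S.pts) : Spc := S.orb _ hS.tt p.1 p.2
lemma mem_ln (hS : Base S b) (p : S.pts) {z : Pt} :
    z ∈ (ln hS p).pts ↔ z ∈ S.pts ∧ ∃ c : ℂ, z = c • p.1 := by
  refine ⟨fun h => ⟨(S.orb_sub _ _ _ _).2 h, ?_⟩, fun ⟨hz, c, e⟩ =>
    Spc.exists_scal_ne p.2 hz (c := fun _ => c) fun v => by rw [e]; rfl⟩
  obtain ⟨c, -, h⟩ := h
  refine ⟨c b, funext fun v => ?_⟩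
  by_cases hv : p.1 v = 0
  · simp [h, hv]
  · rw [h, (hS.supp p.2 hv).1]; rfl
lemma smul_of_minors {x ξ : Pt} {u : Var} (hu : x u ≠ 0) (h : ∀ v, x u * ξ v = x v * ξ u) :
    ξ = (ξ u / x u) • x := funext fun v => by
  have := h v
  simp only [Pi.smul_apply, smul_eq_mul]
  field_simp
  linear_combination this
lemma dAt_minor (x ξ : Pt) (a c : ℂ) (u v : Var) :
    dAt x ξ (C a * MvPolynomial.X v - C c * MvPolynomial.X u) = a * ξ v - c * ξ u := by
  rw [Jac.dAt_sub, Jac.dAt_C_mul, Jac.dAt_C_mul, dAt_X, dAt_X]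
lemma ldim_ln_le (hS : Base S b) (p : S.pts) {z : Pt} (hz : z ∈ (ln hS p).pts) :
    (ln hS p).ldim z ≤ 1 := by
  obtain ⟨u, hu⟩ := exists_ne hS p
  have h : (ln hS p).Tan z ≤ Submodule.span ℂ {p.1} := fun ξ hξ => by
    refine Submodule.mem_span_singleton.2 ⟨_, (smul_of_minors hu fun v => ?_).symm⟩
    rw [← sub_eq_zero, ← dAt_minor z]
    refine hξ _ fun y hy => ?_
    obtain ⟨-, c, rfl⟩ := (mem_ln hS p).1 hy
    simp only [map_sub, map_mul, eval_C, eval_X, Pi.smul_apply, smul_eq_mul]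
    ring
  refine (Spc.ldim_le_tan hz).trans ?_
  exact_mod_cast (Submodule.finrank_mono h).trans (by simpa using finrank_span_le_card {p.1})
lemma mem_ln_I (hS : Base S b) (p : S.pts) {m : ℤ} {r : R} (hr : Hmg (m • eB b) r)
    (h0 : eval p.1 r = 0) : r ∈ (ln hS p).I := fun y hy => by
  obtain ⟨hy', c, e⟩ := (mem_ln hS p).1 hy
  have := Fn_smul hS (f := fun z : S.pts => eval z.1 r) ⟨r, hr, fun _ => rfl⟩ (z := p)
    (z' := ⟨y, hy'⟩) e
  simpa [h0] using this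
lemma vdeg_eq {v : Var} (h : v.1 = b ∧ v.2.2 = 0) : vdeg v = eB b := by simp [vdeg, h.1, h.2]
lemma prod_mem_Fn {α : Type} (s : Finset α) {m : α → ℤ} {f : α → S.pts → ℂ}
    (h : ∀ i ∈ s, f i ∈ Fn S b (m i)) : ∏ i ∈ s, f i ∈ Fn S b (∑ i ∈ s, m i) := by
  classical
  induction s using Finset.induction_on with
  | empty => simpa using one_mem_Fn
  | insert a s ha ih =>
    rw [Finset.prod_insert ha, Finset.sum_insert ha]
    exact mul_mem_Fn (h a (Finset.mem_insert_self _ _))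
      (ih fun i hi => h i (Finset.mem_insert_of_mem hi))
end D0
open D0

/-- `x, y` generate the ideal of the line through `p` near `p` -/
def LocGen (S : Spc) (b : ℕ) (p : S.pts) (x y : S.pts → ℂ) : Prop :=
  ∀ m, ∀ f ∈ Fn S b m, f p = 0 → ∃ r ∈ S.fn, ∃ a ∈ S.fn, ∃ c ∈ S.fn, r p ≠ 0 ∧ r * f = a * x + c * y
/-- local parameters of any positive degree (`Jac.local_eqs` for `orb p ⊂ S`: the differentials of
the linear forms vanishing at `p` span the conormal space; multiply by `l ^ (d - 1)`) -/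
theorem exists_locGen (hS : Base S b) (hsm : S.Sm 3) (p : S.pts) {d : ℤ} (hd : 1 ≤ d) :
    ∃ x ∈ Fn S b d, ∃ y ∈ Fn S b d, x p = 0 ∧ y p = 0 ∧ LinearIndependent ℂ ![x, y] ∧
      LocGen S b p x y := by
  obtain ⟨u, hu⟩ := exists_ne hS p
  obtain ⟨k, rfl⟩ : ∃ k : ℕ, d = k + 1 := ⟨(d - 1).toNat, by omega⟩
  let M : Submodule ℂ R :=
    { carrier := {r | Hmg (((k : ℤ) + 1) • eB b) r ∧ eval p.1 r = 0}
      add_mem' := fun h h' => ⟨h.1.add h'.1, by rw [map_add, h.2, h'.2, add_zero]⟩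
      zero_mem' := ⟨Hmg.zero _, map_zero _⟩
      smul_mem' := fun c r h => ⟨h.1.smul c, by rw [smul_eval, h.2, mul_zero]⟩ }
  let δ : M →ₗ[ℂ] Module.Dual ℂ (S.Tan p.1) :=
    (S.Tan p.1).subtype.dualMap ∘ₗ Jac.dL p.1 ∘ₗ M.subtype
  have hδ : ∀ (a : M) (ξ : S.Tan p.1), δ a ξ = dAt p.1 ξ.1 a.1 := fun _ _ => rfl
  obtain ⟨c, y, ξ, h1, -, h3⟩ := Jac.exists_dual_pair δ
  have hZ := S.self_mem_orb _ hS.tt p.1 p.2
  have hE : p.1 ∈ (ln hS p).Tan p.1 := by
    have := Spc.euler_mem hZ (ln hS p).B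
    rwa [Spc.restr_eq _ hZ] at this
  have hE' : p.1 ∈ S.Tan p.1 := Spc.Sub.tan_le (S.orb_sub _ _ _ _) _ hE
  have h4 : (LinearMap.range δ).dualCoannihilator = Submodule.span ℂ {⟨p.1, hE'⟩} := by
    refine le_antisymm (fun η hη => ?_) ?_
    · rw [Submodule.mem_dualCoannihilator] at hη
      refine Submodule.mem_span_singleton.2 ⟨_, Subtype.ext (smul_of_minors hu fun v => ?_).symm⟩
      by_cases hv : v.1 = b ∧ v.2.2 = 0
      · have h5 : eval p.1 (C (p.1 u) * MvPolynomial.X v - C (p.1 v) * MvPolynomial.X u : R) = 0 := by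
          simp [mul_comm]
        have h6 := hη _ ⟨⟨MvPolynomial.X u ^ k *
          (C (p.1 u) * MvPolynomial.X v - C (p.1 v) * MvPolynomial.X u),
          (((Hmg.X u).pow k).mul ((((Hmg.X v).C_mul _).cast (vdeg_eq hv)).sub
            (((Hmg.X u).C_mul _).cast (vdeg_eq (hS.supp p.2 hu))))).cast (by
              rw [vdeg_eq (hS.supp p.2 hu), add_smul, one_smul, natCast_zsmul]),
          by rw [map_mul, h5, mul_zero]⟩, rfl⟩
        rw [hδ, dAt_mul, h5, zero_mul, add_zero, dAt_minor, map_pow, eval_X] at h6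
        exact sub_eq_zero.1 ((mul_eq_zero.1 h6).resolve_left (pow_ne_zero _ hu))
      · have h5 : ∀ z ∈ S.pts, z v = 0 := fun z hz => by
          by_contra h0; exact hv (hS.supp hz h0)
        rw [Spc.tan_supp η.2 h5, h5 _ p.2, mul_zero, zero_mul]
    · rw [Submodule.span_singleton_le_iff_mem, Submodule.mem_dualCoannihilator]
      rintro _ ⟨a, rfl⟩
      exact hE _ (mem_ln_I hS p a.2.1 a.2.2)
  rw [h4, finrank_span_singleton (fun e => hu (congrFun (congrArg Subtype.val e) u)),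
    (hsm _ p.2).1] at h3
  obtain rfl : c = 2 := by omega
  have hy : ∀ j, (y j).1 ∈ (ln hS p).I := fun j => mem_ln_I hS p (y j).2.1 (y j).2.2
  have h5 := Jac.finrank_tan_cut (Jac.finJ_I S) (x := p.1) (y := fun j => (y j).1)
    (fun j => (y j).2.2) (ξ := fun i => (ξ i).1) (fun i => (ξ i).2) (by
      have : (Matrix.of fun i j => dAt p.1 (ξ i).1 (y j).1) = 1 := by
        ext i j; rw [Matrix.of_apply, ← hδ, h1, Matrix.one_apply]
      rw [this, Matrix.det_one]; exact one_ne_zero)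
  rw [show TanI S.I p.1 = S.Tan p.1 from rfl, (hsm _ p.2).1] at h5
  obtain ⟨-, -, -, ⟨r, hr, h6⟩, -⟩ := Jac.reg_at ((Jac.finJ_I S).mono le_sup_left)
    (Jac.sup_span_le (S.orb_sub _ hS.tt p.1 p.2).I_le hy) (Jac.I_le_mx hZ) (by
      rw [← Jac.ldim_eq]
      refine le_trans ?_ (one_le_ldim hZ hu)
      exact_mod_cast (by omega))
  refine ⟨fun z => eval z.1 (y 0).1, ⟨_, (y 0).2.1, fun _ => rfl⟩, fun z => eval z.1 (y 1).1,
    ⟨_, (y 1).2.1, fun _ => rfl⟩, (y 0).2.2, (y 1).2.2, ?_, ?_⟩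
  · refine LinearIndependent.pair_iff.2 fun s t e => ?_
    have h7 : C s * (y 0).1 + C t * (y 1).1 ∈ S.I := fun z hz => by
      simpa using congrFun e ⟨z, hz⟩
    have h8 := fun i => (ξ i).2 _ h7
    simp only [dAt_add, Jac.dAt_C_mul, ← hδ, h1] at h8
    exact ⟨by simpa using h8 0, by simpa using h8 1⟩
  · rintro m f ⟨q, hq, e⟩ h0
    obtain ⟨s, hs, t, ht, e'⟩ := Submodule.mem_sup.1 (h6 q (mem_ln_I hS p hq ((e p).symm.trans h0)))
    obtain ⟨a, rfl⟩ := Ideal.mem_span_range_iff_exists_fun.1 ht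
    refine ⟨_, S.eval_mem_fn r, _, S.eval_mem_fn (a 0), _, S.eval_mem_fn (a 1), hr,
      funext fun z => ?_⟩
    have := congrArg (eval z.1) e'
    simp only [map_add, hs _ z.2, zero_add, Fin.sum_univ_two, map_mul] at this
    simp only [Pi.mul_apply, Pi.add_apply, e, this]
lemma LocGen.symm {p : S.pts} {x y : S.pts → ℂ} (h : LocGen S b p x y) : LocGen S b p y x :=
  fun m f hf h0 => by
    obtain ⟨r, hr, a, ha, c, hc, h1, e⟩ := h m f hf h0
    exact ⟨r, hr, c, hc, a, ha, h1, e.trans (add_comm _ _)⟩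
/-- near `p` the common zeros of local generators lie on the line -/
lemma LocGen.cut (hS : Base S b) {p : S.pts} {x y : S.pts → ℂ} (h : LocGen S b p x y) :
    ∃ u : R, eval p.1 u ≠ 0 ∧ ∀ z : S.pts, eval z.1 u ≠ 0 → x z = 0 → y z = 0 →
      z.1 ∈ (ln hS p).pts := by
  obtain ⟨u, hu⟩ := exists_ne hS p
  obtain ⟨V, -, hV⟩ := S.fin
  have h1 : Near S.fn p fun z => ∀ v ∈ V, x z = 0 → y z = 0 → p.1 u * z.1 v = p.1 v * z.1 u := by
    refine Near.finset V fun v _ => ?_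
    obtain ⟨r, hr, a, -, c, -, h0, e⟩ := h 1 (p.1 u • (fun z : S.pts => z.1 v) -
      p.1 v • fun z : S.pts => z.1 u) (sub_mem (Submodule.smul_mem _ _ (X_mem_Fn hS v))
        (Submodule.smul_mem _ _ (X_mem_Fn hS u))) (by simp [mul_comm])
    refine (Near.of_ne hr h0).mono fun z hz hx hy => ?_
    have := congrFun e z
    simp only [Pi.mul_apply, Pi.add_apply, hx, hy, mul_zero, add_zero, Pi.sub_apply,
      Pi.smul_apply, smul_eq_mul] at this
    exact sub_eq_zero.1 ((mul_eq_zero.1 this).resolve_left hz)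
  obtain ⟨w, hw, h2⟩ := near_iff.1 h1
  refine ⟨w, hw, fun z hz hx hy => (mem_ln hS p).2 ⟨z.2, _, smul_of_minors hu fun v => ?_⟩⟩
  by_cases hv : v ∈ V
  · exact h2 z hz v hv hx hy
  · rw [hV _ z.2 v hv, hV _ p.2 v hv, mul_zero, zero_mul]
lemma LocGen.ne_zero (hS : Base S b) (hsm : S.Sm 3) {p : S.pts} {d : ℤ} {x y : S.pts → ℂ}
    (hx : x ∈ Fn S b d) (h : LocGen S b p x y) (hx0 : x p = 0) : y ≠ 0 := by
  rintro rfl
  obtain ⟨u, hu, h1⟩ := h.cut hS
  obtain ⟨q, hq, e⟩ := hx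
  have hZ := S.self_mem_orb _ hS.tt p.1 p.2
  have h2 := Jac.ldim_le_add (S.orb_sub _ hS.tt p.1 p.2) hZ (r := 1) (fun _ => q)
    (fun _ => mem_ln_I hS p hq ((e p).symm.trans hx0)) hu
    fun z hz h0 h3 => h1 ⟨z, hz⟩ h0 ((e _).trans (h3 0)) rfl
  rw [(hsm _ p.2).2] at h2
  have h3 := h2.trans (add_le_add_left (ldim_ln_le hS p hZ) _)
  exact absurd h3 (by decide)
set_option linter.unusedVariables false in
/-- local parameters form a regular sequence (`Spc.hartogs` with `Z = orb p`) -/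
theorem LocGen.koszul (hS : Base S b) (hsm : S.Sm 3) (hi : S.Irred) {p : S.pts} {d : ℤ}
    {x y : S.pts → ℂ} (hx : x ∈ Fn S b d) (hy : y ∈ Fn S b d) (h : LocGen S b p x y)
    (hx0 : x p = 0) (hy0 : y p = 0) {a c : S.pts → ℂ} (ha : a ∈ S.fn) (hc : c ∈ S.fn)
    (e : a * x = c * y) : ∃ r ∈ S.fn, ∃ u ∈ S.fn, r p ≠ 0 ∧ r * a = u * y ∧ r * c = u * x := by
  have hy' := h.ne_zero hS hsm hx hx0
  obtain ⟨w, hw, h1⟩ := h.cut hS
  obtain ⟨X, hX⟩ := Fn_le hx
  obtain ⟨Y, hY⟩ := Fn_le hy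
  obtain ⟨A, hA⟩ := id ha
  obtain ⟨C', hC⟩ := id hc
  obtain ⟨r, u, hr, h2⟩ := Spc.hartogs hsm (S.orb_sub _ hS.tt p.1 p.2)
    (fun z hz => (add_le_add_left (ldim_ln_le hS p hz) _).trans (by decide)) p.2
    (f := A) (g := Y) hw (fun r hr hm => (hi.mem_or_mem hm).elim (fun h => hr (h _ p.2))
      fun h => hy' (funext fun z => (hY z).trans (h _ z.2))) fun z hz hn hz' => by
    by_cases h3 : y ⟨z, hz⟩ = 0
    · refine ⟨X, C', fun h4 => hn (h1 ⟨z, hz⟩ hz' ((hX _).trans h4) h3), fun t ht => ?_⟩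
      have := congrFun e ⟨t, ht⟩
      simp only [Pi.mul_apply, hX, hY, hA, hC] at this
      rw [map_sub, map_mul, map_mul, ← this, mul_comm, sub_self]
    · exact ⟨Y, A, fun h4 => h3 ((hY _).trans h4), by rw [mul_comm, sub_self]; exact zero_mem _⟩
  have e1 : (fun z : S.pts => eval z.1 r) * a = (fun z : S.pts => eval z.1 u) * y :=
    funext fun z => by
      have := h2 _ z.2
      rw [map_sub, map_mul, map_mul, sub_eq_zero] at this
      simp only [Pi.mul_apply, hA, hY, this]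
  refine ⟨_, S.eval_mem_fn r, _, S.eval_mem_fn u, hr, e1, sub_eq_zero.1 ?_⟩
  refine (fn_mul_eq_zero hi (sub_mem (mul_mem (S.eval_mem_fn r) hc)
    (mul_mem (S.eval_mem_fn u) (Fn_le hx))) (Fn_le hy) ?_).resolve_right hy'
  linear_combination x * e1 - (fun z : S.pts => eval z.1 r) * e
/-- a regular function that vanishes off a line vanishes -/
theorem eq_zero_of_off (hS : Base S b) (hsm : S.Sm 3) (hi : S.Irred) (p : S.pts) {f : S.pts → ℂ}
    (hf : f ∈ S.fn) (h : ∀ z : S.pts, (∀ c : ℂ, z.1 ≠ c • p.1) → f z = 0) : f = 0 := by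
  obtain ⟨x, hx, y, hy, hx0, hy0, -, hg⟩ := exists_locGen hS hsm p le_rfl
  refine (fn_mul_eq_zero hi hf (Fn_le hy) (funext fun z => ?_)).resolve_right
    (hg.ne_zero hS hsm hx hx0)
  by_cases hz : ∀ c : ℂ, z.1 ≠ c • p.1
  · simp [h z hz]
  · push Not at hz
    obtain ⟨c, e⟩ := hz
    simp [Fn_smul hS hy e, hy0]
/-- every neighbourhood contains a point off the line -/
lemma exists_off (hS : Base S b) (hsm : S.Sm 3) (hi : S.Irred) (p : S.pts) {z : S.pts}
    {q : S.pts → Prop} (h : Near S.fn z q) : ∃ y : S.pts, (∀ c : ℂ, y.1 ≠ c • p.1) ∧ q y := by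
  obtain ⟨r, hr, h⟩ := near_iff.1 h
  by_contra hn
  push Not at hn
  refine hr (congrFun (eq_zero_of_off hS hsm hi p (S.eval_mem_fn r) fun y hy => ?_) z)
  by_contra h0
  exact hn y hy (h y h0)

end Crest.Agent.N265.N
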