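import Crest.Agent.N265.N.PtRes
import Crest.Agent.N265.N.Dlt0a

/-!
# Row 265, layer N, task N-DLT0, second part: syzygy data, local frame, second syzygies
-/

set_option autoImplicit false
set_option linter.unusedSectionVars false
noncomputable section
open MvPolynomial Module

namespace Crest.Agent.N265.N
open Alg GV D0
variable {S : Spc} {b : ℕ}

namespace D0
variable {ι κ : Type} [Fintype ι] [Fintype κ]
lemma act0 (Φ : Matrix κ ι R) (σ : S.pts → ι → ℂ) (z : S.pts) :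
    act S 0 Φ σ z = mev z.1 Φ (σ z) := by rw [act_apply, zero_add]
lemma mem_ker_act {Φ : Matrix κ ι R} {σ : S.pts → ι → ℂ} :
    σ ∈ LinearMap.ker (act S 0 Φ) ↔ ∀ z : S.pts, mev z.1 Φ (σ z) = 0 := by
  simp only [LinearMap.mem_ker, funext_iff (f := act S 0 Φ σ), act0, Pi.zero_apply]
lemma regV_mev (Φ : Matrix κ ι R) {σ : S.pts → ι → ℂ} (h : RegV S.fn σ) :
    RegV S.fn fun z => mev z.1 Φ (σ z) := (regM_mev S Φ).apply h
lemma exists_common {α : Type} [Fintype α] (Φ : Matrix ι κ R) (σ : α → S.pts → ι → ℂ) (z : S.pts)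
    (h : ∀ a, ∃ r ∈ S.fn, r z ≠ 0 ∧ ∃ τ, RegV S.fn τ ∧ act S 0 Φ τ = r • σ a) :
    ∃ r ∈ S.fn, r z ≠ 0 ∧ ∃ τ : α → S.pts → κ → ℂ,
      ∀ a, RegV S.fn (τ a) ∧ act S 0 Φ (τ a) = r • σ a := by
  classical
  choose r hr h0 τ hτ e using h
  refine ⟨∏ a, r a, prod_mem fun a _ => hr a, ?_,
    fun a => (∏ a' ∈ Finset.univ.erase a, r a') • τ a,
    fun a => ⟨RegV.smul (prod_mem fun a _ => hr a) (hτ a), ?_⟩⟩
  · rw [Finset.prod_apply]; exact Finset.prod_ne_zero_iff.2 fun a _ => h0 a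
  · rw [act_smul, e, smul_smul, Finset.prod_erase_mul _ _ (Finset.mem_univ a)]
lemma chi_zsmul (n : ℤ) (d : D) : chi (n • d) = chi d ^ n := by
  induction n using Int.induction_on with
  | zero => simp
  | succ n ih => rw [add_smul, one_smul, chi_add, ih, zpow_add_one₀ (chi_ne d)]
  | pred n ih => rw [sub_smul, one_smul, chi_sub, ih, zpow_sub_one₀ (chi_ne d)]
omit [Fintype ι] in
lemma sdeg_neg (d : ℤ) : sdeg b (fun _ : ι => -(d • eB b)) = fun _ => -d := by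
  funext; simp [sdeg, eB]
lemma reg_mem_iSup (hS : Base S b) (a : ι → ℤ) {τ : S.pts → ι → ℂ} (h : RegV S.fn τ) :
    τ ∈ ⨆ j, Amb S b a j := by
  simpa only [show secs S (fun _ => (⊤ : Submodule ℂ (ι → ℂ))) = ⊤ from
    top_unique fun _ _ _ => trivial, inf_top_eq] using
    mem_iSup_secs hS (a := a) isEqv_top h fun _ => trivial
lemma card_le_of_top [DecidableEq ι] (U : Submodule ℂ (κ → ℂ)) (s : Finset ι) (t : ι → κ → ℂ)
    (h : ∀ v, v ∈ U ⊔ Submodule.span ℂ (t '' s)) : Fintype.card κ ≤ finrank ℂ U + s.card := by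
  classical
  have h1 : U ⊔ Submodule.span ℂ (t '' s) = ⊤ := top_unique fun v _ => h v
  have h2 := Submodule.finrank_add_le_finrank_add_finrank U (Submodule.span ℂ (t '' s))
  rw [h1, finrank_top, Module.finrank_fintype_fun_eq_card, ← Finset.coe_image] at h2
  have h3 := (finrank_span_finset_le_card (R := ℂ) (s.image t)).trans Finset.card_image_le
  exact h2.trans (Nat.add_le_add_left h3 _)
end D0

/-- data: a row `g` of forms of degree `d` that generates the ideal of `p`, and a matrix `Φ` whose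
columns generate the syzygies locally everywhere -/
structure SyzD (S : Spc) (b : ℕ) (p : S.pts) {ι κ : Type} [Fintype ι] [Fintype κ] (d : ℤ)
    (g : Matrix Unit ι R) (e : κ → D) (Φ : Matrix ι κ R) (i₁ i₂ : ι) : Prop where
  hg : MHmg (fun _ => -(d • eB b)) (fun _ => 0) g
  he : ∀ k, e k ∈ DS S.B ∧ e k none = 0
  hΦ : MHmg e (fun _ => -(d • eB b)) Φ
  cx : ∀ z ∈ S.pts, ∀ v, mev z g (mev z Φ v) = 0
  zero : ∀ i, eval p.1 (g () i) = 0
  off : ∀ z ∈ S.pts, (∀ c : ℂ, z ≠ c • p.1) → ∃ i, eval z (g () i) ≠ 0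
  ne : i₁ ≠ i₂
  gen : LocGen S b p (fun z => eval z.1 (g () i₁)) fun z => eval z.1 (g () i₂)
  onto : ∀ z : S.pts, LocOnto S b 0 (fun _ => ⊤) (fun _ => -d) (LinearMap.ker (act S 0 g)) Φ z

namespace SyzD
variable {p : S.pts} {ι κ : Type} [Fintype ι] [Fintype κ] [DecidableEq ι] [DecidableEq κ] {d : ℤ}
  {g : Matrix Unit ι R} {e : κ → D} {Φ : Matrix ι κ R} {i₁ i₂ : ι}
/-- the values of the second syzygies -/
def Rv (S : Spc) (Φ : Matrix ι κ R) : Pt → Submodule ℂ (κ → ℂ) :=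
  vals S (regS S _ ⊓ LinearMap.ker (act S 0 Φ))
lemma mem_Rv {z : S.pts} {v : κ → ℂ} : v ∈ Rv S Φ z.1 ↔
    ∃ ρ : S.pts → κ → ℂ, (RegV S.fn ρ ∧ ∀ y : S.pts, mev y.1 Φ (ρ y) = 0) ∧ ρ z = v :=
  mem_vals.trans (exists_congr fun _ => and_congr_left' (and_congr_right' mem_ker_act))
lemma Rv_le {z : Pt} (hz : z ∈ S.pts) : Rv S Φ z ≤ LinearMap.ker (mev z Φ) := fun v hv => by
  obtain ⟨ρ, h, rfl⟩ := (mem_Rv (z := ⟨z, hz⟩)).1 hv
  exact h.2 ⟨z, hz⟩
lemma mev_g_single (z : Pt) (i : ι) : mev z g (Pi.single i 1) = fun _ => eval z (g () i) := by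
  funext u; simp [mev_apply, Pi.single_apply]
/-- the equations of a local frame -/
structure Fr (p : S.pts) (g : Matrix Unit ι R) (Φ : Matrix ι κ R) (i₁ i₂ : ι)
    (t : ι → S.pts → κ → ℂ) (r : S.pts → ℂ) (a c : ι → S.pts → ℂ) : Prop where
  hr : r ∈ S.fn
  r0 : r p ≠ 0
  hac : ∀ i, a i ∈ S.fn ∧ c i ∈ S.fn
  ht : ∀ i, RegV S.fn (t i)
  e₁ : ∀ z, mev z.1 Φ (t i₁ z) = (r z * eval z.1 (g () i₂)) • (Pi.single i₁ 1 : ι → ℂ) -
      (r z * eval z.1 (g () i₁)) • (Pi.single i₂ 1 : ι → ℂ)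
  eq : ∀ i, i ≠ i₁ → i ≠ i₂ → ∀ z, mev z.1 Φ (t i z) = r z • (Pi.single i 1 : ι → ℂ) -
      a i z • (Pi.single i₁ 1 : ι → ℂ) - c i z • (Pi.single i₂ 1 : ι → ℂ)

variable (h : SyzD S b p d g e Φ i₁ i₂)
include h
lemma g_mem (i : ι) : (fun z : S.pts => eval z.1 (g () i)) ∈ Fn S b d :=
  ⟨g () i, (h.hg () i).cast (by simp), fun _ => rfl⟩
variable (hS : Base S b)
include hS
lemma deg_e (k : κ) : sdeg b e k • eB b = e k := by
  ext o
  rcases o with _ | c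
  · simp [eB, (h.he k).2]
  · by_cases hc : c = b
    · simp [eB, hc, sdeg]
    · simp [eB, Ne.symm hc, (h.he k).1 c (by simpa [hS.B] using hc)]
/-- all regular syzygies come locally from `Φ` -/
lemma onto_reg {σ : S.pts → ι → ℂ} (hσ : RegV S.fn σ) (h0 : ∀ y : S.pts, mev y.1 g (σ y) = 0)
    (z : S.pts) : ∃ r ∈ S.fn, r z ≠ 0 ∧ ∃ τ, RegV S.fn τ ∧ act S 0 Φ τ = r • σ := by
  have hg : MHmg (fun _ : ι => (-d) • eB b) (fun _ => 0) g := by simpa only [neg_smul] using h.hg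
  have := mem_iSup_secs hS (a := fun _ => -d) (isEqv_bot.comap hg) hσ h0
  clear hσ h0
  induction this using Submodule.iSup_induction' with
  | mem j σ hσ =>
    obtain ⟨r, hr, h0, τ, -, hτ, e⟩ := h.onto z j σ hσ.1 (mem_ker_act.2 hσ.2)
    exact ⟨r, hr, h0, τ, hτ, e⟩
  | zero => exact ⟨1, one_mem _, one_ne_zero, 0, RegV.zero, by simp⟩
  | add σ σ' _ _ h1 h2 =>
    obtain ⟨r, hr, h0, τ, hτ, e⟩ := h1
    obtain ⟨r', hr', h0', τ', hτ', e'⟩ := h2
    refine ⟨r * r', mul_mem hr hr', mul_ne_zero h0 h0', r' • τ + r • τ',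
      (hτ.smul hr').add (hτ'.smul hr), ?_⟩
    rw [map_add, act_smul, act_smul, e, e', smul_smul, smul_smul, smul_add, mul_comm r' r]
lemma gsub_im : GSub S b (fun _ : ι => -d) fun j => (Amb S b (sdeg b e) j).map (act S 0 Φ) :=
  gsub_Amb.map _ (act_smul 0 Φ) fun j σ hσ => by
    have := act_mem_Amb hS h.hΦ (x := 0) (fun _ _ => rfl) hσ
    rwa [sdeg_neg] at this
omit h in
lemma act_mem_iSup {τ : S.pts → κ → ℂ} (hτ : RegV S.fn τ) :
    act S 0 Φ τ ∈ ⨆ j, (Amb S b (sdeg b e) j).map (act S 0 Φ) := by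
  rw [← Submodule.map_iSup]
  exact Submodule.mem_map_of_mem (reg_mem_iSup hS _ hτ)
lemma frame_one : ∃ m n, ∃ r ∈ Fn S b m, r p ≠ 0 ∧ ∃ t ∈ Amb S b (sdeg b e) n, ∀ z,
    act S 0 Φ t z = (r z * eval z.1 (g () i₂)) • (Pi.single i₁ 1 : ι → ℂ) -
      (r z * eval z.1 (g () i₁)) • (Pi.single i₂ 1 : ι → ℂ) := by
  let σ : S.pts → ι → ℂ := fun z => eval z.1 (g () i₂) • (Pi.single i₁ 1 : ι → ℂ) -
    eval z.1 (g () i₁) • (Pi.single i₂ 1 : ι → ℂ)
  have hσ : σ ∈ Amb S b (fun _ => -d) (d + d) := fun i => by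
    have := sub_mem (Submodule.smul_mem _ ((Pi.single i₁ 1 : ι → ℂ) i) (h.g_mem i₂))
      (Submodule.smul_mem _ ((Pi.single i₂ 1 : ι → ℂ) i) (h.g_mem i₁))
    convert this using 1
    · rw [add_neg_cancel_right]
    · funext z; simp [σ, mul_comm]
  obtain ⟨r, hr, h0, τ, hτ, e⟩ := h.onto_reg hS (regV_of_Amb hσ) (fun y => by
    simp only [σ, map_sub, map_smul, mev_g_single]
    funext u; simp [mul_comm]) p
  obtain ⟨m, s, hs, h1, t, ht, e'⟩ := (h.gsub_im hS).exists_hom hS hσ hr h0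
    (e ▸ act_mem_iSup hS hτ)
  refine ⟨m, _, s, hs, h1, t, ht, fun z => ?_⟩
  rw [e']
  simp only [σ, Pi.smul_apply', smul_sub, smul_smul]
lemma frame_other (i : ι) : ∃ m n, ∃ r ∈ Fn S b m, r p ≠ 0 ∧ ∃ t ∈ Amb S b (sdeg b e) n,
    ∃ a ∈ S.fn, ∃ c ∈ S.fn, ∀ z, act S 0 Φ t z = r z • (Pi.single i 1 : ι → ℂ) -
      a z • (Pi.single i₁ 1 : ι → ℂ) - c z • (Pi.single i₂ 1 : ι → ℂ) := by
  obtain ⟨r, hr, a, ha, c, hc, h0, e₀⟩ := h.gen d _ (h.g_mem i) (h.zero i)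
  let P : Submodule ℂ (ι → ℂ) := Bun.suppOn fun k => k = i₁ ∨ k = i₂
  let ρ : S.pts → ι → ℂ := fun z => a z • (Pi.single i₁ 1 : ι → ℂ) + c z • (Pi.single i₂ 1 : ι → ℂ)
  let ε : S.pts → ι → ℂ := fun _ => Pi.single i 1
  have hρ : RegV S.fn ρ := ((RegV.const _).smul ha).add ((RegV.const _).smul hc)
  have hρP : ρ ∈ secs S fun _ => P := fun z k hk => by
    push Not at hk
    simp [ρ, hk.1, hk.2]
  have hP : IsEqv S (fun _ : ι => (-d) • eB b) fun _ => P := fun z _ v =>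
    forall₂_congr fun k _ => by simp [chi_ne]
  obtain ⟨s, hs, h1, τ, hτ, e₁⟩ := h.onto_reg hS (σ := r • ε - ρ)
    (((RegV.const _).smul hr).sub hρ) (fun y => by
      have := congrFun e₀ y
      simp only [ρ, ε, Pi.sub_apply, Pi.smul_apply', map_sub, map_add, map_smul, mev_g_single]
      funext u
      simpa [sub_eq_zero] using this) p
  have hε : ε ∈ Amb S b (fun _ : ι => -d) d := fun k => by
    have := Submodule.smul_mem _ ((Pi.single i 1 : ι → ℂ) k) (one_mem_Fn (S := S) (b := b))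
    convert this using 1
    · rw [add_neg_cancel]
    · funext z; simp [ε]
  have hN := (h.gsub_im hS).sup (gsub_Amb.inf_secs fun _ => P)
  obtain ⟨m, u, hu, h2, h3⟩ := hN.exists_hom hS hε (mul_mem hs hr) (z := p) (mul_ne_zero h1 h0) (by
    have e₂ : (s * r) • ε = act S 0 Φ τ + s • ρ := by rw [e₁, smul_sub, smul_smul, sub_add_cancel]
    rw [e₂, iSup_sup_eq]
    exact Submodule.add_mem_sup (act_mem_iSup hS hτ)
      (mem_iSup_secs hS hP (hρ.smul hs) fun z => P.smul_mem _ (hρP z)))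
  obtain ⟨_, ⟨t, ht, rfl⟩, w, hw, e₂⟩ := Submodule.mem_sup.1 h3
  refine ⟨m, _, u, hu, h2, t, ht, _, Fn_le (hw.1 i₁), _, Fn_le (hw.1 i₂), fun z => ?_⟩
  have e₃ : w z = w z i₁ • (Pi.single i₁ 1 : ι → ℂ) + w z i₂ • (Pi.single i₂ 1 : ι → ℂ) := by
    funext k
    by_cases k1 : k = i₁
    · simp [k1, h.ne]
    by_cases k2 : k = i₂
    · simp [k2, h.ne.symm]
    · simpa [k1, k2] using hw.2 z k (by tauto)
  rw [sub_sub, ← e₃, eq_sub_iff_add_eq]
  exact congrFun e₂ z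
variable (hsm : S.Sm 3) (hi : S.Irred)
include hsm hi
set_option linter.unusedVariables false in
/-- Local frame at `p`: homogeneous `t i`, `i ≠ i₂`, with `Φ (t i₁) = r (y e₁ - x e₂)` and
`Φ (t i) = r e_i - a_i e₁ - c_i e₂` (`gen`, `onto`, `GSub.exists_hom`). -/
theorem exists_frame : ∃ (t : ι → S.pts → κ → ℂ) (n : ι → ℤ) (r : S.pts → ℂ) (a c : ι → S.pts → ℂ),
    r ∈ S.fn ∧ r p ≠ 0 ∧ (∀ i, a i ∈ S.fn ∧ c i ∈ S.fn) ∧ (∀ i, t i ∈ Amb S b (sdeg b e) (n i)) ∧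
    (∀ z, act S 0 Φ (t i₁) z = (r z * eval z.1 (g () i₂)) • (Pi.single i₁ 1 : ι → ℂ) -
      (r z * eval z.1 (g () i₁)) • (Pi.single i₂ 1 : ι → ℂ)) ∧
    ∀ i, i ≠ i₁ → i ≠ i₂ → ∀ z, act S 0 Φ (t i) z = r z • (Pi.single i 1 : ι → ℂ) -
      a i z • (Pi.single i₁ 1 : ι → ℂ) - c i z • (Pi.single i₂ 1 : ι → ℂ) := by
  have key : ∀ i, ∃ m n, ∃ r ∈ Fn S b m, r p ≠ 0 ∧ ∃ t ∈ Amb S b (sdeg b e) n,
      ∃ a ∈ S.fn, ∃ c ∈ S.fn, (i = i₁ → ∀ z, act S 0 Φ t z =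
        (r z * eval z.1 (g () i₂)) • (Pi.single i₁ 1 : ι → ℂ) -
          (r z * eval z.1 (g () i₁)) • (Pi.single i₂ 1 : ι → ℂ)) ∧
      (i ≠ i₁ → ∀ z, act S 0 Φ t z = r z • (Pi.single i 1 : ι → ℂ) -
        a z • (Pi.single i₁ 1 : ι → ℂ) - c z • (Pi.single i₂ 1 : ι → ℂ)) := fun i => by
    by_cases hi : i = i₁
    · obtain ⟨m, n, r, hr, h0, t, ht, e⟩ := h.frame_one hS
      exact ⟨m, n, r, hr, h0, t, ht, 0, zero_mem _, 0, zero_mem _, fun _ => e,
        fun h => absurd hi h⟩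
    · obtain ⟨m, n, r, hr, h0, t, ht, a, ha, c, hc, e⟩ := h.frame_other hS i
      exact ⟨m, n, r, hr, h0, t, ht, a, ha, c, hc, fun h => absurd h hi, fun _ => e⟩
  choose m n r hr h0 t ht a ha c hc e₁ e₂ using key
  let q : ι → S.pts → ℂ := fun i => ∏ j ∈ Finset.univ.erase i, r j
  have hq : ∀ i, q i ∈ Fn S b _ := fun i => prod_mem_Fn _ fun j _ => hr j
  have hqr : ∀ i z, (∏ j, r j) z = q i z * r i z := fun i z => by
    rw [← Finset.prod_erase_mul _ _ (Finset.mem_univ i)]; rfl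
  refine ⟨fun i => q i • t i, _, ∏ j, r j, fun i => q i * a i, fun i => q i * c i,
    prod_mem fun j _ => Fn_le (hr j), ?_,
    fun i => ⟨mul_mem (Fn_le (hq i)) (ha i), mul_mem (Fn_le (hq i)) (hc i)⟩,
    fun i => smul_mem_Amb (hq i) (ht i), fun z => ?_, fun i h1 _ z => ?_⟩
  · rw [Finset.prod_apply]; exact Finset.prod_ne_zero_iff.2 fun a _ => h0 a
  · rw [act_smul, Pi.smul_apply', e₁ i₁ rfl, hqr i₁, smul_sub, smul_smul, smul_smul, mul_assoc,
      mul_assoc]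
  · rw [act_smul, Pi.smul_apply', e₂ i h1, hqr i, smul_sub, smul_sub, smul_smul, smul_smul,
      smul_smul]
    rfl
lemma exists_fr : ∃ (t : ι → S.pts → κ → ℂ) (n : ι → ℤ) (r : S.pts → ℂ) (a c : ι → S.pts → ℂ),
    (∀ i, t i ∈ Amb S b (sdeg b e) (n i)) ∧ Fr p g Φ i₁ i₂ t r a c := by
  obtain ⟨t, n, r, a, c, h1, h2, h3, h4, h5, h6⟩ := h.exists_frame hS hsm hi
  exact ⟨t, n, r, a, c, h4, h1, h2, h3, fun i => regV_of_Amb (h4 i),
    fun z => (act0 _ _ _).symm.trans (h5 z), fun i k k' z => (act0 _ _ _).symm.trans (h6 i k k' z)⟩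
set_option linter.unusedVariables false in
theorem Rv_off {z : Pt} (hz : z ∈ S.pts) (ho : ∀ c : ℂ, z ≠ c • p.1) :
    Rv S Φ z = LinearMap.ker (mev z Φ) ∧
      LinearMap.range (mev z Φ) = LinearMap.ker (mev z g) := by
  obtain ⟨j, hj⟩ := h.off z hz ho
  obtain ⟨r, hr, h0, τ, hτ⟩ := exists_common Φ (fun i y =>
    eval y.1 (g () j) • (Pi.single i 1 : ι → ℂ) - eval y.1 (g () i) • (Pi.single j 1 : ι → ℂ))
    ⟨z, hz⟩ fun i => h.onto_reg hS (((RegV.const _).smul (S.eval_mem_fn _)).sub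
      ((RegV.const _).smul (S.eval_mem_fn _))) (fun y => by
        simp only [map_sub, map_smul, mev_g_single]
        funext u; simp [mul_comm]) _
  have key : ∀ (y : S.pts) (w : ι → ℂ), mev y.1 g w = 0 →
      mev y.1 Φ (∑ i, w i • τ i y) = (r y * eval y.1 (g () j)) • w := fun y w hw => by
    have h1 : ∑ i, eval y.1 (g () i) * w i = 0 := congrFun hw ()
    simp only [map_sum, map_smul, ← act0, (hτ _).2, Pi.smul_apply', smul_sub, smul_smul,
      Finset.sum_sub_distrib, ← Finset.sum_smul]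
    have h2 : ∑ i, w i * (r y * eval y.1 (g () i)) = 0 := by
      rw [← mul_zero (r y), ← h1, Finset.mul_sum]
      exact Finset.sum_congr rfl fun i _ => by ring
    rw [h2, zero_smul, sub_zero]
    conv_rhs => rw [pi_eq_sum_univ' w, Finset.smul_sum]
    exact Finset.sum_congr rfl fun i _ => by rw [smul_smul, mul_comm]
  have h1 : r ⟨z, hz⟩ * eval z (g () j) ≠ 0 := mul_ne_zero h0 hj
  refine ⟨le_antisymm (Rv_le hz) fun v hv => ?_, le_antisymm ?_ fun w hw => ?_⟩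
  · rw [← Submodule.smul_mem_iff _ h1]
    refine (mem_Rv (z := ⟨z, hz⟩)).2 ⟨fun y => (r y * eval y.1 (g () j)) • v -
      ∑ i, mev y.1 Φ v i • τ i y, ⟨((RegV.const _).smul (mul_mem hr (S.eval_mem_fn _))).sub
        (RegV.sum _ fun i _ => (hτ i).1.smul (regV_pi.1 (regV_mev Φ (RegV.const v)) i)),
        fun y => ?_⟩, ?_⟩
    · rw [map_sub, key y _ (h.cx _ y.2 v), map_smul, sub_self]
    · simp [LinearMap.mem_ker.1 hv]
  · rintro _ ⟨v, rfl⟩
    exact h.cx z hz v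
  · rw [← Submodule.smul_mem_iff _ h1]
    exact ⟨_, key ⟨z, hz⟩ w hw⟩
/-- near `p` the frame and the second syzygies span -/
lemma decomp {t : ι → S.pts → κ → ℂ} {r : S.pts → ℂ} {a c : ι → S.pts → ℂ}
    (F : Fr p g Φ i₁ i₂ t r a c) (v : κ → ℂ) : ∃ s ∈ S.fn, s p ≠ 0 ∧ ∃ ρ : S.pts → κ → ℂ,
      (RegV S.fn ρ ∧ ∀ y : S.pts, mev y.1 Φ (ρ y) = 0) ∧ ∃ l : ι → S.pts → ℂ,
        ∀ z, s z • v = ρ z + ∑ i ∈ Finset.univ.erase i₂, l i z • t i z := by
  let T := (Finset.univ.erase i₂).erase i₁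
  have hT : ∀ i ∈ T, i ≠ i₁ ∧ i ≠ i₂ := fun i hi => by simpa [T] using hi
  have h12 : i₁ ∈ Finset.univ.erase i₂ := by simp [h.ne]
  let w : S.pts → ι → ℂ := fun z => mev z.1 Φ v
  have hw : ∀ i, (fun z => w z i) ∈ S.fn := regV_pi.1 (regV_mev Φ (RegV.const v))
  let α : S.pts → ℂ := fun z => r z * w z i₁ + ∑ i ∈ T, w z i * a i z
  let β : S.pts → ℂ := fun z => r z * w z i₂ + ∑ i ∈ T, w z i * c i z
  have hα : α ∈ S.fn := fadd_mem (fmul_mem F.hr (hw _))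
    (fsum_mem _ fun i _ => fmul_mem (hw i) (F.hac i).1)
  have hβ : β ∈ S.fn := fadd_mem (fmul_mem F.hr (hw _))
    (fsum_mem _ fun i _ => fmul_mem (hw i) (F.hac i).2)
  let v' : S.pts → κ → ℂ := fun z => r z • v - ∑ i ∈ T, w z i • t i z
  have hv' : RegV S.fn v' :=
    ((RegV.const _).smul F.hr).sub (RegV.sum _ fun i _ => (F.ht i).smul (hw i))
  have e₁ : ∀ z, mev z.1 Φ (v' z) =
      α z • (Pi.single i₁ 1 : ι → ℂ) + β z • (Pi.single i₂ 1 : ι → ℂ) := fun z => by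
    have k1 := pi_eq_sum_univ' (w z)
    rw [← Finset.add_sum_erase _ _ (Finset.mem_univ i₂), ← Finset.add_sum_erase _ _ h12] at k1
    have k2 : ∑ i ∈ T, w z i • mev z.1 Φ (t i z) =
        r z • ∑ i ∈ T, w z i • (Pi.single i 1 : ι → ℂ) -
          (∑ i ∈ T, w z i * a i z) • (Pi.single i₁ 1 : ι → ℂ) -
          (∑ i ∈ T, w z i * c i z) • (Pi.single i₂ 1 : ι → ℂ) := by
      rw [Finset.smul_sum, Finset.sum_smul, Finset.sum_smul, ← Finset.sum_sub_distrib,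
        ← Finset.sum_sub_distrib]
      exact Finset.sum_congr rfl fun i hi => by rw [F.eq i (hT i hi).1 (hT i hi).2]; module
    simp only [v', map_sub, map_smul, map_sum, k2]
    have k3 : r z • mev z.1 Φ v = _ := congrArg (r z • ·) k1
    rw [k3]
    simp only [α, β]
    module
  obtain ⟨r', hr', u, hu, h0, e₂, e₃⟩ := h.gen.koszul hS hsm hi (h.g_mem i₁) (h.g_mem i₂)
    (h.zero i₁) (h.zero i₂) hα (neg_mem hβ) (funext fun z => by
      have := congrFun (h.cx _ z.2 (v' z)) ()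
      rw [e₁, map_add, map_smul, map_smul, mev_g_single, mev_g_single] at this
      simp only [Pi.mul_apply, Pi.neg_apply]
      simp only [Pi.add_apply, Pi.smul_apply, smul_eq_mul, Pi.zero_apply] at this
      linear_combination this)
  refine ⟨r * r' * r, mul_mem (mul_mem F.hr hr') F.hr,
    mul_ne_zero (mul_ne_zero F.r0 h0) F.r0, fun z => (r z * r' z) • v' z - u z • t i₁ z,
    ⟨(hv'.smul (mul_mem F.hr hr')).sub ((F.ht i₁).smul hu), fun z => ?_⟩,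
    fun i z => if i = i₁ then u z else r z * r' z * w z i, fun z => ?_⟩
  · have k1 : r' z * α z = u z * eval z.1 (g () i₂) := congrFun e₂ z
    have k2 : r' z * -β z = u z * eval z.1 (g () i₁) := congrFun e₃ z
    rw [map_sub, map_smul, map_smul, e₁, F.e₁]
    match_scalars
    · linear_combination r z * k1
    · linear_combination -r z * k2
  · beta_reduce
    rw [← Finset.add_sum_erase _ _ h12, if_pos rfl, Finset.sum_congr rfl
      fun i (hi : i ∈ T) => by rw [if_neg (hT i hi).1, mul_smul], ← Finset.smul_sum]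
    simp only [v', Pi.mul_apply]
    module
lemma mem_sup_span {t : ι → S.pts → κ → ℂ} {r : S.pts → ℂ} {a c : ι → S.pts → ℂ}
    (F : Fr p g Φ i₁ i₂ t r a c) (v : κ → ℂ) :
    v ∈ Rv S Φ p.1 ⊔ Submodule.span ℂ ((fun i => t i p) '' (Finset.univ.erase i₂ : Finset ι)) := by
  obtain ⟨s, -, h0, ρ, hρ, l, e⟩ := h.decomp hS hsm hi F v
  rw [← Submodule.smul_mem_iff _ h0, e]
  exact Submodule.add_mem_sup (mem_Rv.2 ⟨ρ, hρ, rfl⟩) (sum_mem fun i hi =>
    Submodule.smul_mem _ _ (Submodule.subset_span ⟨i, hi, rfl⟩))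
omit hsm hi in
/-- the second syzygies are stable under scaling -/
lemma Rv_scale {z z' : S.pts} {c : ℂ} (hc : c ≠ 0) (hz : z'.1 = c • z.1) :
    (Rv S Φ z.1).map (LinearMap.mul ℂ _ fun k => c ^ sdeg b e k) ≤ Rv S Φ z'.1 := by
  rintro _ ⟨v, hv, rfl⟩
  obtain ⟨ρ, hρ, rfl⟩ := mem_Rv.1 hv
  have hΦ : MHmg (fun k => sdeg b e k • eB b) (fun _ => -(d • eB b)) Φ := by
    simpa only [h.deg_e hS] using h.hΦ
  have := mem_iSup_secs hS (isEqv_bot.comap hΦ) hρ.1 hρ.2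
  clear hv hρ
  induction this using Submodule.iSup_induction' with
  | mem j σ hσ =>
    rw [← Submodule.smul_mem_iff _ (zpow_ne_zero j hc)]
    refine mem_Rv.2 ⟨σ, ⟨regV_of_Amb hσ.1, hσ.2⟩, funext fun k => ?_⟩
    have := Fn_smul hS (hσ.1 k) hz
    simp only [zpow_add₀ hc] at this
    simp [this, mul_assoc]
  | zero => simp
  | add σ σ' _ _ h1 h2 => rw [Pi.add_apply, map_add]; exact add_mem h1 h2
/-- at `p`: `⊤ = Rv p ⊔ span (t i p)`, and semicontinuity of the generated family -/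
theorem finrank_Rv {z : Pt} (hz : z ∈ S.pts) :
    finrank ℂ (Rv S Φ z) + Fintype.card ι = Fintype.card κ + 1 := by
  have off : ∀ y : S.pts, (∀ c : ℂ, y.1 ≠ c • p.1) →
      finrank ℂ (Rv S Φ y.1) + Fintype.card ι = Fintype.card κ + 1 := fun y hy => by
    obtain ⟨h1, h2⟩ := h.Rv_off hS hsm hi y.2 hy
    obtain ⟨j, hj⟩ := h.off _ y.2 hy
    have h3 := (mev y.1 Φ).finrank_range_add_finrank_ker
    have h4 := (mev y.1 g).finrank_range_add_finrank_ker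
    have h5 : LinearMap.range (mev y.1 g) = ⊤ := top_unique fun w _ =>
      ⟨(w () / eval y.1 (g () j)) • Pi.single j 1, by
        rw [map_smul, mev_g_single]; funext u; simp [hj]⟩
    rw [h5, finrank_top] at h4
    rw [h1]
    rw [h2] at h3
    simp only [Module.finrank_fintype_fun_eq_card, Fintype.card_unique] at h3 h4
    omega
  by_cases ho : ∀ c : ℂ, z ≠ c • p.1
  · exact off ⟨z, hz⟩ ho
  push Not at ho
  obtain ⟨c, hc⟩ := ho
  obtain ⟨y, hy, h1⟩ := exists_off hS hsm hi p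
    (usc_iff.1 (genA_vals (P := regS S _ ⊓ LinearMap.ker (act S 0 Φ)) inf_le_left).usc ⟨z, hz⟩)
  have h2 := off y hy
  obtain ⟨t, n, r, a, c', -, F⟩ := h.exists_fr hS hsm hi
  have h3 := card_le_of_top _ _ _ (h.mem_sup_span hS hsm hi F)
  rw [Finset.card_erase_of_mem (Finset.mem_univ _), Finset.card_univ] at h3
  have h4 : 0 < Fintype.card ι := Fintype.card_pos_iff.2 ⟨i₁⟩
  have hc0 : c ≠ 0 := by
    rintro rfl
    obtain ⟨u, hu⟩ := exists_ne hS ⟨z, hz⟩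
    exact hu (by simp [hc])
  have h5 := Submodule.finrank_mono (h.Rv_scale hS hc0 (z := p) (z' := ⟨z, hz⟩) hc)
  rw [B0.finrank_map_of_inj (eq_bot_iff.2 fun v hv => funext fun k =>
    (mul_eq_zero.1 (congrFun hv.2 k)).resolve_left (zpow_ne_zero _ hc0))] at h5
  change -(finrank ℂ (Rv S Φ y.1) : ℤ) ≤ -(finrank ℂ (Rv S Φ z) : ℤ) at h1
  change finrank ℂ (Rv S Φ p.1) ≤ finrank ℂ (Rv S Φ z) at h5
  omega
theorem isAB_Rv : IsAB S (co e) (Rv S Φ) := by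
  have hr : ∀ x ∈ S.pts, finrank ℂ (Rv S Φ x) = Fintype.card κ + 1 - Fintype.card ι :=
    fun x hx => by have := h.finrank_Rv hS hsm hi hx; omega
  refine ⟨in_co fun k => (h.he k).1, (genA_vals inf_le_left).alg_of_rk hr, fun z hz => ?_⟩
  refine Submodule.eq_of_le_of_finrank_eq ?_ (by
    rw [LinearEquiv.finrank_map_eq, hr z hz, hr _ (S.inv z hz)])
  have e₁ : (gd e).toLinearMap = LinearMap.mul ℂ _ fun k => chi (eB b) ^ sdeg b e k :=
    LinearMap.ext fun v => funext fun k => by simp [← chi_zsmul, h.deg_e hS]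
  exact e₁ ▸ h.Rv_scale hS (chi_ne (eB b)) (z := ⟨z, hz⟩) (z' := ⟨_, S.inv z hz⟩) (hS.gpt_eq hz)
end SyzD

end Crest.Agent.N265.N
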