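import Crest.Agent.N265.N.Dlt0

/-!
# Row 265, layer N, task N-DLT (part 1): forms that vanish at a point, `𝔪 / 𝔪²`
-/

set_option autoImplicit false
noncomputable section
open MvPolynomial Module

namespace Crest.Agent.N265.N
open Alg
variable {S : Spc} {b : ℕ}

/-- forms of degree `k` that vanish at `z`, as functions -/
def mFn (S : Spc) (b : ℕ) (k : ℤ) (z : S.pts) : Submodule ℂ (S.pts → ℂ) :=
  Fn S b k ⊓ LinearMap.ker (LinearMap.proj z)
lemma mem_mFn {k : ℤ} {z : S.pts} {f : S.pts → ℂ} : f ∈ mFn S b k z ↔ f ∈ Fn S b k ∧ f z = 0 :=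
  Iff.rfl
lemma pow_mem_Fn' {l : S.pts → ℂ} (hl : l ∈ Fn S b 1) (n : ℕ) : l ^ n ∈ Fn S b n := by
  simpa using pow_mem_Fn hl n
lemma exists_lin_one (hS : Base S b) (z : S.pts) : ∃ l ∈ Fn S b 1, l z = 1 := by
  obtain ⟨l, hl, h⟩ := exists_lin_ne hS {z}
  exact ⟨(l z)⁻¹ • l, Submodule.smul_mem _ _ hl, inv_mul_cancel₀ (h z (by simp))⟩
lemma sub_mem_mFn {z : S.pts} {l f : S.pts → ℂ} (hl : l ∈ Fn S b 1) (h1 : l z = 1) {n : ℕ}
    (hf : f ∈ Fn S b n) : f - f z • l ^ n ∈ mFn S b n z :=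
  ⟨sub_mem hf (Submodule.smul_mem _ _ (pow_mem_Fn' hl n)), by
    change f z - f z * l z ^ n = 0
    rw [h1, one_pow, mul_one, sub_self]⟩
lemma mul_mem_mFn {z : S.pts} {m n : ℤ} {g f : S.pts → ℂ} (hg : g ∈ Fn S b m) (hf : f ∈ mFn S b n z) :
    g * f ∈ mFn S b (m + n) z := ⟨mul_mem_Fn hg hf.1, mul_eq_zero_of_right _ hf.2⟩
lemma sub_pow_mem (hS : Base S b) {z : S.pts} {l : S.pts → ℂ} (hl : l ∈ Fn S b 1) (h1 : l z = 1)
    (k : ℕ) : ∀ f ∈ Fn S b k, f - f z • l ^ k ∈ mFn S b 1 z * Fn S b (k - 1) := by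
  induction k with
  | zero =>
    intro f hf
    obtain ⟨c, rfl⟩ := Fn_zero hS hf
    rw [show (fun _ => c) - c • l ^ 0 = (0 : S.pts → ℂ) from funext fun _ => by simp]
    exact zero_mem _
  | succ k ih =>
    intro f hf
    rw [Nat.cast_succ] at hf
    rw [Nat.cast_succ, add_sub_cancel_right]
    have hf' := Fn_succ hS (Nat.cast_nonneg k) hf
    clear hf
    induction hf' using Submodule.span_induction with
    | zero => simp
    | add f g _ _ h h' => rw [Pi.add_apply, add_smul, add_sub_add_comm]; exact add_mem h h'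
    | smul c f _ h =>
      rw [Pi.smul_apply, smul_assoc, ← smul_sub]; exact Submodule.smul_mem _ c h
    | mem f hf =>
      obtain ⟨g, hg, h, hh, rfl⟩ := hf
      have e : g * h - (g * h) z • l ^ (k + 1) =
          (g - g z • l ^ 1) * h + g z • (l * (h - h z • l ^ k)) := by
        funext y; simp only [Pi.sub_apply, Pi.add_apply, Pi.mul_apply, Pi.smul_apply,
          Pi.pow_apply, smul_eq_mul]; ring
      rw [e]
      refine add_mem (Submodule.mul_mem_mul (sub_mem_mFn (n := 1) hl h1 hg) hh)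
        (Submodule.smul_mem _ _ ?_)
      refine Submodule.mul_induction_on (ih h hh) (fun v hv w hw => ?_) fun v w hv hw => ?_
      · rw [mul_left_comm]
        exact Submodule.mul_mem_mul hv (by simpa using mul_mem_Fn hl hw)
      · rw [mul_add]; exact add_mem hv hw
theorem mFn_succ (hS : Base S b) (z : S.pts) (k : ℕ) :
    mFn S b 1 z * Fn S b k = mFn S b (k + 1 : ℕ) z := by
  refine le_antisymm (Submodule.mul_le.2 fun v hv g hg => ?_) fun f hf => ?_
  · rw [mul_comm, Nat.cast_succ]; exact mul_mem_mFn hg hv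
  · obtain ⟨l, hl, h1⟩ := exists_lin_one hS z
    have := sub_pow_mem hS hl h1 (k + 1) f hf.1
    rwa [(mem_mFn.1 hf).2, zero_smul, sub_zero, Nat.cast_succ, add_sub_cancel_right] at this

/-- homogeneous form of `LocGen` -/
lemma LocGen.hom (hS : Base S b) {p : S.pts} {d m : ℤ} {x y f : S.pts → ℂ} (h : LocGen S b p x y)
    (hx : x ∈ Fn S b d) (hy : y ∈ Fn S b d) (hf : f ∈ Fn S b m) (h0 : f p = 0) :
    ∃ n : ℕ, ∃ r ∈ Fn S b n, ∃ a ∈ Fn S b (m + n + -d), ∃ c ∈ Fn S b (m + n + -d),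
      r p ≠ 0 ∧ r * f = a * x + c * y := by
  obtain ⟨r, hr, a, ha, c, hc, h1, e⟩ := h m f hf h0
  let φ : (S.pts → Fin 2 → ℂ) →ₗ[ℂ] (S.pts → Unit → ℂ) :=
    { toFun := fun σ z _ => σ z 0 * x z + σ z 1 * y z
      map_add' := fun σ τ => by funext z u; simp only [Pi.add_apply]; ring
      map_smul' := fun t σ => by
        funext z u; simp only [Pi.smul_apply, smul_eq_mul, RingHom.id_apply]; ring }
  have G : GSub S b (fun _ : Unit => 0) fun j => (Amb S b (fun _ : Fin 2 => -d) j).map φ :=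
    gsub_Amb.map φ (fun g σ => by
      funext z u
      change g z * σ z 0 * x z + g z * σ z 1 * y z = g z * (σ z 0 * x z + σ z 1 * y z)
      ring) fun j σ hσ _ => by
      have := add_mem (mul_mem_Fn (hσ 0) hx) (mul_mem_Fn (hσ 1) hy)
      rw [neg_add_cancel_right] at this
      rw [add_zero]; exact this
  obtain ⟨n, g, hg, h2, τ, hτ, e'⟩ := G.exists_hom hS (j := m) (σ := fun z _ => f z)
    (fun _ => by rw [add_zero]; exact hf) hr h1 (by
      rw [← Submodule.map_iSup]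
      refine ⟨fun z => ![a z, c z], D0.reg_mem_iSup hS _ (regV_pi.2 fun i => ?_),
        funext fun z => funext fun _ => (congrFun e z).symm⟩
      fin_cases i
      exacts [ha, hc])
  obtain ⟨n, rfl⟩ : ∃ n' : ℕ, n = n' := Int.eq_ofNat_of_zero_le (not_lt.1 fun hn => h2 (by
    rw [Fn_neg hn] at hg
    rw [(Submodule.mem_bot ℂ).1 hg]; rfl))
  exact ⟨n, g, hg, _, hτ 0, _, hτ 1, h2, funext fun z => (congrFun (congrFun e' z) ()).symm⟩

/-- `𝔪 / 𝔪²` in high degree has the basis `l^k x`, `l^k y` -/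
theorem exists_two_fn (hS : Base S b) (hsm : S.Sm 3) (hi : S.Irred) (z : S.pts) :
    ∃ k₀ : ℕ, ∀ k ≥ k₀,
      finrank ℂ (mFn S b 1 z * mFn S b k z : Submodule ℂ _) + 2 = finrank ℂ (mFn S b (k + 1 : ℕ) z) := by
  classical
  obtain ⟨x, hx, y, hy, hx0, hy0, -, hg⟩ := exists_locGen hS hsm z le_rfl
  obtain ⟨l, hl, h1⟩ := exists_lin_one hS z
  let φ : ℕ → ℂ × ℂ →ₗ[ℂ] (S.pts → ℂ) := fun k =>
    (LinearMap.toSpanSingleton ℂ _ (l ^ k * x)).coprod (LinearMap.toSpanSingleton ℂ _ (l ^ k * y))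
  have hφ : ∀ k α β, φ k (α, β) = α • (l ^ k * x) + β • (l ^ k * y) := fun _ _ _ => rfl
  have key : ∀ v ∈ mFn S b 1 z, ∃ n : ℕ, ∀ k ≥ n,
      l ^ k * v ∈ (⊤ : Submodule ℂ _).map (φ k) ⊔ mFn S b 1 z * mFn S b k z := fun v hv => by
    obtain ⟨n, r, hr, a, ha, c, hc, h0, e⟩ := hg.hom hS hx hy hv.1 hv.2
    rw [show 1 + (n : ℤ) + -1 = n by ring] at ha hc
    refine ⟨n, fun k hk => ?_⟩
    obtain ⟨m, rfl⟩ := Nat.exists_eq_add_of_le' hk
    have hm : ∀ g ∈ Fn S b n, l ^ m * (g - g z • l ^ n) ∈ mFn S b (m + n : ℕ) z := fun g hg => by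
      rw [Nat.cast_add]; exact mul_mem_mFn (pow_mem_Fn' hl m) (sub_mem_mFn hl h1 hg)
    rw [← Submodule.smul_mem_iff _ h0, show r z • (l ^ (m + n) * v) = φ (m + n) (a z, c z) +
      (x * (l ^ m * (a - a z • l ^ n)) + y * (l ^ m * (c - c z • l ^ n)) -
        v * (l ^ m * (r - r z • l ^ n))) from funext fun w => by
      have := congrFun e w
      simp only [hφ, Pi.sub_apply, Pi.add_apply, Pi.mul_apply, Pi.smul_apply, Pi.pow_apply,
        smul_eq_mul] at this ⊢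
      linear_combination l w ^ m * this]
    exact Submodule.add_mem_sup ⟨_, trivial, rfl⟩ (sub_mem (add_mem
      (Submodule.mul_mem_mul ⟨hx, hx0⟩ (hm a ha)) (Submodule.mul_mem_mul ⟨hy, hy0⟩ (hm c hc)))
      (Submodule.mul_mem_mul hv (hm r hr)))
  have fd : ∀ k, FiniteDimensional ℂ (mFn S b k z) := fun k =>
    Submodule.finiteDimensional_of_le inf_le_left
  obtain ⟨s, hs⟩ := Module.Finite.iff_fg.1 (fd 1)
  choose! n hn using key
  refine ⟨s.sup n, fun k hk => ?_⟩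
  have hle : mFn S b 1 z * mFn S b k z ≤ mFn S b (k + 1 : ℕ) z :=
    (mul_le_mul_right (inf_le_left : mFn S b k z ≤ _) _).trans (mFn_succ hS z k).le
  have e1 : (⊤ : Submodule ℂ _).map (φ k) ⊔ mFn S b 1 z * mFn S b k z = mFn S b (k + 1 : ℕ) z := by
    refine le_antisymm (sup_le ?_ hle) ((mFn_succ hS z k).ge.trans
      (Submodule.mul_le.2 fun v hv g hg => ?_))
    · rintro _ ⟨⟨α, β⟩, -, rfl⟩
      rw [hφ, Nat.cast_succ]
      exact add_mem (Submodule.smul_mem _ _ (mul_mem_mFn (pow_mem_Fn' hl k) ⟨hx, hx0⟩))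
        (Submodule.smul_mem _ _ (mul_mem_mFn (pow_mem_Fn' hl k) ⟨hy, hy0⟩))
    · have h2 : mFn S b 1 z ≤ Submodule.comap (LinearMap.mulLeft ℂ (l ^ k))
          ((⊤ : Submodule ℂ _).map (φ k) ⊔ mFn S b 1 z * mFn S b k z) :=
        hs.ge.trans (Submodule.span_le.2 fun w hw =>
          hn w (hs.le (Submodule.subset_span hw)) k ((Finset.le_sup hw).trans hk))
      rw [show v * g = g z • (l ^ k * v) + v * (g - g z • l ^ k) by
        rw [mul_sub, mul_smul_comm, mul_comm v (l ^ k), add_sub_cancel]]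
      exact add_mem (Submodule.smul_mem _ _ (h2 hv))
        (Submodule.mem_sup_right (Submodule.mul_mem_mul hv (sub_mem_mFn hl h1 hg)))
  have loc : ∀ w ∈ mFn S b 1 z * mFn S b k z, ∃ r ∈ S.fn, ∃ a ∈ S.fn, ∃ c ∈ S.fn,
      r z ≠ 0 ∧ a z = 0 ∧ c z = 0 ∧ r * w = a * x + c * y := fun w hw => by
    refine Submodule.mul_induction_on hw (fun v hv g hg' => ?_) ?_
    · obtain ⟨r, hr, a, ha, c, hc, h0, e⟩ := hg 1 v hv.1 hv.2
      exact ⟨r, hr, a * g, mul_mem ha (Fn_le hg'.1), c * g, mul_mem hc (Fn_le hg'.1), h0,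
        mul_eq_zero_of_right _ hg'.2, mul_eq_zero_of_right _ hg'.2, by linear_combination g * e⟩
    · rintro w w' ⟨r, hr, a, ha, c, hc, h0, ha0, hc0, e⟩ ⟨r', hr', a', ha', c', hc', h0', ha0', hc0', e'⟩
      exact ⟨r * r', mul_mem hr hr', r' * a + r * a', add_mem (mul_mem hr' ha) (mul_mem hr ha'),
        r' * c + r * c', add_mem (mul_mem hr' hc) (mul_mem hr hc'), mul_ne_zero h0 h0',
        by simp [ha0, ha0'], by simp [hc0, hc0'], by linear_combination r' * e + r * e'⟩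
  have e2 : ⊤ ⊓ (mFn S b 1 z * mFn S b k z).comap (φ k) = ⊥ := eq_bot_iff.2 fun ⟨α, β⟩ hw => by
    obtain ⟨r, hr, a, ha, c, hc, h0, ha0, hc0, e⟩ := loc _ hw.2
    have hk' := Fn_le (pow_mem_Fn' hl k)
    obtain ⟨t, -, u, -, ht, e₁, e₂⟩ := hg.koszul hS hsm hi hx hy hx0 hy0
      (a := α • (r * l ^ k) - a) (c := c - β • (r * l ^ k))
      (sub_mem (Subalgebra.smul_mem _ (mul_mem hr hk') α) ha)
      (sub_mem hc (Subalgebra.smul_mem _ (mul_mem hr hk') β)) (funext fun w => by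
        have := congrFun e w
        simp only [hφ, Pi.sub_apply, Pi.add_apply, Pi.mul_apply, Pi.smul_apply, Pi.pow_apply,
          smul_eq_mul] at this ⊢
        linear_combination this)
    have e₃ := congrFun e₁ z
    have e₄ := congrFun e₂ z
    simp [hx0, hy0, ha0, hc0, h1, ht, h0] at e₃ e₄
    simp [e₃, e₄]
  have : FiniteDimensional ℂ (mFn S b 1 z * mFn S b k z : Submodule ℂ _) :=
    Submodule.finiteDimensional_of_le hle
  have h3 := Submodule.finrank_sup_add_finrank_inf_eq ((⊤ : Submodule ℂ _).map (φ k))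
    (mFn S b 1 z * mFn S b k z)
  have h4 : (⊤ : Submodule ℂ _).map (φ k) ⊓ (mFn S b 1 z * mFn S b k z) = ⊥ :=
    eq_bot_iff.2 fun _ ⟨⟨t, _, e⟩, hw⟩ => by
      have : t = 0 := e2.le ⟨trivial, Submodule.mem_comap.2 (e ▸ hw)⟩
      rw [← e, this, map_zero]
      exact zero_mem _
  have h5 : Function.Injective (φ k) := (injective_iff_map_eq_zero _).2 fun t ht =>
    e2.le ⟨trivial, Submodule.mem_comap.2 (ht ▸ zero_mem _)⟩
  rw [e1, h4, finrank_bot, Submodule.map_top, LinearMap.finrank_range_of_inj h5] at h3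
  simp only [finrank_prod, finrank_self] at h3
  omega

/-! ### linear algebra -/
namespace DL
open TensorProduct _root_.Crest.Agent.N265.Pow
variable {A M : Type} [AddCommGroup A] [Module ℂ A] [AddCommGroup M] [Module ℂ M]
lemma exists_basis_sub [FiniteDimensional ℂ M] (P : Submodule ℂ M) :
    ∃ n, Nonempty (Basis (Fin n) ℂ P) := ⟨_, ⟨finBasis ℂ P⟩⟩
lemma exists_basis (M : Type) [AddCommGroup M] [Module ℂ M] [FiniteDimensional ℂ M] :
    ∃ n, Nonempty (Basis (Fin n) ℂ M) := ⟨_, ⟨finBasis ℂ M⟩⟩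
lemma exists_basis_pair [FiniteDimensional ℂ M] (P : Submodule ℂ M) {x y : P}
    (h : LinearIndependent ℂ ![x, y]) : ∃ (n : ℕ) (β : Basis (Fin n) ℂ P) (i j : Fin n),
      i ≠ j ∧ β i = x ∧ β j = y := by
  let β := Basis.extend h.linearIndepOn_id
  have := FiniteDimensional.fintypeBasisIndex β
  have hx := Basis.subset_extend h.linearIndepOn_id ⟨0, rfl⟩
  have hy := Basis.subset_extend h.linearIndepOn_id ⟨1, rfl⟩
  refine ⟨_, β.reindex (Fintype.equivFin _), Fintype.equivFin _ ⟨_, hx⟩, Fintype.equivFin _ ⟨_, hy⟩,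
    fun e => ?_, by simp [β], by simp [β]⟩
  exact zero_ne_one (h.injective (congrArg Subtype.val ((Fintype.equivFin _).injective e)))
lemma exists_proj (P : Submodule ℂ M) : ∃ e : M →ₗ[ℂ] M, (∀ v, e v ∈ P) ∧ ∀ v ∈ P, e v = v := by
  obtain ⟨π, h⟩ := (LinearMap.id : P →ₗ[ℂ] P).exists_extend
  exact ⟨P.subtype ∘ₗ π, fun v => (π v).2, fun v hv =>
    congrArg Subtype.val (LinearMap.congr_fun h ⟨v, hv⟩)⟩
lemma exists_coord {ι : Type} [Fintype ι] {P : Submodule ℂ M} (β : Basis ι ℂ P) :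
    ∃ c : M →ₗ[ℂ] (ι → ℂ), (∀ v ∈ P, ∑ i, c v i • (β i).1 = v) ∧
      ∀ a : ι → ℂ, c (∑ i, a i • (β i).1) = a := by
  obtain ⟨c, h⟩ := β.equivFun.toLinearMap.exists_extend
  have h' : ∀ v : P, c v.1 = β.equivFun v := LinearMap.congr_fun h
  refine ⟨c, fun v hv => ?_, fun a => ?_⟩
  · have := congrArg P.subtype (β.sum_equivFun ⟨v, hv⟩)
    rw [h' ⟨v, hv⟩]
    simpa only [map_sum, map_smul, Submodule.subtype_apply] using this
  · have := h' (β.equivFun.symm a)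
    rw [LinearEquiv.apply_symm_apply, Basis.equivFun_symm_apply] at this
    simpa only [AddSubmonoidClass.coe_finsetSum, Submodule.coe_smul] using this
/-- `l ⊗ l' ⊗ f ↦ (ε l • l' - ε l' • l) ⊗ e f` -/
def kz (e : M →ₗ[ℂ] M) (ε : A →ₗ[ℂ] ℂ) : A ⊗[ℂ] (A ⊗[ℂ] M) →ₗ[ℂ] A ⊗[ℂ] M :=
  e.lTensor A ∘ₗ ((TensorProduct.lid ℂ _).toLinearMap ∘ₗ ε.rTensor _ -
    ((TensorProduct.lid ℂ M).toLinearMap ∘ₗ ε.rTensor M).lTensor A)
variable {e : M →ₗ[ℂ] M} {ε : A →ₗ[ℂ] ℂ} {Q : Submodule ℂ M}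
lemma kz_tmul (l l' : A) (f : M) :
    kz e ε (l ⊗ₜ (l' ⊗ₜ f)) = ε l • (l' ⊗ₜ e f) - ε l' • (l ⊗ₜ e f) := by simp [kz]
lemma kz_ind {P : A ⊗[ℂ] (A ⊗[ℂ] M) → Prop} (h0 : P 0) (ha : ∀ s t, P s → P t → P (s + t))
    (h : ∀ l l' f, P (l ⊗ₜ (l' ⊗ₜ f))) (w : A ⊗[ℂ] (A ⊗[ℂ] M)) : P w := by
  induction w using TensorProduct.induction_on with
  | zero => exact h0
  | add s t hs ht => exact ha s t hs ht
  | tmul l t =>
    induction t using TensorProduct.induction_on with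
    | zero => rwa [tmul_zero]
    | add s t hs ht => rw [tmul_add]; exact ha _ _ hs ht
    | tmul l' f => exact h l l' f
lemma kz_mem (he : ∀ f, e f ∈ Q) (w : A ⊗[ℂ] (A ⊗[ℂ] M)) :
    kz e ε w ∈ tens (LinearMap.ker ε) Q := by
  induction w using kz_ind with
  | h0 => rw [map_zero]; exact zero_mem _
  | ha s t hs ht => rw [map_add]; exact add_mem hs ht
  | h l l' f =>
    rw [kz_tmul, smul_tmul', smul_tmul', ← sub_tmul]
    exact tmul_mem (by simp [mul_comm]) (he f)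
lemma kz_id (he : ∀ f ∈ Q, e f = f) (l : A) {t : A ⊗[ℂ] M} (ht : t ∈ tens (LinearMap.ker ε) Q) :
    kz e ε (l ⊗ₜ t) = ε l • t :=
  tens_eqOn (f := kz e ε ∘ₗ TensorProduct.mk ℂ _ _ l) (g := LinearMap.lsmul ℂ _ (ε l))
    (fun v hv f hf => by simp [kz_tmul, he f hf, LinearMap.mem_ker.1 hv]) ht
lemma kz_smul (c : ℂ) (w : A ⊗[ℂ] (A ⊗[ℂ] M)) : kz e (c • ε) w = c • kz e ε w := by
  induction w using kz_ind with
  | h0 => simp
  | ha s t hs ht => rw [map_add, map_add, hs, ht, smul_add]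
  | h l l' f => simp [kz_tmul, smul_sub, mul_smul]
lemma regM_kz {T : Type} {𝒜 : Subalgebra ℂ (T → ℂ)} {ε : T → A →ₗ[ℂ] ℂ} (h : RegM 𝒜 ε) :
    RegM 𝒜 fun x => kz e (ε x) := fun w => by
  induction w using kz_ind with
  | h0 => simpa using RegV.zero
  | ha s t hs ht => simpa only [map_add] using hs.add ht
  | h l l' f =>
    simpa only [kz_tmul] using ((RegV.const _).smul (regV_scalar.1 (h l))).sub
      ((RegV.const _).smul (regV_scalar.1 (h l')))
lemma isAB_unshift {X : Spc} {V : GV} {d : D} {L : Pt → Submodule ℂ V.V}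
    (h : IsAB X (V.shift d) L) (hV : V.In X.B) : IsAB X V L :=
  ⟨hV, h.alg, fun x hx => (Submodule.map_smul _ _ _ (chi_ne d)).symm.trans (h.eqv x hx)⟩
end DL

end Crest.Agent.N265.N
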