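import Mathlib

/-!
# Finitely many Hilbert functions in a family

For homogeneous vectors `g c` with entries in `A[τ]`, `A` noetherian, the Hilbert functions of the
submodules generated by the specialisations `φ (g c)`, `φ : A →+* k`, form a finite set.
-/

set_option autoImplicit false
noncomputable section
open MvPolynomial

namespace Crest.Agent.N265.N

variable {τ ι κ : Type*}

/-- the degree `j` piece of the submodule generated by the `g c` (of degree `d c`) -/
def piece {A : Type*} [CommRing A] (g : κ → ι → MvPolynomial τ A) (d : κ → ℤ) (j : ℤ) :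
    Submodule A (ι → MvPolynomial τ A) :=
  Submodule.span A {v | ∃ c ν, ((Finsupp.degree ν : ℕ) : ℤ) + d c = j ∧
    v = (monomial ν 1 : MvPolynomial τ A) • g c}

/-- specialisation of a vector -/
def vmap {A k : Type*} [CommRing A] [CommRing k] (φ : A →+* k) (v : ι → MvPolynomial τ A) :
    ι → MvPolynomial τ k := fun i => map φ (v i)

section basic
variable {A k : Type*} [CommRing A] [CommRing k] (φ : A →+* k)

lemma vmap_add (v w : ι → MvPolynomial τ A) : vmap φ (v + w) = vmap φ v + vmap φ w := by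
  funext i; simp [vmap]
lemma vmap_sub (v w : ι → MvPolynomial τ A) : vmap φ (v - w) = vmap φ v - vmap φ w := by
  funext i; simp [vmap]
lemma vmap_smul (a : A) (v : ι → MvPolynomial τ A) : vmap φ (a • v) = φ a • vmap φ v := by
  funext i; simp [vmap, MvPolynomial.smul_eq_C_mul]
lemma vmap_mon (ν : τ →₀ ℕ) (v : ι → MvPolynomial τ A) :
    vmap φ ((monomial ν 1 : MvPolynomial τ A) • v)
      = (monomial ν 1 : MvPolynomial τ k) • vmap φ v := by
  funext i; simp [vmap, map_monomial]
lemma vmap_zero : vmap φ (0 : ι → MvPolynomial τ A) = 0 := by funext i; simp [vmap]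
lemma vmap_vmap {k' : Type*} [CommRing k'] (ψ : k →+* k') (v : ι → MvPolynomial τ A) :
    vmap ψ (vmap φ v) = vmap (ψ.comp φ) v := by funext i; simp [vmap, map_map]

lemma vmap_mem_piece (g : κ → ι → MvPolynomial τ A) (d : κ → ℤ) (j : ℤ)
    {v : ι → MvPolynomial τ A} (hv : v ∈ piece g d j) :
    vmap φ v ∈ piece (fun c => vmap φ (g c)) d j := by
  induction hv using Submodule.span_induction with
  | mem v hv =>
    obtain ⟨c, ν, h, rfl⟩ := hv
    exact Submodule.subset_span ⟨c, ν, h, vmap_mon φ ν _⟩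
  | zero => rw [vmap_zero]; exact zero_mem _
  | add v w _ _ hv hw => rw [vmap_add]; exact add_mem hv hw
  | smul a v _ hv => rw [vmap_smul]; exact Submodule.smul_mem _ _ hv

lemma mon_mem_piece (g : κ → ι → MvPolynomial τ A) (d : κ → ℤ) (j : ℤ) (ν : τ →₀ ℕ)
    {v : ι → MvPolynomial τ A} (hv : v ∈ piece g d j) :
    (monomial ν 1 : MvPolynomial τ A) • v ∈ piece g d (j + (Finsupp.degree ν : ℕ)) := by
  induction hv using Submodule.span_induction with
  | mem v hv =>
    obtain ⟨c, μ, h, rfl⟩ := hv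
    refine Submodule.subset_span ⟨c, ν + μ, ?_, ?_⟩
    · rw [map_add]; push_cast; omega
    · rw [smul_smul, monomial_mul, one_mul]
  | zero => rw [smul_zero]; exact zero_mem _
  | add v w _ _ hv hw => rw [smul_add]; exact add_mem hv hw
  | smul a v _ hv => rw [smul_comm]; exact Submodule.smul_mem _ _ hv

lemma deg_of_mem_piece (g : κ → ι → MvPolynomial τ A) (d : κ → ℤ) (a : ι → ℤ)
    (hg : ∀ c i μ, coeff μ (g c i) ≠ 0 → ((Finsupp.degree μ : ℕ) : ℤ) = d c + a i) (j : ℤ)
    {v : ι → MvPolynomial τ A} (hv : v ∈ piece g d j) :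
    ∀ i μ, coeff μ (v i) ≠ 0 → ((Finsupp.degree μ : ℕ) : ℤ) = j + a i := by
  classical
  induction hv using Submodule.span_induction with
  | mem v hv =>
    obtain ⟨c, ν, h, rfl⟩ := hv
    intro i μ hμ
    simp only [Pi.smul_apply, smul_eq_mul, coeff_monomial_mul'] at hμ
    split_ifs at hμ with hle
    · have h1 := hg c i (μ - ν) (by simpa using hμ)
      have h2 : μ = ν + (μ - ν) := (add_tsub_cancel_of_le hle).symm
      rw [h2, map_add]; push_cast; omega
    · exact absurd rfl hμ
  | zero => intro i μ h; simp at h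
  | add v w _ _ hv hw =>
    intro i μ h
    by_cases h1 : coeff μ (v i) = 0
    · exact hw i μ (by simpa [h1] using h)
    · exact hv i μ h1
  | smul b v _ hv =>
    intro i μ h
    refine hv i μ fun h1 => h ?_
    simp [h1]

end basic

section lead
variable [LinearOrder ι] (m : MonomialOrder τ)

/-- position-over-term key -/
def key (ω : ι × (τ →₀ ℕ)) : ι ×ₗ m.syn := toLex (ω.1, m.toSyn ω.2)

omit [LinearOrder ι] in
lemma key_inj : Function.Injective (key (ι := ι) m) := by
  rintro ⟨i, μ⟩ ⟨i', μ'⟩ h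
  simp only [key, EmbeddingLike.apply_eq_iff_eq, Prod.mk.injEq] at h
  exact Prod.ext h.1 h.2

lemma key_lt_shift {i i' : ι} {μ μ' ν : τ →₀ ℕ} (h : key m (i, ν + μ) < key m (i', ν + μ')) :
    key m (i, μ) < key m (i', μ') := by
  simp only [key, Prod.Lex.toLex_lt_toLex, map_add] at *
  rcases h with h | ⟨h1, h2⟩
  · exact Or.inl h
  · exact Or.inr ⟨h1, lt_of_add_lt_add_left h2⟩

/-- `ω` is the leading position of `v` -/
def IsLead {A : Type*} [CommRing A] (v : ι → MvPolynomial τ A) (ω : ι × (τ →₀ ℕ)) : Prop :=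
  coeff ω.2 (v ω.1) ≠ 0 ∧ ∀ ω' : ι × (τ →₀ ℕ), key m ω < key m ω' → coeff ω'.2 (v ω'.1) = 0

lemma exists_lead [Finite ι] {A : Type*} [CommRing A] {v : ι → MvPolynomial τ A} (hv : v ≠ 0) :
    ∃ ω, IsLead m v ω := by
  have hfin : {ω : ι × (τ →₀ ℕ) | coeff ω.2 (v ω.1) ≠ 0}.Finite := by
    refine (Set.finite_iUnion fun i : ι =>
      ((v i).support.finite_toSet.image fun μ => (i, μ))).subset ?_
    rintro ⟨i, μ⟩ h
    exact Set.mem_iUnion.2 ⟨i, μ, by simpa using h, rfl⟩
  have hne : {ω : ι × (τ →₀ ℕ) | coeff ω.2 (v ω.1) ≠ 0}.Nonempty := by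
    by_contra h
    apply hv
    funext i; ext μ
    by_contra h'
    exact h ⟨(i, μ), by simpa using h'⟩
  obtain ⟨ω, hω, hmax⟩ := Set.exists_max_image _ (key m) hfin hne
  exact ⟨ω, hω, fun ω' h => by
    by_contra h'
    exact absurd (hmax ω' h') (not_le.2 h)⟩

lemma IsLead.shift {A : Type*} [CommRing A] {v : ι → MvPolynomial τ A} {i : ι} {μ : τ →₀ ℕ}
    (h : IsLead m v (i, μ)) (ν : τ →₀ ℕ) :
    IsLead m ((monomial ν 1 : MvPolynomial τ A) • v) (i, ν + μ) ∧
      coeff (ν + μ) (((monomial ν 1 : MvPolynomial τ A) • v) i) = coeff μ (v i) := by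
  classical
  have e : coeff (ν + μ) (((monomial ν 1 : MvPolynomial τ A) • v) i) = coeff μ (v i) := by
    simp [coeff_monomial_mul]
  refine ⟨⟨by simpa [e] using h.1, ?_⟩, e⟩
  rintro ⟨i', μ'⟩ hlt
  simp only [Pi.smul_apply, smul_eq_mul, coeff_monomial_mul']
  split_ifs with hle
  · have h2 : μ' = ν + (μ' - ν) := (add_tsub_cancel_of_le hle).symm
    rw [h2] at hlt
    have := h.2 (i', μ' - ν) (key_lt_shift m hlt)
    simpa using congrArg (fun t => (1 : A) * t) this
  · rfl

lemma linearIndependent_of_lead {k : Type*} [Field k] {T : Set (ι × (τ →₀ ℕ))}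
    (w : T → ι → MvPolynomial τ k) (hw : ∀ t, IsLead m (w t) t.1) : LinearIndependent k w := by
  classical
  rw [linearIndependent_iff']
  intro s
  induction s using Finset.induction_on_max_value (fun t : T => key m t.1) with
  | empty => intro _ _ i hi; simp at hi
  | insert t s ht hmax ih =>
    intro c hc
    rw [Finset.sum_insert ht] at hc
    have h0 : c t = 0 := by
      have := congrArg (fun v : ι → MvPolynomial τ k => coeff t.1.2 (v t.1.1)) hc
      simp only [Pi.add_apply, Pi.smul_apply, coeff_add, coeff_smul, Finset.sum_apply, coeff_sum,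
        Pi.zero_apply, coeff_zero, smul_eq_mul] at this
      rw [Finset.sum_eq_zero, add_zero] at this
      · exact (mul_eq_zero.1 this).resolve_right (hw t).1
      · intro u hu
        have hlt : key m u.1 < key m t.1 := lt_of_le_of_ne (hmax u hu) fun e =>
          ht (by rw [← Subtype.ext (key_inj m e)]; exact hu)
        rw [(hw u).2 _ hlt, mul_zero]
    rw [h0, zero_smul, zero_add] at hc
    intro i hi
    rcases Finset.mem_insert.1 hi with rfl | hi
    · exact h0
    · exact ih c hc i hi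

include m in
/-- generic constancy of the Hilbert function over a domain -/
theorem generic_hf [Finite ι] [Finite τ] {A : Type*} [CommRing A] [IsDomain A]
    (g : κ → ι → MvPolynomial τ A) (d : κ → ℤ) (a : ι → ℤ)
    (hg : ∀ c i μ, coeff μ (g c i) ≠ 0 → ((Finsupp.degree μ : ℕ) : ℤ) = d c + a i)
    (k : Type*) [Field k] :
    ∃ f : A, f ≠ 0 ∧ ∃ h : ℤ → ℕ, ∀ φ : A →+* k, φ f ≠ 0 →
      ∀ j, Module.finrank k (piece (fun c => vmap φ (g c)) d j) = h j := by
  classical
  -- leading positions
  let In : ι → (τ →₀ ℕ) → Prop := fun i μ => ∃ j, ∃ v ∈ piece g d j, IsLead m v (i, μ)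
  have hfin : ∀ i, {μ | Minimal (In i) μ}.Finite := fun i =>
    (setOfPred_minimal_antichain _).finite_of_partiallyWellOrderedOn
      (Set.isPWO_of_wellQuasiOrderedLE _)
  have hT : {ω : ι × (τ →₀ ℕ) | Minimal (In ω.1) ω.2}.Finite := by
    refine (Set.finite_iUnion fun i : ι => (hfin i).image fun μ => (i, μ)).subset ?_
    rintro ⟨i, μ⟩ h
    exact Set.mem_iUnion.2 ⟨i, μ, h, rfl⟩
  have hw : ∀ ω : ι × (τ →₀ ℕ), ∃ (j : ℤ) (v : ι → MvPolynomial τ A),
      In ω.1 ω.2 → v ∈ piece g d j ∧ IsLead m v ω := by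
    intro ω
    by_cases h : In ω.1 ω.2
    · obtain ⟨j, v, h1, h2⟩ := h
      exact ⟨j, v, fun _ => ⟨h1, h2⟩⟩
    · exact ⟨0, 0, fun h' => absurd h' h⟩
  choose jj w hw using hw
  let f : A := ∏ ω ∈ hT.toFinset, coeff ω.2 (w ω ω.1)
  have hf : f ≠ 0 := Finset.prod_ne_zero_iff.2 fun ω hω =>
    (hw ω (hT.mem_toFinset.1 hω).prop).2.1
  let Tj : ℤ → Set (ι × (τ →₀ ℕ)) := fun j => {ω | ∃ v ∈ piece g d j, IsLead m v ω}
  refine ⟨f, hf, fun j => Nat.card (Tj j), fun φ hφ j => ?_⟩
  -- good representatives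
  have hrep : ∀ t : Tj j, ∃ v ∈ piece g d j, IsLead m v t.1 ∧ φ (coeff t.1.2 (v t.1.1)) ≠ 0 := by
    rintro ⟨⟨i, μ⟩, v, hv, hl⟩
    obtain ⟨μ₀, hle, hmin⟩ := exists_minimal_le_of_wellFoundedLT (In i) μ ⟨j, v, hv, hl⟩
    obtain ⟨h1, h2⟩ := hw (i, μ₀) hmin.prop
    have e : μ = (μ - μ₀) + μ₀ := (tsub_add_cancel_of_le hle).symm
    obtain ⟨h3, h4⟩ := h2.shift m (μ - μ₀)
    rw [← e] at h3 h4
    have h5 := mon_mem_piece g d _ (μ - μ₀) h1
    have d1 := deg_of_mem_piece g d a hg _ h5 i μ h3.1
    have d2 := deg_of_mem_piece g d a hg _ hv i μ hl.1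
    have e2 : jj (i, μ₀) + (Finsupp.degree (μ - μ₀) : ℕ) = j := by omega
    rw [e2] at h5
    refine ⟨_, h5, h3, ?_⟩
    rw [h4]
    intro h0
    apply hφ
    simp only [f, map_prod]
    exact Finset.prod_eq_zero (hT.mem_toFinset.2 (show (i, μ₀) ∈ _ from hmin)) h0
  choose u hu1 hu2 hu3 using hrep
  have hlead : ∀ t : Tj j, IsLead m (vmap φ (u t)) t.1 := fun t =>
    ⟨by simpa [vmap, coeff_map] using hu3 t, fun ω' h => by
      simp [vmap, coeff_map, (hu2 t).2 ω' h]⟩
  have hli := linearIndependent_of_lead m _ hlead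
  have hspan : ∀ (b : ι ×ₗ m.syn) (v : ι → MvPolynomial τ A), v ∈ piece g d j →
      (∀ ω, IsLead m v ω → key m ω = b) →
      vmap φ v ∈ Submodule.span k (Set.range fun t => vmap φ (u t)) := by
    intro b
    induction b using WellFoundedLT.induction with
    | ind b ih =>
      intro v hv hb
      by_cases h0 : v = 0
      · rw [h0, vmap_zero]; exact zero_mem _
      obtain ⟨ω, hω⟩ := exists_lead m h0
      let t : Tj j := ⟨ω, v, hv, hω⟩
      let v' := coeff ω.2 (u t ω.1) • v - coeff ω.2 (v ω.1) • u t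
      have hv' : v' ∈ piece g d j :=
        sub_mem (Submodule.smul_mem _ _ hv) (Submodule.smul_mem _ _ (hu1 t))
      have hm : vmap φ v' ∈ Submodule.span k (Set.range fun t => vmap φ (u t)) := by
        by_cases h1 : v' = 0
        · rw [h1, vmap_zero]; exact zero_mem _
        obtain ⟨ω', hω'⟩ := exists_lead m h1
        refine ih (key m ω') ?_ v' hv' fun ω'' h'' => ?_
        · rw [← hb ω hω]
          rcases lt_trichotomy (key m ω') (key m ω) with h | h | h
          · exact h
          · exfalso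
            apply hω'.1
            rw [key_inj m h]
            simp [v', mul_comm]
          · exfalso
            apply hω'.1
            have := (hu2 t).2 ω' h
            simp [v', hω.2 ω' h, this]
        · rcases lt_trichotomy (key m ω'') (key m ω') with h | h | h
          · exact absurd (h''.2 _ h) hω'.1
          · exact h
          · exact absurd (hω'.2 _ h) h''.1
      have e : vmap φ v = (φ (coeff ω.2 (u t ω.1)))⁻¹ •
          (vmap φ v' + φ (coeff ω.2 (v ω.1)) • vmap φ (u t)) := by
        simp only [v', vmap_sub, vmap_smul, sub_add_cancel, smul_smul]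
        rw [inv_mul_cancel₀ (hu3 t), one_smul]
      rw [e]
      exact Submodule.smul_mem _ _ (add_mem hm
        (Submodule.smul_mem _ _ (Submodule.subset_span ⟨t, rfl⟩)))
  have heq : piece (fun c => vmap φ (g c)) d j
      = Submodule.span k (Set.range fun t => vmap φ (u t)) := by
    apply le_antisymm
    · refine Submodule.span_le.2 ?_
      rintro _ ⟨c, ν, h, rfl⟩
      rw [← vmap_mon]
      have hv : (monomial ν 1 : MvPolynomial τ A) • g c ∈ piece g d j :=
        Submodule.subset_span ⟨c, ν, h, rfl⟩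
      by_cases h0 : (monomial ν 1 : MvPolynomial τ A) • g c = 0
      · rw [h0, vmap_zero]; exact zero_mem _
      obtain ⟨ω, hω⟩ := exists_lead m h0
      refine hspan (key m ω) _ hv fun ω'' h'' => ?_
      rcases lt_trichotomy (key m ω'') (key m ω) with h | h | h
      · exact absurd (h''.2 _ h) hω.1
      · exact h
      · exact absurd (hω.2 _ h) h''.1
    · refine Submodule.span_le.2 ?_
      rintro _ ⟨t, rfl⟩
      exact vmap_mem_piece φ g d j (hu1 t)
  rw [heq, Module.finrank_eq_nat_card_basis (Module.Basis.span hli)]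

end lead

/-- **Finitely many Hilbert functions.** -/
theorem fhf [Finite ι] [Finite τ] {A : Type*} [CommRing A] [IsNoetherianRing A]
    (g : κ → ι → MvPolynomial τ A) (d : κ → ℤ) (a : ι → ℤ)
    (hg : ∀ c i μ, coeff μ (g c i) ≠ 0 → ((Finsupp.degree μ : ℕ) : ℤ) = d c + a i)
    (k : Type*) [Field k] :
    {h : ℤ → ℕ | ∃ φ : A →+* k,
      h = fun j => Module.finrank k (piece (fun c => vmap φ (g c)) d j)}.Finite := by
  classical
  let _ : LinearOrder ι := linearOrderOfSTO WellOrderingRel
  let _ : LinearOrder τ := linearOrderOfSTO WellOrderingRel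
  have _ : WellFoundedGT τ := Finite.to_wellFoundedGT
  let m : MonomialOrder τ := MonomialOrder.lex
  let P : Ideal A → Prop := fun I => {h : ℤ → ℕ | ∃ φ : A →+* k, (∀ x ∈ I, φ x = 0) ∧
      h = fun j => Module.finrank k (piece (fun c => vmap φ (g c)) d j)}.Finite
  have key : ∀ I : Ideal A, P I := by
    intro I
    induction I using IsNoetherian.induction with
    | hgt I ih =>
      have hsup : ∀ x, x ∉ I → P (I ⊔ Ideal.span {x}) := fun x hx =>
        ih _ (lt_of_le_of_ne le_sup_left fun e =>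
          hx (e ▸ Ideal.mem_sup_right (Ideal.mem_span_singleton_self x)))
      have hkill : ∀ (φ : A →+* k) x, (∀ y ∈ I, φ y = 0) → φ x = 0 →
          ∀ y ∈ I ⊔ Ideal.span {x}, φ y = 0 := fun φ x h1 h2 y hy => by
        have : I ⊔ Ideal.span {x} ≤ RingHom.ker φ :=
          sup_le h1 (Ideal.span_le.2 (by simpa using h2))
        exact this hy
      by_cases hp : Ideal.IsPrime I
      · obtain ⟨f, hf, h, hh⟩ := generic_hf m (fun c => vmap (Ideal.Quotient.mk I) (g c)) d a
          (fun c i μ h => hg c i μ fun h0 => h (by simp [vmap, coeff_map, h0])) k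
        obtain ⟨f, rfl⟩ := Ideal.Quotient.mk_surjective f
        have hfI : f ∉ I := fun h => hf (Ideal.Quotient.eq_zero_iff_mem.2 h)
        refine ((hsup f hfI).insert h).subset ?_
        rintro _ ⟨φ, hφ, rfl⟩
        by_cases h0 : φ f = 0
        · exact Or.inr ⟨φ, hkill φ f hφ h0, rfl⟩
        · left
          funext j
          have := hh (Ideal.Quotient.lift I φ hφ) (by simpa using h0) j
          have e : (Ideal.Quotient.lift I φ hφ).comp (Ideal.Quotient.mk I) = φ := by
            ext x; simp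
          have e2 : (fun c => vmap (Ideal.Quotient.lift I φ hφ) (vmap (Ideal.Quotient.mk I) (g c)))
              = fun c => vmap φ (g c) := by
            funext c; rw [vmap_vmap, e]
          rw [e2] at this
          exact this
      · by_cases ht : I = ⊤
        · refine Set.finite_empty.subset ?_
          rintro _ ⟨φ, hφ, rfl⟩
          exact one_ne_zero ((map_one φ).symm.trans (hφ 1 (ht ▸ Submodule.mem_top)))
        · obtain ⟨x, hx, y, hy, hxy⟩ := (Ideal.not_isPrime_iff.1 hp).resolve_left ht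
          refine ((hsup x hx).union (hsup y hy)).subset ?_
          rintro _ ⟨φ, hφ, rfl⟩
          have := hφ _ hxy
          rw [map_mul, mul_eq_zero] at this
          rcases this with h | h
          · exact Or.inl ⟨φ, hkill φ x hφ h, rfl⟩
          · exact Or.inr ⟨φ, hkill φ y hφ h, rfl⟩
  refine (key ⊥).subset ?_
  rintro _ ⟨φ, rfl⟩
  exact ⟨φ, fun x hx => by rw [(Submodule.mem_bot A).1 hx, map_zero], rfl⟩

end Crest.Agent.N265.N
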