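import Crest.Agent.N265.N.Fn0

/-!
# Row 265, layer N, task N-FN: forms on a one-block base as functions on the cone

`Fn S b m` = functions on `S.pts` given by forms of degree `m`; `Amb` = sections of `⊕ O(a i + j)`;
`secs` = vector valued functions with values in a family; `act x Φ` = a matrix on `X × S` at `x`.
-/

set_option autoImplicit false
noncomputable section
open MvPolynomial Module

namespace Crest.Agent.N265.N
open Alg

variable {S X : Spc} {b : ℕ} {ι κ μ : Type}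

/-- a family of vectors in a finite-dimensional space of functions is regular if its values are -/
lemma regV_of_eval {T α M : Type} [AddCommGroup M] [Module ℂ M] {𝒜 : Subalgebra ℂ (T → ℂ)}
    (P : Submodule ℂ (α → M)) [FiniteDimensional ℂ P] {s : T → P}
    (h : ∀ a, RegV 𝒜 fun x => (s x).1 a) : RegV 𝒜 s := by
  intro ℓ
  have hs := Submodule.span_eq_top_of_ne_zero (R := ℂ) (M := P)
    (s := {f | ∃ (a : α) (ℓ' : Module.Dual ℂ M), f = ℓ' ∘ₗ LinearMap.proj a ∘ₗ P.subtype})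
    fun z hz => by
      obtain ⟨a, ha⟩ : ∃ a, z.1 a ≠ 0 := by
        by_contra h0
        push Not at h0
        exact hz (Subtype.ext (funext h0))
      obtain ⟨ℓ', h'⟩ := Module.Projective.exists_dual_ne_zero ℂ ha
      exact ⟨_, ⟨a, ℓ', rfl⟩, h'⟩
  have hℓ := hs.ge (Submodule.mem_top (x := ℓ))
  induction hℓ using Submodule.span_induction with
  | mem f hf => obtain ⟨a, ℓ', rfl⟩ := hf; exact h a ℓ'
  | zero => exact zero_mem 𝒜
  | add f g _ _ hf hg => exact add_mem hf hg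
  | smul c f _ hf => exact 𝒜.smul_mem hf c

/-- degree `j` sections of `⊕ O(a i)` -/
def Amb (S : Spc) (b : ℕ) (a : ι → ℤ) (j : ℤ) : Submodule ℂ (S.pts → ι → ℂ) where
  carrier := {σ | ∀ i, (fun z => σ z i) ∈ Fn S b (j + a i)}
  add_mem' := fun h h' i => add_mem (h i) (h' i)
  zero_mem' := fun _ => zero_mem _
  smul_mem' := fun c _ h i => Submodule.smul_mem _ c (h i)
lemma mem_Amb {a : ι → ℤ} {j : ℤ} {σ : S.pts → ι → ℂ} :
    σ ∈ Amb S b a j ↔ ∀ i, (fun z => σ z i) ∈ Fn S b (j + a i) := Iff.rfl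
/-- sections of a sum are tuples of forms -/
def ambEquiv (S : Spc) (b : ℕ) (a : ι → ℤ) (j : ℤ) :
    Amb S b a j ≃ₗ[ℂ] ∀ i, Fn S b (j + a i) where
  toFun σ i := ⟨_, σ.2 i⟩
  map_add' _ _ := rfl
  map_smul' _ _ := rfl
  invFun f := ⟨fun z i => (f i).1 z, fun i => (f i).2⟩
  left_inv _ := rfl
  right_inv _ := rfl
instance (S : Spc) (b : ℕ) [Finite ι] (a : ι → ℤ) (j : ℤ) : FiniteDimensional ℂ (Amb S b a j) :=
  (ambEquiv S b a j).symm.finiteDimensional
lemma Amb_shift (a : ι → ℤ) (j k : ℤ) : Amb S b (fun i => a i + k) j = Amb S b a (j + k) :=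
  Submodule.ext fun _ => forall_congr' fun i => by rw [add_assoc, add_comm k]
lemma smul_mem_Amb {a : ι → ℤ} {j m : ℤ} {f : S.pts → ℂ} {σ : S.pts → ι → ℂ} (hf : f ∈ Fn S b m)
    (h : σ ∈ Amb S b a j) : f • σ ∈ Amb S b a (j + m) := fun i => by
  have := mul_mem_Fn hf (h i)
  rwa [← add_assoc, add_comm m] at this
lemma regV_of_Amb [Finite ι] {a : ι → ℤ} {j : ℤ} {σ : S.pts → ι → ℂ} (h : σ ∈ Amb S b a j) :
    RegV S.fn σ := regV_pi.2 fun i => Fn_le (h i)
lemma finrank_Amb [Fintype ι] (a : ι → ℤ) (j : ℤ) :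
    finrank ℂ (Amb S b a j) = ∑ i, finrank ℂ (Fn S b (j + a i)) := by
  rw [(ambEquiv S b a j).finrank_eq, Module.finrank_pi_fintype]
/-- the scaling operator on vector valued functions -/
def scl (S : Spc) (b : ℕ) (a : ι → ℤ) : (S.pts → ι → ℂ) →ₗ[ℂ] (S.pts → ι → ℂ) where
  toFun σ z i := chi (-(a i • eB b)) * σ (S.gp z) i
  map_add' σ τ := by funext z i; exact mul_add _ _ _
  map_smul' c σ := by funext z i; exact mul_left_comm _ _ _
lemma scl_Amb {a : ι → ℤ} {j : ℤ} {σ : S.pts → ι → ℂ} (h : σ ∈ Amb S b a j) :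
    scl S b a σ = chi (j • eB b) • σ := by
  funext z i
  obtain ⟨r, hr, e⟩ := h i
  change _ * σ (S.gp z) i = _ * σ z i
  simp only at e
  rw [e (S.gp z), e z, Spc.gp, hr.eval_gpt, ← mul_assoc, ← chi_add, add_smul]
  congr 2; abel
lemma chi_eB_inj (b : ℕ) : Function.Injective fun j : ℤ => chi (j • eB b) := fun j k h => by
  simpa [eB] using DFunLike.congr_fun (chi_inj h) (some b)
/-- the graded pieces are independent (eigenspaces of the scaling) -/
lemma iSupIndep_Amb (hS : Base S b) (a : ι → ℤ) : iSupIndep (Amb S b a) :=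
  have _ := hS
  ((Module.End.eigenspaces_iSupIndep (scl S b a)).comp (chi_eB_inj b)).mono
    fun _ _ h => Module.End.mem_eigenspace_iff.2 (scl_Amb h)

/-- functions with values in a family -/
def secs (S : Spc) {M : Type} [AddCommGroup M] [Module ℂ M] (L : Pt → Submodule ℂ M) :
    Submodule ℂ (S.pts → M) where
  carrier := {σ | ∀ z : S.pts, σ z ∈ L z.1}
  add_mem' := fun h h' z => add_mem (h z) (h' z)
  zero_mem' := fun _ => zero_mem _
  smul_mem' := fun c _ h z => Submodule.smul_mem _ c (h z)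
lemma mem_secs {M : Type} [AddCommGroup M] [Module ℂ M] {L : Pt → Submodule ℂ M} {σ : S.pts → M} :
    σ ∈ secs S L ↔ ∀ z : S.pts, σ z ∈ L z.1 := Iff.rfl
/-- a regular section of an equivariant family is a sum of homogeneous sections -/
lemma mem_iSup_secs [Fintype ι] (hS : Base S b) {a : ι → ℤ} {L : Pt → Submodule ℂ (ι → ℂ)}
    (hL : IsEqv S (fun i => a i • eB b) L) {τ : S.pts → ι → ℂ} (hτ : RegV S.fn τ)
    (h : τ ∈ secs S L) : τ ∈ ⨆ j, Amb S b a j ⊓ secs S L := by
  classical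
  have h1 : τ ∈ ⨆ j, Amb S b a j := by
    choose s g hg e using fun i => exists_sum_Fn hS (regV_pi.1 hτ i)
    have : τ = ∑ i, ∑ m ∈ s i, fun z => (Pi.single i (g i m z) : ι → ℂ) := by
      funext z k
      have := congrFun (e k) z
      simp only [Finset.sum_apply] at this ⊢
      rw [Finset.sum_eq_single k (fun i _ hi => by simp [hi.symm]) (by simp)]
      simpa using this.symm
    rw [this]
    refine sum_mem fun i _ => sum_mem fun m _ => Submodule.mem_iSup_of_mem (m - a i) fun k => ?_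
    by_cases hk : k = i
    · subst hk; simpa using hg k m
    · simp only [Pi.single_eq_of_ne hk]; exact zero_mem _
  obtain ⟨f, hf, rfl⟩ := (Submodule.mem_iSup_iff_exists_finsupp _ _).1 h1
  have h2 := mem_of_sum_eig (scl S b a) (secs S L) (fun σ hσ z => ?_) f.support _
    (chi_eB_inj b).injOn f (fun j _ => scl_Amb (hf j)) h
  · exact sum_mem fun j hj => Submodule.mem_iSup_of_mem j ⟨hf j, h2 j hj⟩
  · rw [hL z.1 z.2]
    refine (congrArg (· ∈ L (gpt z.1)) (funext fun i => ?_)).mpr (hσ (S.gp z))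
    change chi _ * (chi _ * σ (S.gp z) i) = _
    rw [← mul_assoc, ← chi_add]; simp

/-- the degrees in the block `b` -/
def sdeg (b : ℕ) (deg : ι → D) : ι → ℤ := fun i => deg i (some b)
/-- a matrix on `X × S` at the point `x` of `X` -/
def act (S : Spc) [Fintype ι] (x : Pt) (Φ : Matrix κ ι R) :
    (S.pts → ι → ℂ) →ₗ[ℂ] (S.pts → κ → ℂ) where
  toFun σ z := mev (x + z.1) Φ (σ z)
  map_add' σ τ := by funext z; exact (mev (x + z.1) Φ).map_add _ _
  map_smul' c σ := by funext z; exact (mev (x + z.1) Φ).map_smul _ _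
section act
variable [Fintype ι]
lemma act_apply (x : Pt) (Φ : Matrix κ ι R) (σ : S.pts → ι → ℂ) (z : S.pts) :
    act S x Φ σ z = mev (x + z.1) Φ (σ z) := rfl
lemma act_smul (x : Pt) (Φ : Matrix κ ι R) (f : S.pts → ℂ) (σ : S.pts → ι → ℂ) :
    act S x Φ (f • σ) = f • act S x Φ σ := funext fun z => (mev (x + z.1) Φ).map_smul (f z) _
lemma act_mul [Fintype κ] (x : Pt) (Ψ : Matrix μ κ R) (Φ : Matrix κ ι R) (σ : S.pts → ι → ℂ) :
    act S x (Ψ * Φ) σ = act S x Ψ (act S x Φ σ) := funext fun _ => mev_mul _ _ _ _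
lemma act_mem_Amb (hS : Base S b) {a : ι → D} {c : κ → D} {Φ : Matrix κ ι R} (hΦ : MHmg a c Φ)
    {x : Pt} (hx : ∀ v : Var, v.1 = b → x v = 0) {j : ℤ} {σ : S.pts → ι → ℂ}
    (h : σ ∈ Amb S b (sdeg b a) j) : act S x Φ σ ∈ Amb S b (sdeg b c) j := fun k => by
  have : (fun z => act S x Φ σ z k) =
      ∑ i, (fun z : S.pts => eval (x + z.1) (Φ k i)) * fun z => σ z i := by
    funext z; simp [act_apply, mev_apply]
  rw [this]
  refine sum_mem fun i _ => ?_
  convert mul_mem_Fn (eval_add_mem_Fn hS (hΦ k i) hx) (h i) using 2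
  simp only [sdeg, Finsupp.sub_apply]; ring
lemma regV_act [Finite κ] (x : Pt) (Φ : Matrix κ ι R) {σ : S.pts → ι → ℂ} (h : RegV S.fn σ) :
    RegV S.fn (act S x Φ σ) := regV_pi.2 fun k => by
  simp only [act_apply, mev_apply]
  exact fsum_mem _ fun i _ => fmul_mem (eval_add_mem_fn x _) (regV_pi.1 h i)
end act
lemma zero_of_mem (hb : b ∉ X.B) {x : Pt} (hx : x ∈ X.pts) (v : Var) (hv : v.1 = b) : x v = 0 := by
  by_contra h
  exact hb (hv ▸ X.mem_B hx h)
lemma Base.disj (hS : Base S b) (hb : b ∉ X.B) : Disjoint X.B S.B := by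
  rw [hS.B]; exact Finset.disjoint_singleton_right.2 hb
lemma Base.add_mem (hS : Base S b) (hb : b ∉ X.B) {x z : Pt} (hx : x ∈ X.pts) (hz : z ∈ S.pts) :
    x + z ∈ (X.fib S).pts := (Spc.add_mem_fib (hS.disj hb) hx hz).1
lemma Base.eB_mem (hS : Base S b) (k : ℤ) : k • eB b ∈ DS (X.fib S).B :=
  zsmul_mem (N265.eB_mem (Finset.mem_union_right _ (hS.B ▸ Finset.mem_singleton_self b))) k
lemma Base.dpr_eq (hS : Base S b) (hb : b ∉ X.B) {d : D} (hd : d ∈ DS (X.fib S).B) :
    dpr X.B d = d - d (some b) • eB b := by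
  ext i
  rcases i with _ | c
  · simp [dpr_apply, eB]
  · by_cases hc : c = b
    · subst hc; simp [dpr_apply, eB, hb]
    · by_cases hc' : c ∈ X.B
      · simp [dpr_apply, eB, hc', Ne.symm hc]
      · have := hd c (by
          change c ∉ X.B ∪ S.B
          simp [hS.B, hc, hc'])
        simp [dpr_apply, eB, hc', Ne.symm hc, this]
/-- the torus element scaling the block `b` -/
def torS (b : ℕ) : Tor where
  toFun d := Units.mk0 (chi (d.toAdd (some b) • eB b)) (chi_ne _)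
  map_one' := Units.ext (by simp)
  map_mul' a c := Units.ext (by simp [chi_add, add_smul])
/-- the fibre of a bundle over `x` is an equivariant algebraic family on `S` -/
lemma fibre_eqv (hS : Base S b) (hb : b ∉ X.B) (E : Bun (X.fib S)) {x : Pt} (hx : x ∈ X.pts) :
    IsEqv S (fun i => sdeg b E.deg i • eB b) fun z => E.L (x + z) := by
  intro z hz v
  have e : tpt (torS b) (x + z) = x + gpt z := by
    funext u
    change chi (vdeg u (some b) • eB b) * (x u + z u) = x u + chi (vdeg u) * z u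
    by_cases hu : z u = 0
    · by_cases hu' : u.1 = b
      · simp [hu, zero_of_mem hb hx u hu']
      · simp [hu, vdeg, eB, eT, hu']
    · obtain ⟨h1, h2⟩ := hS.supp hz hu
      simp [zero_of_mem hb hx u h1, vdeg, eB, h1, h2]
  have := Bx.mem_tpt_iff E (torS b) (hS.add_mem hb hx hz) v
  rwa [e] at this
lemma fibre_alg (hS : Base S b) (hb : b ∉ X.B) (E : Bun (X.fib S)) {x : Pt} (hx : x ∈ X.pts) :
    IsAlg S fun z => E.L (x + z) := by
  intro z hz
  have h := (hS.disj hb).symm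
  obtain ⟨r, P, hr, hP⟩ := E.alg _ (hS.add_mem hb hx hz)
  refine ⟨spec S.B x r, P.map (spec S.B x), by rwa [eval_spec, Bx.mix_eq h hz hx, add_comm],
    fun y hy => ?_⟩
  rw [Bx.mev_spec h hy hx, eval_spec, Bx.mix_eq h hy hx, add_comm y]
  exact hP _ (hS.add_mem hb hx hy)
/-- equivariance in the `X` direction -/
lemma fibre_gpt (hS : Base S b) (hb : b ∉ X.B) (E : Bun (X.fib S)) {x z : Pt} (hx : x ∈ X.pts)
    (hz : z ∈ S.pts) (v : E.ι → ℂ) :
    v ∈ E.L (x + z) ↔ gd (fun i => dpr X.B (E.deg i)) v ∈ E.L (gpt x + z) :=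
  (E.atPt (hS.disj hb) hS.tt z hz).eqv x hx v
lemma mev_gpt_add [Fintype ι] (hS : Base S b) (hb : b ∉ X.B) {a : ι → D} {c : κ → D}
    (ha : ∀ i, a i ∈ DS (X.fib S).B) (hc : ∀ i, c i ∈ DS (X.fib S).B) {Φ : Matrix κ ι R}
    (hΦ : MHmg a c Φ) {x z : Pt} (hx : x ∈ X.pts) (hz : z ∈ S.pts) (v : ι → ℂ) :
    mev (gpt x + z) Φ (gd (fun i => dpr X.B (a i)) v) =
      gd (fun i => dpr X.B (c i)) (mev (x + z) Φ v) := by
  have _ := ha
  have _ := hc
  rw [← Bx.mev_spec (hS.disj hb) hx hz, ← Bx.mev_spec (hS.disj hb) (X.inv x hx) hz]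
  refine MHmg.mev_gpt (fun j i => ?_) x v
  rw [← map_sub]
  exact Bx.hmg_spec (hS.tt z hz) (hΦ j i)

end Crest.Agent.N265.N
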