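import Crest.Agent.N265.K.AB2
import Crest.Agent.N265.K.Box

/-!
# Row 265, layer N, task N-FN (first half): forms on a one-block base as functions on the cone
-/

set_option autoImplicit false
noncomputable section
open MvPolynomial Module

namespace Crest.Agent.N265.N
open Alg

/-- a one-block space of weight zero and cone dimension at most three -/
structure Base (S : Spc) (b : ℕ) : Prop where
  B : S.B = {b}
  tt : S.TTriv fun _ => 0
  dim : ∀ z ∈ S.pts, S.ldim z ≤ 3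

variable {S X : Spc} {b : ℕ} {ι κ μ : Type}

/-- functions on the cone given by forms of degree `m` -/
def Fn (S : Spc) (b : ℕ) (m : ℤ) : Submodule ℂ (S.pts → ℂ) where
  carrier := {f | ∃ r : R, Hmg (m • eB b) r ∧ ∀ z, f z = eval z.1 r}
  add_mem' := by
    rintro f g ⟨r, hr, h⟩ ⟨s, hs, h'⟩
    exact ⟨r + s, hr.add hs, fun z => by rw [Pi.add_apply, h, h', map_add]⟩
  zero_mem' := ⟨0, Hmg.zero _, fun z => by simp⟩
  smul_mem' := by
    rintro c f ⟨r, hr, h⟩
    exact ⟨C c * r, by simpa using (Hmg.C c).mul hr, fun z => by simp [h]⟩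
lemma mem_Fn {m : ℤ} {f : S.pts → ℂ} :
    f ∈ Fn S b m ↔ ∃ r : R, Hmg (m • eB b) r ∧ ∀ z, f z = eval z.1 r := Iff.rfl

namespace F0
/-- total degree over all blocks -/
def tdeg : D →+ ℤ := Finsupp.liftAddHom fun i : Option ℕ => i.elim 0 fun _ => AddMonoidHom.id ℤ
lemma tdeg_eB (b : ℕ) : tdeg (eB b) = 1 := by simp [tdeg, eB]
lemma tdeg_vdeg (v : Var) : tdeg (vdeg v) = 1 := by
  have : tdeg eT = 0 := Finsupp.liftAddHom_apply_single _ _ _
  rw [vdeg, map_add, map_zsmul, tdeg_eB, this, smul_zero, add_zero]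
lemma degree_of_weight {α : Var →₀ ℕ} {m : ℤ} (h : Finsupp.weight vdeg α = m • eB b) :
    (α.degree : ℤ) = m := by
  have := congrArg tdeg h
  rw [map_zsmul, tdeg_eB, smul_eq_mul, mul_one, Finsupp.weight_apply, Finsupp.sum, map_sum] at this
  rw [← this, Finsupp.degree_apply, Nat.cast_sum]
  exact Finset.sum_congr rfl fun v _ => by simp [tdeg_vdeg]
lemma hmg_mono {α : Var →₀ ℕ} {d : D} (h : Finsupp.weight vdeg α = d) : Hmg d (monomial α 1) :=
  hmg_iff.2 (isWeightedHomogeneous_monomial _ _ _ h)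
/-- evaluation on the cone -/
def ev (S : Spc) : R →ₐ[ℂ] (S.pts → ℂ) := AlgHom.pi fun z => aeval z.1
lemma ev_apply (r : R) (z : S.pts) : ev S r z = eval z.1 r := rfl
lemma ev_mem {m : ℤ} {r : R} (h : Hmg (m • eB b) r) : ev S r ∈ Fn S b m := ⟨r, h, fun _ => rfl⟩
lemma ev_of_mem_I {r : R} (h : r ∈ S.I) : ev S r = 0 := funext fun z => h z.1 z.2
lemma Fn_le_of_mono {m : ℤ} {P : Submodule ℂ (S.pts → ℂ)}
    (h : ∀ α : Var →₀ ℕ, Finsupp.weight vdeg α = m • eB b → ev S (monomial α 1) ∈ P) :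
    Fn S b m ≤ P := by
  rintro f ⟨r, hr, hf⟩
  obtain rfl : f = ev S r := funext hf
  rw [r.as_sum, map_sum]
  refine P.sum_mem fun α hα => ?_
  rw [← mul_one (coeff α r), ← smul_eq_mul, ← smul_monomial, map_smul]
  exact P.smul_mem _ (h α (hmg_iff.1 hr (mem_support_iff.1 hα)))
lemma mono_mem_of_mem {J : Ideal R} {α : Var →₀ ℕ} {v : Var} {n : ℕ} (hn : n ≤ α v)
    (h : (MvPolynomial.X v : R) ^ n ∈ J) : (monomial α 1 : R) ∈ J := by
  rw [← tsub_add_cancel_of_le (Finsupp.single_le_iff.2 hn), monomial_add_single]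
  exact J.mul_mem_left _ h
lemma degree_eq_sum {α : Var →₀ ℕ} {V : Finset Var} (h : ∀ v ∉ V, α v = 0) :
    α.degree = ∑ v ∈ V, α v := by
  rw [Finsupp.degree_apply]
  exact Finset.sum_subset (fun v hv => by_contra fun h' => Finsupp.mem_support_iff.1 hv (h v h'))
    fun v _ hv => Finsupp.notMem_support_iff.1 hv
lemma chi_zsmul (m : ℤ) (d : D) : chi (m • d) = chi d ^ m := by
  induction m using Int.induction_on with
  | zero => simp
  | succ n ih => rw [add_smul, one_smul, chi_add, ih, zpow_add_one₀ (chi_ne d)]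
  | pred n ih => rw [sub_smul, one_smul, chi_sub, ih, zpow_sub_one₀ (chi_ne d)]
/-- scaling of the block `b` -/
def sc (b : ℕ) (u : ℂˣ) : Tor :=
  (zpowersHom ℂˣ u).comp (AddMonoidHom.toMultiplicative (Finsupp.applyAddHom (some b)))
lemma sc_apply (u : ℂˣ) (d : D) : (sc b u (Multiplicative.ofAdd d) : ℂ) = u ^ d (some b) := by
  simp [sc]
lemma tpt_sc (u : ℂˣ) (x : Pt) (v : Var) :
    tpt (sc b u) x v = if v.1 = b then u * x v else x v := by
  rw [tpt, sc_apply]
  by_cases h : v.1 = b <;> simp [vdeg, eB, eT, h]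
end F0
open F0

/-- spanned by the finitely many monomials of degree `m` in the variables of `S` -/
instance (S : Spc) (b : ℕ) (m : ℤ) : FiniteDimensional ℂ (Fn S b m) := by
  classical
  obtain ⟨V, -, hV⟩ := S.exists_V
  have := FiniteDimensional.span_finset ℂ
    ((V.finsuppAntidiag m.toNat).image fun α => ev S (monomial α 1))
  refine Submodule.finiteDimensional_of_le (Fn_le_of_mono (P := Submodule.span ℂ
    ↑((V.finsuppAntidiag m.toNat).image fun α => ev S (monomial α 1))) fun α hα => ?_)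
  by_cases h : ∀ v ∉ V, α v = 0
  · refine Submodule.subset_span (Finset.mem_coe.2 (Finset.mem_image_of_mem _ ?_))
    refine Finset.mem_finsuppAntidiag.2 ⟨?_, fun v hv => by_contra fun h' =>
      Finsupp.mem_support_iff.1 hv (h v h')⟩
    rw [← degree_eq_sum h, ← degree_of_weight hα, Int.toNat_natCast]
  · push Not at h
    obtain ⟨v, hv, h⟩ := h
    rw [ev_of_mem_I (mono_mem_of_mem (Nat.one_le_iff_ne_zero.2 h) (by simpa using hV v hv))]
    exact zero_mem _
lemma Fn_le {m : ℤ} {f : S.pts → ℂ} (h : f ∈ Fn S b m) : f ∈ S.fn := h.imp fun _ h => h.2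
lemma Fn_neg {m : ℤ} (h : m < 0) : Fn S b m = ⊥ := eq_bot_iff.2 (Fn_le_of_mono fun α hα => by
  have := degree_of_weight hα
  omega)
lemma one_mem_Fn : (1 : S.pts → ℂ) ∈ Fn S b 0 := ⟨1, by simpa using Hmg.one, fun z => by simp⟩
lemma mul_mem_Fn {m n : ℤ} {f g : S.pts → ℂ} (hf : f ∈ Fn S b m) (hg : g ∈ Fn S b n) :
    f * g ∈ Fn S b (m + n) := by
  obtain ⟨r, hr, h⟩ := hf
  obtain ⟨s, hs, h'⟩ := hg
  exact ⟨r * s, by rw [add_smul]; exact hr.mul hs, fun z => by rw [Pi.mul_apply, h, h', map_mul]⟩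
lemma pow_mem_Fn {m : ℤ} {f : S.pts → ℂ} (hf : f ∈ Fn S b m) (n : ℕ) :
    f ^ n ∈ Fn S b (n * m) := by
  induction n with
  | zero => simpa using one_mem_Fn
  | succ n ih => rw [pow_succ, Nat.cast_succ, add_one_mul]; exact mul_mem_Fn ih hf
lemma Base.supp (hS : Base S b) {z : Pt} (hz : z ∈ S.pts) {v : Var} (hv : z v ≠ 0) :
    v.1 = b ∧ v.2.2 = 0 :=
  ⟨Finset.mem_singleton.1 (hS.B ▸ Sp.blk_mem hz hv), hS.tt z hz v hv⟩
lemma Base.vdeg_eq (hS : Base S b) {z : Pt} (hz : z ∈ S.pts) {v : Var} (hv : z v ≠ 0) :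
    vdeg v = eB b := by rw [vdeg, (hS.supp hz hv).1, (hS.supp hz hv).2, zero_smul, add_zero]
lemma Base.X_or (hS : Base S b) (v : Var) : (MvPolynomial.X v : R) ∈ S.I ∨ vdeg v = eB b := by
  by_cases h : ∃ z ∈ S.pts, z v ≠ 0
  · obtain ⟨z, hz, h⟩ := h
    exact Or.inr (hS.vdeg_eq hz h)
  · push Not at h
    exact Or.inl fun z hz => by rw [eval_X, h z hz]
lemma X_mem_Fn (hS : Base S b) (v : Var) : (fun z : S.pts => z.1 v) ∈ Fn S b 1 := by
  rcases hS.X_or v with h | h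
  · exact ⟨0, Hmg.zero _, fun z => by simpa using h z.1 z.2⟩
  · exact ⟨MvPolynomial.X v, by rw [one_smul, ← h]; exact Hmg.X v, fun z => by simp⟩
lemma Fn_zero (hS : Base S b) {f : S.pts → ℂ} (h : f ∈ Fn S b 0) : ∃ c : ℂ, f = fun _ => c := by
  have _ := hS
  obtain ⟨c, rfl⟩ := Submodule.mem_span_singleton.1
    (Fn_le_of_mono (P := Submodule.span ℂ {1}) (fun α hα => by
      have h0 := degree_of_weight hα
      obtain rfl : α = 0 := (Finsupp.degree_eq_zero_iff α).1 (by exact_mod_cast h0)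
      exact Submodule.subset_span (map_one (ev S))) h)
  exact ⟨c, funext fun z => by simp⟩
/-- generation in degree one -/
lemma Fn_succ (hS : Base S b) {m : ℤ} (hm : 0 ≤ m) : Fn S b (m + 1) ≤
    Submodule.span ℂ {f | ∃ g ∈ Fn S b 1, ∃ h ∈ Fn S b m, f = g * h} := by
  refine Fn_le_of_mono fun α hα => ?_
  have h0 := degree_of_weight hα
  obtain ⟨v, hv⟩ : ∃ v, α v ≠ 0 := by
    by_contra hc
    push Not at hc
    obtain rfl : α = 0 := Finsupp.ext hc
    rw [map_zero] at h0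
    omega
  have hv' := Nat.one_le_iff_ne_zero.2 hv
  rcases hS.X_or v with h | h
  · rw [ev_of_mem_I (mono_mem_of_mem hv' (by simpa using h))]; exact zero_mem _
  have e := tsub_add_cancel_of_le (Finsupp.single_le_iff.2 hv')
  refine Submodule.subset_span ⟨_, X_mem_Fn hS v, _, ev_mem (hmg_mono (α := α - Finsupp.single v 1)
    ?_), ?_⟩
  · rw [← e, map_add, Finsupp.weight_single, one_smul, h, add_smul, one_smul] at hα
    exact add_right_cancel hα
  · conv_lhs => rw [← e, monomial_add_single, pow_one, map_mul, mul_comm]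
    congr 1
    funext z; simp [ev_apply]
lemma Base.gpt_eq (hS : Base S b) {z : Pt} (hz : z ∈ S.pts) : gpt z = chi (eB b) • z := by
  funext v
  by_cases h : z v = 0
  · simp [gpt, h]
  · rw [gpt, hS.vdeg_eq hz h]; rfl
lemma Base.tpt_sc_add (hS : Base S b) (u : ℂˣ) {x z : Pt} (hx : ∀ v : Var, v.1 = b → x v = 0)
    (hz : z ∈ S.pts) : tpt (sc b u) (x + z) = x + (u : ℂ) • z := by
  funext v
  rw [tpt_sc]
  split_ifs with h
  · simp [hx v h]
  · have : z v = 0 := by_contra fun h0 => h (hS.supp hz h0).1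
    simp [this]
lemma Fn_smul (hS : Base S b) {m : ℤ} {f : S.pts → ℂ} (hf : f ∈ Fn S b m) {z z' : S.pts} {c : ℂ}
    (h : z'.1 = c • z.1) : f z' = c ^ m * f z := by
  obtain ⟨r, hr, hf⟩ := hf
  have hc : c ≠ 0 := by
    obtain ⟨v, -, hv⟩ := S.rel _ z'.2 b (hS.B ▸ Finset.mem_singleton_self b)
    rintro rfl
    simp [h] at hv
  have h1 := hr.eval_tpt (sc b (Units.mk0 c hc)) (0 + z.1)
  rw [hS.tpt_sc_add _ (x := 0) (fun _ _ => rfl) z.2, sc_apply] at h1
  simpa [hf, h, eB] using h1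
lemma mem_Fn_of_gpt {m : ℤ} {f : S.pts → ℂ} (hf : f ∈ S.fn)
    (h : ∀ z : S.pts, f ⟨gpt z.1, S.inv _ z.2⟩ = chi (m • eB b) * f z) : f ∈ Fn S b m := by
  obtain ⟨r, hr⟩ := hf
  refine ⟨_, hc_hmg _ r, fun z => (hr z).trans (Spc.eval_hc (fun x hx => ?_) z.2).symm⟩
  have := h ⟨x, hx⟩
  rwa [hr, hr] at this
lemma eval_add_mem_fn (x : Pt) (r : R) : (fun z : S.pts => eval (x + z.1) r) ∈ S.fn := by
  refine ⟨aeval (fun v => C (x v) + MvPolynomial.X v) r, fun z => ?_⟩
  induction r using MvPolynomial.induction_on with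
  | C c => simp
  | add p q hp hq => simp only [map_add] at *; rw [hp, hq]
  | mul_X p v hp => simp only [map_mul] at *; rw [hp]; simp
lemma eval_add_mem_Fn (hS : Base S b) {d : D} {r : R} (hr : Hmg d r) {x : Pt}
    (hx : ∀ v : Var, v.1 = b → x v = 0) :
    (fun z : S.pts => eval (x + z.1) r) ∈ Fn S b (d (some b)) := by
  refine mem_Fn_of_gpt (eval_add_mem_fn x r) fun z => ?_
  have h1 := hr.eval_tpt (sc b (Units.mk0 _ (chi_ne (eB b)))) (x + z.1)
  rw [hS.tpt_sc_add _ hx z.2, sc_apply] at h1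
  simp only [hS.gpt_eq z.2, chi_zsmul]
  exact h1
/-- homogeneous components of a regular function -/
lemma exists_sum_Fn (hS : Base S b) {f : S.pts → ℂ} (hf : f ∈ S.fn) :
    ∃ (s : Finset ℤ) (g : ℤ → S.pts → ℂ), (∀ m, g m ∈ Fn S b m) ∧ ∑ m ∈ s, g m = f := by
  classical
  obtain ⟨r, hr⟩ := hf
  obtain rfl : f = ev S r := funext hr
  obtain ⟨s, hs, -⟩ := exists_sum_hc r
  refine ⟨s.image fun d => d (some b), fun m => ∑ d ∈ s with d (some b) = m, ev S (hc d r),
    fun m => sum_mem fun d hd => ?_, ?_⟩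
  · have := eval_add_mem_Fn hS (hc_hmg d r) (x := 0) fun _ _ => rfl
    rw [(Finset.mem_filter.1 hd).2] at this
    simp only [zero_add] at this
    exact this
  · rw [Finset.sum_fiberwise_of_maps_to fun d hd => Finset.mem_image_of_mem _ hd, ← map_sum, hs]
/-- a linear form that does not vanish at finitely many given points -/
lemma exists_lin_ne (hS : Base S b) (T : Finset S.pts) : ∃ l ∈ Fn S b 1, ∀ z ∈ T, l z ≠ 0 := by
  obtain ⟨l, hl⟩ := Submodule.exists_forall_notMem_of_forall_ne_top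
    (fun z : T => LinearMap.ker ((LinearMap.proj z.1 : (S.pts → ℂ) →ₗ[ℂ] ℂ) ∘ₗ (Fn S b 1).subtype))
    fun z h => by
      obtain ⟨v, -, hv⟩ := S.rel _ z.1.2 b (hS.B ▸ Finset.mem_singleton_self b)
      exact hv (h.ge (Submodule.mem_top (x := ⟨_, X_mem_Fn hS v⟩)))
  exact ⟨l.1, l.2, fun z hz => hl ⟨z, hz⟩⟩
/-- graded Nullstellensatz -/
theorem Fn_nss (hS : Base S b) {α : Type} (d : α → ℤ) (f : α → S.pts → ℂ)
    (hf : ∀ a, f a ∈ Fn S b (d a)) (h : ∀ z, ∃ a, f a z ≠ 0) : ∃ m₀ : ℤ, ∀ m ≥ m₀,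
      Fn S b m ≤ Submodule.span ℂ {g | ∃ a, ∃ h ∈ Fn S b (m - d a), g = h * f a} := by
  choose r hr hfr using hf
  obtain ⟨V, hVB, hV⟩ := S.exists_V
  let J : Ideal R := S.I ⊔ Ideal.span (Set.range r)
  have hJV : ∀ v ∉ V, (MvPolynomial.X v : R) ∈ J := fun v hv => Ideal.mem_sup_left (hV v hv)
  have hn : ∀ v ∈ V, ∃ n, (MvPolynomial.X v : R) ^ n ∈ J := fun v hv => nss J V hJV fun x hx => by
    rw [eval_X]
    by_contra h0
    have hxS : x ∈ S.pts := S.closed x (fun c hc => ⟨v, by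
      have h1 := hVB v hv
      rw [hS.B, Finset.mem_singleton] at h1 hc
      rw [h1, hc], h0⟩) fun s hs => hx s (Ideal.mem_sup_left hs)
    obtain ⟨a, ha⟩ := h ⟨x, hxS⟩
    exact ha ((hfr a _).trans (hx _ (Ideal.mem_sup_right (Ideal.subset_span ⟨a, rfl⟩))))
  choose! n hn using hn
  refine ⟨(∑ v ∈ V, n v : ℕ) + 1, fun m hm => Fn_le_of_mono fun β hβ => ?_⟩
  have hβJ : (monomial β 1 : R) ∈ J := by
    by_cases h1 : ∀ v ∉ V, β v = 0
    · by_contra hc
      have h2 : ∑ v ∈ V, β v ≤ ∑ v ∈ V, n v := Finset.sum_le_sum fun v hv =>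
        le_of_not_ge fun h3 => hc (mono_mem_of_mem h3 (hn v hv))
      rw [← degree_eq_sum h1] at h2
      have := degree_of_weight hβ
      omega
    · push Not at h1
      obtain ⟨v, hv, h1⟩ := h1
      exact mono_mem_of_mem (Nat.one_le_iff_ne_zero.2 h1) (by simpa using hJV v hv)
  obtain ⟨i, hi, p, hp, e⟩ := Submodule.mem_sup.1 hβJ
  rw [← hc_of_hmg (hmg_mono hβ), ← e, map_add, map_add, ev_of_mem_I (Sp.hc_mem_I hi _), zero_add,
    ← one_mul p]
  clear e
  generalize (1 : R) = c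
  induction hp using Submodule.span_induction generalizing c with
  | mem _ h =>
    obtain ⟨a, rfl⟩ := h
    rw [← sub_add_cancel m (d a), add_smul, hc_mul (hr a), map_mul, sub_add_cancel]
    exact Submodule.subset_span ⟨a, _, ev_mem (hc_hmg _ c), by
      rw [show f a = ev S (r a) from funext (hfr a)]⟩
  | zero => simp
  | add p q _ _ hp hq => rw [mul_add, map_add, map_add]; exact add_mem (hp c) (hq c)
  | smul s p _ hp => rw [smul_eq_mul, ← mul_assoc]; exact hp _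

lemma Base.one_le_ldim (hS : Base S b) {Z : Spc} (hZ : Z.Sub S) {x : Pt} (hx : x ∈ Z.pts) :
    1 ≤ Z.ldim x := by
  obtain ⟨v, -, hv⟩ := S.rel _ (hZ.2 hx) b (hS.B ▸ Finset.mem_singleton_self b)
  have := Spc.le_ldim_of_param (X := Z) (σ := Unit) (x := x)
    (fun u => C (x u) * (1 + MvPolynomial.X ())) (fun u => by simp) (fun r hr => ?_) fun _ =>
      ⟨C (x v)⁻¹ * (MvPolynomial.X v - C (x v)), by simp, ?_⟩
  · simpa using this
  · have h1 : (1 + MvPolynomial.X () : MvPolynomial Unit ℂ) ≠ 0 := fun h => by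
      simpa using congrArg (eval fun _ => (0 : ℂ)) h
    refine (mul_eq_zero.1 (MvPolynomial.funext fun t => ?_)).resolve_left h1
    rw [map_mul, map_zero]
    by_cases h0 : 1 + t () = 0
    · simp [h0]
    · have h2 := hr _ (Sp.smul_mem hx h0)
      rw [aeval_def, eval_eval₂, show (eval t).comp (algebraMap ℂ (MvPolynomial Unit ℂ)) =
        RingHom.id ℂ by ext; simp, eval₂_id]
      refine mul_eq_zero_of_right _ (Eq.trans ?_ h2)
      congr 2
      funext u; simp [mul_comm]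
  · have : aeval (fun u => C (x u) * (1 + MvPolynomial.X ()) : Var → MvPolynomial Unit ℂ)
        (C (x v)⁻¹ * (MvPolynomial.X v - C (x v)) : R) = MvPolynomial.X () := by
      rw [map_mul, map_sub, aeval_X, aeval_C, aeval_C, algebraMap_eq, mul_add, mul_one,
        add_sub_cancel_left, ← mul_assoc, ← map_mul, inv_mul_cancel₀ hv, map_one, one_mul]
    rw [this, sub_self]; exact zero_mem _
/-- a general hyperplane section lowers the dimension -/
lemma Base.exists_cut (hS : Base S b) {Z : Spc} (hZ : Z.Sub S) {n : ℕ}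
    (h : ∀ z ∈ Z.pts, Z.ldim z ≤ (n + 1 : ℕ)) : ∃ (l : R) (W : Spc), Hmg (eB b) l ∧ W.Sub S ∧
      (∀ z ∈ Z.pts, eval z l = 0 → z ∈ W.pts) ∧ ∀ z ∈ W.pts, W.ldim z ≤ n := by
  classical
  obtain ⟨k, Y, hY, hc, -⟩ := Z.exists_components
  choose y hy using fun i => (hY i).2.nonempty
  obtain ⟨f, ⟨l, hl, hf⟩, hne⟩ := exists_lin_ne hS
    (Finset.univ.image fun i => ⟨y i, hZ.2 ((hY i).1.2 (hy i))⟩)
  rw [one_smul] at hl
  have hW := Z.cut_sub {l} (by rintro r rfl; exact ⟨_, hl⟩)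
  refine ⟨l, _, hl, hW.trans hZ, fun z hz h0 => ⟨hz, by rintro r rfl; exact h0⟩, fun z hz => ?_⟩
  obtain ⟨P, hP, hzP, hd⟩ := Jac.exists_comp_ldim hz
  have hi := Jac.comp_irred _ P hP
  have hsub := Jac.comp_sub _ P hP
  obtain ⟨i, hi'⟩ := Spc.Irred.exists_sub hi (hsub.trans hW) Y (fun i => (hY i).1)
    fun x hx => hc x (hW.2 (hsub.2 hx))
  have h1 := (hY i).2.ldim_lt hi' (fun e => hne _ (Finset.mem_image_of_mem _ (Finset.mem_univ i))
    ((hf _).trans ((hsub.2 (e.ge (hy i))).2 l rfl))) hzP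
  rw [Jac.ldim_irred hi hzP, Jac.comp_I, ← hd] at h1
  have h2 := (h1.trans (Spc.ldim_mono (hY i).1 (hi'.2 hzP))).trans (h z hz.1)
  rw [Nat.cast_succ] at h2
  exact (ENat.add_le_add_iff_right ENat.one_ne_top).1 h2
/-- three linear forms without common zero (cut the components one after the other:
`exists_components`, `exists_lin_ne`, `Irred.ldim_lt`; a non-empty one-block space has `1 ≤ ldim`) -/
theorem exists_three (hS : Base S b) : ∃ l : Fin 3 → R, (∀ i, Hmg (eB b) (l i)) ∧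
    ∀ z ∈ S.pts, ∃ i, eval z (l i) ≠ 0 := by
  obtain ⟨l₀, W₀, h₀, s₀, m₀, d₀⟩ := hS.exists_cut (Spc.Sub.refl S) (n := 2) hS.dim
  obtain ⟨l₁, W₁, h₁, s₁, m₁, d₁⟩ := hS.exists_cut s₀ (n := 1) d₀
  obtain ⟨l₂, W₂, h₂, s₂, m₂, d₂⟩ := hS.exists_cut s₁ (n := 0) d₁
  refine ⟨![l₀, l₁, l₂], fun i => by fin_cases i <;> assumption, fun z hz => ?_⟩
  by_contra hc
  push Not at hc
  have hz₂ := m₂ z (m₁ z (m₀ z hz (hc 0)) (hc 1)) (hc 2)
  simpa using (hS.one_le_ldim s₂ hz₂).trans (d₂ z hz₂)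

end Crest.Agent.N265.N
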