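import Crest.Agent.N265.N.Fw0
import Crest.Agent.N265.Fib.P4
import Crest.Agent.N265.Fib.P5

/-!
# Row 265, layer N, task N-FW a (helper30): `RT.down`, `RT.up`
-/

set_option autoImplicit false
noncomputable section

namespace Crest.Agent.N265.Fib
open Crest.Agent.R274
open Cx_781 Defs_781 Ses_781 Lat_781 Ser_781 SnapA_99 SnapB_99 SnapC_99 SnapD_99 SnapE_99 Gen7_750
open Xs1_781 Filter SkDefs_474 Module Pnt

universe u
variable {k : Type u} [Field k] {F : Type u} [Field F] [Algebra k F]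
  {V : Type u} [AddCommGroup V] [Module k V] [Module F V] [IsScalarTower k F V]

section soc
variable {n : ℕ} {X : Defs_781.Var k F n} {x y : Pnt X} {N : XLat X V} {e : ℤ} {w : V}

/-- if `V_x w ≤ Γ(N(e+1))` then `w` is a section of `N(e)` away from `x` -/
theorem NG.soc_off (h : NG X) (hw : ∀ l ∈ van x 1, l • w ∈ Gm N.toLat (e + 1)) (hy : y ≠ x) :
    X.t y.i ^ (-e) • w ∈ y.loc N := by
  obtain ⟨l, h2, h3⟩ := SetLike.not_le_iff_exists.1 fun H => hy (h.eq_of_van H)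
  have h4 : y.val (X.t y.i ^ (-1 : ℤ) * l) ≠ 0 := fun h0 => h3 (mem_van.2 ⟨van_le _ _ h2, h0⟩)
  have h9 := Gm_mem_loc (x := y) (hw l h2)
  rw [zp_succ, div_eq_inv_mul, ← zpow_neg_one] at h9
  exact of_smul_mem h4 h9

/-- if `V_x w ≤ Γ(N(e+1))` then `𝔪_x w ≤ N(e)_x` -/
theorem NG.soc_m (h : NG X) (hw : ∀ l ∈ van x 1, l • w ∈ Gm N.toLat (e + 1)) {a : F}
    (ha : a ∈ x.O) (h0 : x.val a = 0) : a • X.t x.i ^ (-e) • w ∈ x.loc N := by
  obtain ⟨b, hb, hb0, h3⟩ := mem_loc_OX.2 ha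
  have h4 := h.mem_van_smul x (OX X) h3 (mem_m_smul_OX.2 ⟨mul_mem (x.in_i hb) ha, by
    rw [smul_eq_mul, val_mul (x.in_i hb) ha, h0, mul_zero]⟩)
  have h5 : ∀ c ∈ van x 1 • (OX X).M {x.i},
      ((X.t x.i)⁻¹ * c) • X.t x.i ^ (-e) • w ∈ x.loc N := fun c hc => by
    refine Submodule.smul_induction_on
      (p := fun c => ((X.t x.i)⁻¹ * c) • X.t x.i ^ (-e) • w ∈ x.loc N) hc (fun l hl c hc => ?_)
      fun _ _ h h' => by rw [mul_add, add_smul]; exact add_mem h h'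
    have h9 := Gm_mem_loc (x := x) (hw l hl)
    rw [zp_succ, div_eq_inv_mul] at h9
    rw [smul_eq_mul, ← mul_assoc, mul_comm, mul_smul]
    exact smul_loc (x.in_i hc) h9
  have h6 := h5 _ h4
  rw [smul_eq_mul, inv_mul_cancel_left₀ (X.t_ne _), smul_eq_mul, mul_smul] at h6
  exact of_smul_mem hb0 h6

/-- a socle element gives an overlattice of colength one -/
theorem NG.exists_up_soc [IsAlgClosed k] (h : NG X) (hn : 0 < n)
    (hw : ∀ l ∈ van x 1, l • w ∈ Gm N.toLat (e + 1)) (h0 : w ∉ Gm N.toLat e) :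
    ∃ M, One x N M ∧ w ∈ Gm M.toLat e := by
  obtain ⟨M, h1, h2⟩ := exists_up hn (x := x) (N := N) (v := X.t x.i ^ (-e) • w)
    (fun hv => h0 (mem_Gm_of_loc fun y => by
      by_cases hy : y = x
      · exact hy ▸ hv
      · exact h.soc_off hw hy)) fun a ha h0 => h.soc_m hw ha h0
  refine ⟨M, h1, mem_Gm_of_loc fun y => ?_⟩
  by_cases hy : y = x
  · exact hy ▸ h2
  · exact loc_mono h1.le (h.soc_off hw hy)
end soc

/-- hyperplanes of `Γ(M(e))` that contain `Γ(𝔪_x M (e))` -/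
theorem exists_one_of_hyper' [IsAlgClosed k] {X : Defs_781.Var k F 2} (x : Pnt X) {M : XLat X V}
    {m e : ℤ} (hM : RegL M.toLat m) (he : m ≤ e) {H : Submodule k V}
    (h1 : Gm (mX x M).toLat e ≤ H) (h2 : H ≤ Gm M.toLat e)
    (h3 : finrank k H + 1 = finrank k (Gm M.toLat e)) : ∃ N, One x N M ∧ Gm N.toLat e = H := by
  obtain ⟨g, hg, hgH⟩ := SetLike.exists_of_lt (lt_of_le_of_ne h2 fun h4 => by
    rw [h4] at h3; omega)
  obtain ⟨f, hf, h4⟩ := Submodule.exists_dual_map_eq_bot_of_notMem hgH inferInstance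
  have h5 : ∀ w ∈ H, f w = 0 := fun w hw =>
    (Submodule.mem_bot k).1 (h4 ▸ Submodule.mem_map_of_mem hw)
  obtain ⟨μ, h6, h7⟩ := exists_fib_fun (x := x) hM he
    (f ∘ₗ (Gm M.toLat e).subtype) fun w hw => h5 _ (h1 hw)
  obtain ⟨N, h8, h9⟩ := exists_one_of_fun μ
    (fun h0 => hf ((h7 ⟨g, hg⟩).symm.trans (DFunLike.congr_fun h0 _))) h6
  have h10 := h8.finrank_Gm hM he
  exact ⟨N, h8, (Submodule.eq_of_le_of_finrank_le (fun w hw => h8.mem_Gm.2 ⟨h2 hw,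
    (h9 ⟨_, Gm_mem_loc (h2 hw)⟩).1 ((h7 ⟨w, h2 hw⟩).trans (h5 w hw))⟩) (by omega)).symm⟩

end Crest.Agent.N265.Fib

open MvPolynomial Module TensorProduct

namespace Crest.Agent.N265.N
open Crest.Agent.R274
open Defs_781 Lat_781 SnapA_99 SnapB_99 SnapE_99 Gen7_750 Xs1_781 SkDefs_474
open Alg GV Br Fib M _root_.Crest.Agent.N265.Pow
variable {Sg : Surf} {p : ℕ} {k : ℤ} {β : Sg.V.G} {n : ℕ} {I : XL Sg Sg.F}

theorem map_mP_one {b : ℕ} {z : Pt} (hz : z ∈ (Sg.S b).pts) :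
    (mP Sg b 1 z).map (SA Sg 1).subtype = van (pnt Sg b z hz) 1 := Fib.map_mP hz 1

namespace RT
/-- `Γ(𝔪_x I(p)) ≤ ev_z KK_1` -/
theorem mem_ev (h : RT p β n I) {z : Pt} (hz : z ∈ (Sg.S 0).pts) {u : (ad Sg p k).W.V}
    (hu : u ∈ (r1 Sg k).pc I p)
    (h0 : (r1 Sg k).inc p u ∈ Gm (mX (pnt Sg 0 z hz) I).toLat p) :
    u ∈ ((ad Sg p k).KK ((r1 Sg k).pc I p) 1).map ((ad Sg p k).ev 1 z) := by
  obtain ⟨l, hl⟩ := evP_surj Sg 0 1 hz 1
  have h1 : l.1 • (r1 Sg k).inc p u ∈ van (pnt Sg 0 z hz) 1 • Gm I.toLat p := by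
    rw [← (ng Sg).Gm_mX _ h.reg le_rfl, add_comm]
    exact AA_smul_mem (e := 1) ((AA_nat Sg.V 1).ge l.2) h0
  have h2 : van (pnt Sg 0 z hz) 1 • Gm I.toLat p ≤
      (tens ((r1 Sg k).pc I p) (mP Sg 0 1 z)).map ((ad Sg p k).mu 1) := by
    rw [← Amb.map_pc (𝔞 := r1 Sg k) (h.leO k) p, ← map_mP_one hz, Submodule.smul_le]
    rintro _ ⟨a, ha, rfl⟩ _ ⟨v, hv, rfl⟩
    exact ⟨v ⊗ₜ a, tmul_mem hv ha, rfl⟩
  obtain ⟨θ, hθ, e⟩ := h2 h1
  have h3 : (ad Sg p k).ev 1 z θ = 0 :=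
    (tens_le (N := LinearMap.ker ((ad Sg p k).ev 1 z))).2 (fun v _ a ha => by
      rw [LinearMap.mem_ker, AD.ev, evT_tmul, LinearMap.mem_ker.1 ha, zero_smul]) hθ
  refine ⟨u ⊗ₜ l - θ, ⟨sub_mem (tmul_mem hu trivial) (tens_mono le_rfl le_top hθ), ?_⟩, ?_⟩
  · rw [SetLike.mem_coe, LinearMap.mem_ker, map_sub, e, AD.mu_tmul, sub_self]
  · rw [map_sub, h3, sub_zero, AD.ev, evT_tmul, hl, one_smul]

/-- the functional that cuts out `U'` kills `Γ(𝔪_x I(p))` -/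
theorem down (h : RT p β n I) {z : Pt} (hz : z ∈ (Sg.S 0).pts) {U' : Submodule ℂ (ad Sg p k).W.V}
    (hm : (ad Sg p k).Mod ((r1 Sg k).pc I p) U' z) :
    ∃ J : XL Sg Sg.F, LeL J (OX Sg.V.X) ∧ Ty J β (n + 1) ∧ U' = (r1 Sg k).pc J p := by
  have a1 : Gm (mX (pnt Sg 0 z hz) I).toLat p ≤ U'.map ((r1 Sg k).inc p) := fun g hg => by
    obtain ⟨u, hu, rfl⟩ := (Amb.map_pc (𝔞 := r1 Sg k) (h.leO k) p).ge (Gm_mono (elem_mX _ I).le _ hg)
    exact ⟨u, hm.2.2 1 (h.mem_ev hz hu hg), rfl⟩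
  have a2 : U'.map ((r1 Sg k).inc p) ≤ Gm I.toLat p :=
    (Submodule.map_mono hm.1).trans (Amb.map_pc (𝔞 := r1 Sg k) (h.leO k) p).le
  have a3 : finrank ℂ (U'.map ((r1 Sg k).inc p)) + 1 = finrank ℂ (Gm I.toLat p) := by
    rw [← (Submodule.equivMapOfInjective _ ((r1 Sg k).inc_inj p) U').finrank_eq, ← hm.2.1]
    exact Amb.finrank_pc' (h.leO k) p
  obtain ⟨J, h1, h2⟩ := exists_one_of_hyper' (pnt Sg 0 z hz) h.reg le_rfl a1 a2 a3
  obtain ⟨f, hf, h3, h4⟩ := h.ty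
  refine ⟨J, h1.le.trans h.le, ⟨f, hf, h1.fc.trans h3, ?_⟩, ?_⟩
  · rw [h1.fc.len_trans h3, h1.len, h4, add_comm]
  · exact ((congrArg (Submodule.comap ((r1 Sg k).inc p)) h2).trans
      (Submodule.comap_map_eq_of_injective ((r1 Sg k).inc_inj p) U')).symm

/-- the socle condition in terms of the point `x` of `z` -/
theorem van_smul_soc (h : RT p β n I) {z : Pt} (hz : z ∈ (Sg.S 0).pts) {w : (ad Sg p k).W.V}
    (hw : w ∈ (ad Sg p k).soc ((r1 Sg k).pc I p) z) :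
    ∀ l ∈ van (pnt Sg 0 z hz) 1, l • (r1 Sg k).inc p w ∈ Gm I.toLat (p + 1) := by
  intro l hl
  obtain ⟨l, hl', rfl⟩ := (map_mP_one hz).ge hl
  have := (ad Sg p k).mem_soc.1 hw l hl'
  rwa [h.gen_eq, Nat.cast_add, Nat.cast_one, add_comm] at this

/-- `exists_up`, `FC.le_OL`, `FC.regL`, `One.finrank_Gm` -/
theorem up (h : RT p β (n + 1) I) {z : Pt} (hz : z ∈ (Sg.S 0).pts) {w : (ad Sg p k).W.V}
    (hw : w ∈ (ad Sg p k).soc ((r1 Sg k).pc I p) z) (h0 : w ∉ (r1 Sg k).pc I p) :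
    ∃ J, RT p β n J ∧ (r1 Sg k).pc I p ⊔ Submodule.span ℂ {w} = (r1 Sg k).pc J p := by
  obtain ⟨J, h2, h3⟩ := (ng Sg).exists_up_soc two_pos (h.van_smul_soc hz hw) h0
  obtain ⟨f, hf, h4, h5⟩ := h.ty
  have h6 := h4.right h2.le (h2.fc.le_OL h4.le)
  have h7 : RT p β n J := ⟨h2.fc.maps_of_s2 (g := LinearMap.id) s2_OX h.le, ⟨f, hf, h6, by
    rw [h2.fc.len_trans h6, h2.len] at h5
    omega⟩, h2.fc.regL h.reg⟩
  refine ⟨J, h7, Submodule.eq_of_le_of_finrank_eq (sup_le (Amb.pc_mono h2.le p)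
    ((Submodule.span_singleton_le_iff_mem _ _).2 h3)) ?_⟩
  rw [Submodule.finrank_sup_span_singleton h0, Amb.finrank_pc' (h.leO k),
    Amb.finrank_pc' (h7.leO k), h2.finrank_Gm h7.reg le_rfl]
end RT

end Crest.Agent.N265.N
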