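import Crest.Agent.N265.N.Fw0
import Crest.Agent.N265.M.Dic
import Crest.Agent.N265.Fib.Soc

/-!
# Row 265, layer N, task N-FW b: `Soc (O/I)_z = Tor₁(I, ℂ_z)`
-/

set_option autoImplicit false
noncomputable section
open MvPolynomial Module TensorProduct

namespace Crest.Agent.N265.N
open Crest.Agent.R274
open Defs_781 Lat_781 SnapA_99 SnapB_99 SnapE_99 Gen7_750 Xs1_781 SkDefs_474
open Alg GV Br Fib M _root_.Crest.Agent.N265.Pow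
variable {Sg : Surf} {p : ℕ} {k : ℤ} {β : Sg.V.G} {n : ℕ} {I : XL Sg Sg.F}

namespace FwB
variable {α : AD Sg} {U : Submodule ℂ α.W.V} {j : ℕ} {x y : SA Sg 1} {u : SA Sg j}
  {ξ η : (WA Sg α.W 1).V}
lemma lT_mem {m l : ℕ} (f : SA Sg m →ₗ[ℂ] SA Sg l) {t : α.W.V ⊗[ℂ] SA Sg m} (ht : t ∈ tens U ⊤) :
    LinearMap.lTensor _ f t ∈ tens U ⊤ :=
  Hm.tens_ind ht (by simp) (fun _ hv _ _ => tmul_mem hv Submodule.mem_top) fun _ _ h h' => by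
    rw [map_add]; exact add_mem h h'
lemma mF_kos {N : Type} [AddCommGroup N] [Module ℂ N] [Module Sg.F N] [IsScalarTower ℂ Sg.F N]
    (f : α.W.V →ₗ[ℂ] N) : mF f (j + 1 + 1) (α.kos j x y u ξ η) =
      (y.1 * u.1) • mF f 1 ξ - (x.1 * u.1) • mF f 1 η :=
  (map_sub _ _ _).trans (congrArg₂ _ (Hm.mF_lT f _ ξ) (Hm.mF_lT f _ η))
lemma kos_mem (hξ : ξ ∈ tens U ⊤) (hη : η ∈ tens U ⊤) {w : α.M} (e₁ : α.mu 1 ξ = x.1 • w)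
    (e₂ : α.mu 1 η = y.1 • w) : α.kos j x y u ξ η ∈ α.KK U (j + 1 + 1) :=
  ⟨sub_mem (lT_mem _ hξ) (lT_mem _ hη), (mF_kos α.emb).trans (by
    rw [show mF α.emb 1 ξ = _ from e₁, show mF α.emb 1 η = _ from e₂]; module)⟩
lemma co_kos {t : Sg.F} (ht : t ≠ 0) : t ^ (-((j + 1 + 1 : ℕ) : ℤ)) •
    Hm.co U (j + 1 + 1) (α.kos j x y u ξ η) = (t ^ (-(j : ℤ)) * u.1) •
      ((t ^ (-1 : ℤ) * y.1) • t ^ (-1 : ℤ) • Hm.co U 1 ξ -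
        (t ^ (-1 : ℤ) * x.1) • t ^ (-1 : ℤ) • Hm.co U 1 η) := by
  rw [show Hm.co U (j + 1 + 1) (α.kos j x y u ξ η) = (y.1 * u.1) • Hm.co U 1 ξ -
    (x.1 * u.1) • Hm.co U 1 η from mF_kos _, Nat.cast_succ, Nat.cast_succ, neg_add, neg_add,
    zpow_add₀ ht, zpow_add₀ ht]
  module
lemma co_O (P : Pnt Sg.V.X) (ξ : (WA Sg α.W j).V) (l : Hm.Ix U) :
    (Sg.V.X.t P.i ^ (-(j : ℤ)) • Hm.co U j ξ) l ∈ P.O := Pnt.AA_mem_O (Hm.co_AA ξ l)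
lemma val_ne {z : α.S.pts} (hu : u ∉ mP Sg α.b j z.1) : (pnt Sg α.b z.1 z.2).val
    (Sg.V.X.t (pnt Sg α.b z.1 z.2).i ^ (-(j : ℤ)) * u.1) ≠ 0 := fun h =>
  hu (mem_mP_iff.2 (mem_van.2 ⟨SA_mem_AA u, h⟩))
lemma lc_co {𝔞 : M.Amb Sg} {L : XL Sg 𝔞.M} {ξ : (WA Sg (𝔞.G p) 1).V} (hξ : ξ ∈ tens (𝔞.pc L p) ⊤)
    {w : 𝔞.M} {c : Sg.F} (e : mF (𝔞.inc p) 1 ξ = c • w) (s : Sg.F) :
    lc Sg.F (𝔞.fr L p) (s • Hm.co (𝔞.pc L p) 1 ξ) = (s * c) • w := by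
  rw [map_smul, M.Amb.lc_fr hξ, e, mul_smul]
lemma leO (h : RT p β n I) (k : ℤ) : LeL I (r1 Sg k).O := fun J hJ _ hv =>
  (r1_O k).symm.le J hJ (h.le J hJ hv)
end FwB
open FwB

namespace RT
/-- `kos = a β₁ + b β₂` in `𝔪_x B_x` gives `a (u η + β₁) = b (u ξ - β₂)`, so (`Par.rel` in the free
`A_x`) `u ξ - β₂ = a ω`, hence `a u w = a μ(ω)`, `w ∈ I_x`; at `y ≠ x` some `l ∈ V_z` is a unit -/
theorem soc_inj (h : RT p β n I) (_hp : 2 ≤ p) {j : ℕ} (hj : 2 ≤ j) {z : (Sg.S 0).pts}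
    {x y : SA Sg 1} (hxy : (ad Sg p k).Par z x y) {u : SA Sg j} (hu : u ∉ mP Sg 0 j z.1)
    {w : (ad Sg p k).W.V} (hw : w ∈ (ad Sg p k).soc ((r1 Sg k).pc I p) z.1)
    {ξ η : (WA Sg (ad Sg p k).W 1).V} (hξ : ξ ∈ tens ((r1 Sg k).pc I p) ⊤)
    (hη : η ∈ tens ((r1 Sg k).pc I p) ⊤)
    (e₁ : (ad Sg p k).mu 1 ξ = x.1 • (ad Sg p k).emb w)
    (e₂ : (ad Sg p k).mu 1 η = y.1 • (ad Sg p k).emb w)
    (e : (ad Sg p k).kos j x y u ξ η ∈ (ad Sg p k).ZK ((r1 Sg k).pc I p) (j + 1) z.1) :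
    w ∈ (r1 Sg k).pc I p := by
  refine (ng Sg).mem_Gm_of_van (x := pnt Sg 0 z.1 z.2) (fun l hl => ?_) (Pnt.mem_loc_twX.1
    ((par_pnt hxy.1 hxy.2.1 hxy.2.2).soc_inj (fun l => Pnt.mem_loc_twX.2
      (Pnt.Gm_mem_loc (M.Amb.fr_mem (𝔞 := r1 Sg k) (L := I) l))) (val_ne (α := ad Sg p k) hu)
      (co_O (α := ad Sg p k) _ ξ) (co_O (α := ad Sg p k) _ η) (lc_co hξ e₁ _)
      ((M.Amb.mem_ZK_iff (𝔞 := r1 Sg k) (L := I) (leO h k) h.reg (hj.trans j.le_succ) z.2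
        (kos_mem hξ hη e₁ e₂)).1 e)
      (co_kos (α := ad Sg p k) (Sg.V.X.t_ne _))))
  obtain ⟨l, hl', rfl⟩ := (Fib.map_mP z.2 1).ge hl
  obtain ⟨t, ht, e⟩ := (ad Sg p k).mem_soc.1 hw l hl'
  have := mF_mem (f := (r1 Sg k).inc p) (L := I) (j := p) (fun _ hv => hv) ht
  rw [Nat.cast_add, Nat.cast_one] at this
  exact e ▸ this
/-- `κ ∈ 𝔪_x A_x`, `κ = u (b ξ₀ - a η₀)`, `b μ(ξ₀) = a μ(η₀)`, so `μ(ξ₀) = a w₀`, `μ(η₀) = b w₀` with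
`𝔪_x w₀ ≤ I_x`; a section `w` has `w ≡ w₀` modulo `I_x` (`exists_soc_sec`); compare the two Koszul
elements (`Par.kos_sub`). -/
theorem soc_surj (h : RT p β n I) (_hp : 2 ≤ p) {j : ℕ} (hj : 2 ≤ j) {z : (Sg.S 0).pts}
    {x y : SA Sg 1} (hxy : (ad Sg p k).Par z x y) {u : SA Sg j} (hu : u ∉ mP Sg 0 j z.1)
    {κ : (WA Sg (ad Sg p k).W (j + 1 + 1)).V} (hκ : κ ∈ (r1 Sg k).KK I p (j + 1 + 1))
    (h0 : (ad Sg p k).ev _ z.1 κ = 0) :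
    ∃ w ∈ (ad Sg p k).soc ((r1 Sg k).pc I p) z.1, ∃ ξ ∈ tens ((r1 Sg k).pc I p) ⊤,
      ∃ η ∈ tens ((r1 Sg k).pc I p) ⊤, (ad Sg p k).mu 1 ξ = x.1 • (ad Sg p k).emb w ∧
        (ad Sg p k).mu 1 η = y.1 • (ad Sg p k).emb w ∧
        (ad Sg p k).kos j x y u ξ η - κ ∈ (ad Sg p k).ZK ((r1 Sg k).pc I p) (j + 1) z.1 := by
  have hP := par_pnt hxy.1 hxy.2.1 hxy.2.2
  have hg := M.Amb.gens_fr (𝔞 := r1 Sg k) (L := I) (leO h k) h.reg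
  have he := val_ne (α := ad Sg p k) hu
  obtain ⟨ξ₀, η₀, w₀, h1, h2, e₁, e₂, e₃⟩ := hP.exists_kos (u := (r1 Sg k).fr I p) he
    (fun l => ⟨co_O (α := ad Sg p k) _ κ l,
      (mem_van.1 ((Hm.evz_eq_zero_iff z.2 hκ.1).1 h0 l)).2⟩)
    (by rw [map_smul, LinearMap.mem_ker.1 (M.Amb.co_ker hκ), smul_zero])
  obtain ⟨g, hg1, hg2, hg3⟩ := exists_soc_sec h.le h.reg (x := pnt Sg 0 z.1 z.2)
    (v := Sg.V.X.t (pnt Sg 0 z.1 z.2).i ^ (-(p : ℤ)) • w₀) fun a ha a0 => by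
      rw [smul_comm]
      exact Pnt.mem_loc_twX.1 (hP.smul_mem ((hg _ _).2 ⟨_, h1, e₁⟩) ((hg _ _).2 ⟨_, h2, e₂⟩) ha a0)
  let w : (ad Sg p k).W.V := fun _ => ⟨g, (SA_eq p).ge hg1⟩
  have hw : w ∈ (ad Sg p k).soc ((r1 Sg k).pc I p) z.1 := (ad Sg p k).mem_soc.2 fun l hl =>
    (M.Amb.map_mF_pc (𝔞 := r1 Sg k) (L := I) (leO h k) h.reg le_rfl 1).ge (by
      rw [Nat.cast_add, Nat.cast_one, add_comm]
      exact hg2 _ (mem_mP_iff.1 hl))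
  obtain ⟨ξ, hξ, f₁⟩ := (ad Sg p k).mem_soc.1 hw x hxy.1
  obtain ⟨η, hη, f₂⟩ := (ad Sg p k).mem_soc.1 hw y hxy.2.1
  refine ⟨w, hw, ξ, hξ, η, hη, f₁, f₂, (M.Amb.mem_ZK_iff (𝔞 := r1 Sg k) (L := I) (leO h k) h.reg
    (hj.trans j.le_succ) z.2 (sub_mem (kos_mem hξ hη f₁ f₂) hκ)).2 (hP.kos_sub hg
      (Pnt.mem_of_val he)
      (co_O (α := ad Sg p k) _ ξ) (co_O (α := ad Sg p k) _ η) h1 h2 (lc_co hξ f₁ _) (lc_co hη f₂ _)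
      e₁ e₂ (Pnt.mem_loc_twX.2 ?_) ?_)⟩
  · rw [← neg_sub, smul_neg, smul_sub]
    exact neg_mem hg3
  · rw [← e₃]
    exact ((congrArg _ (map_sub (Hm.co ((r1 Sg k).pc I p) (j + 1 + 1)) _ κ)).trans
      (smul_sub _ _ _)).trans (congrArg (· - _) (co_kos (α := ad Sg p k) (Sg.V.X.t_ne _)))
end RT

end Crest.Agent.N265.N
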