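import Crest.Agent.N265.N.FwB
import Crest.Agent.N265.Fib.KS

/-!
# Row 265, layer N, task N-FW c: `Hom(I, O/I) → Hom(Tor₁(I, ℂ_z), I|_z)` is onto
-/

set_option autoImplicit false
noncomputable section
open MvPolynomial Module TensorProduct

namespace Crest.Agent.N265.N
open Crest.Agent.R274
open Defs_781 Lat_781 SnapA_99 SnapB_99 SnapE_99 Gen7_750 Xs1_781 SkDefs_474
open Alg GV Br Fib M _root_.Crest.Agent.N265.Pow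
variable {Sg : Surf} {p : ℕ} {k : ℤ} {β : Sg.V.G} {n : ℕ} {I : XL Sg Sg.F}

namespace FwC
/-- a functional on `KK (j + 1)` that kills `V_z KK j` comes from a local map `B_x → O_x` -/
lemma exists_psi {𝔞 : M.Amb Sg} {L : XL Sg 𝔞.M} (le : LeL L 𝔞.O) (hr : RegL L.toLat p) {j : ℕ}
    (hj : 2 ≤ j) {z : Pt} (hz : z ∈ (Sg.S 0).pts) {ψ : Dual ℂ (WA Sg (𝔞.G p) (j + 1)).V}
    (hψ : ∀ t ∈ mulS Sg (mP Sg 0 1 z) (𝔞.KK L p j), ψ t = 0) :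
    ∃ ψ' : LinearMap.ker (lc Sg.F (𝔞.fr L p)) →ₗ[Sg.F] Sg.F,
      (∀ s ∈ (pnt Sg 0 z hz).loc (𝔞.SZ L p), ψ' s ∈ (pnt Sg 0 z hz).O) ∧
      ∀ t (ht : t ∈ 𝔞.KK L p (j + 1)), (pnt Sg 0 z hz).val
        (ψ' (Sg.V.X.t (pnt Sg 0 z hz).i ^ (-((j + 1 : ℕ) : ℤ)) • M.Amb.cz ht)) = ψ t := by
  let ρ : 𝔞.KK L p (j + 1) →ₗ[ℂ] Gm (𝔞.SZ L p).toLat (j + 1 : ℕ) :=
    { toFun := fun t => ⟨_, M.Amb.cz_mem t.2⟩
      map_add' := fun _ _ => Subtype.ext (Subtype.ext (map_add (Hm.co _ _) _ _))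
      map_smul' := fun _ _ => Subtype.ext (Subtype.ext (map_smul (Hm.co _ _) _ _)) }
  let σ := (LinearEquiv.ofBijective ρ ⟨fun t t' e => Subtype.ext (sub_eq_zero.1
    (Hm.co_inj (sub_mem t.2.1 t'.2.1) (by
      rw [map_sub, sub_eq_zero]; exact congrArg (fun g => g.1.1) e))), fun g =>
    let ⟨t, ht, e⟩ := M.Amb.exists_KK g.2
    ⟨⟨t, ht⟩, Subtype.ext e⟩⟩).symm
  have h1 : ∀ g, M.Amb.cz (σ g).2 = g.1 := fun g => congrArg Subtype.val (σ.symm_apply_apply g)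
  obtain ⟨μ, h2, h3⟩ := exists_fib_fun (x := pnt Sg 0 z hz) (M.Amb.reg_SZ le hr)
    (e := (j + 1 : ℕ)) (by omega) (ψ ∘ₗ (𝔞.KK L p (j + 1)).subtype ∘ₗ σ.toLinearMap) fun g hg =>
      hψ _ ((M.Amb.mem_ZK_iff le hr hj hz (σ g).2).2 (h1 g ▸ (mem_Gm_mX.1 hg).2))
  obtain ⟨b, hb⟩ := M.Amb.locF_SZ (L := L) (p := p) (pnt Sg 0 z hz)
  obtain ⟨ψ', h4⟩ := hb.exists_lift μ h2
  refine ⟨ψ', fun s hs => (h4 s hs).1, fun t ht => ?_⟩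
  rw [(h4 _ (Pnt.Gm_mem_loc (M.Amb.cz_mem ht))).2, h3 ⟨_, M.Amb.cz_mem ht⟩]
  exact congrArg (fun t => ψ t.1) (σ.apply_symm_apply ⟨t, ht⟩)
end FwC

namespace RT
theorem ks' (h : RT p β n I) {j : ℕ} (hj : 2 ≤ j) {z : Pt} (hz : z ∈ (Sg.S 0).pts)
    {ψ : Dual ℂ (WA Sg (ad Sg p k).W (j + 1)).V}
    (hψ : ψ ∈ ((ad Sg p k).ZK ((r1 Sg k).pc I p) j z).dualAnnihilator) {u : (ad Sg p k).W.V}
    (hu : u ∈ (r1 Sg k).pc I p) : ∃ φ : (ad Sg p k).W.V →ₗ[ℂ] (ad Sg p k).W.V,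
      (ad Sg p k).HomP ((r1 Sg k).pc I p) φ ∧ ∀ κ ∈ (r1 Sg k).KK I p (j + 1),
      (ad Sg p k).ev (j + 1) z κ = 0 → ∃ θ ∈ tens ((r1 Sg k).pc I p) ⊤,
        (ad Sg p k).mu _ θ = (ad Sg p k).mu _ (LinearMap.rTensor _ φ κ) ∧
        (ad Sg p k).ev (j + 1) z θ - ψ κ • u ∈
          ((r1 Sg k).KK I p (j + 1)).map ((ad Sg p k).ev (j + 1) z) := by
  obtain ⟨c, hc, hev⟩ := evP_pnt hz
  obtain ⟨ψ', h1, h2⟩ := FwC.exists_psi (𝔞 := r1 Sg k) (h.leO k) h.reg hj hz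
    (ψ := (c ^ (j + 1))⁻¹ • ψ) fun t ht => by
      rw [LinearMap.smul_apply, (Submodule.mem_dualAnnihilator _).1 hψ t ht, smul_zero]
  obtain ⟨f, hf, hfc, -⟩ := h.ty
  have hg := M.Amb.gens_fr (𝔞 := r1 Sg k) (L := I) (h.leO k) h.reg
  set x := pnt Sg 0 z hz with hx
  set U := (r1 Sg k).pc I p with hU
  obtain ⟨φ, h3, h4, h5⟩ := hg.exists_ks hfc h.reg x
    (e := fun l => algebraMap ℂ Sg.F (Hm.fc U u l)) (fun l => x.O.algebraMap_mem _) h1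
  have h6 : ∀ l, φ l ∈ SA Sg p := fun l => (SA_eq p).ge (map_Gm_le (hfc.maps_of_s2 s2_OX
    (g := LinearMap.id) fun J hJ y hy => h.le J hJ hy) (h3 l))
  have h7 : ∀ (m : ℕ) κ (hκ : κ ∈ (r1 Sg k).KK I p m), (ad Sg p k).mu m
      (LinearMap.rTensor _ (Hm.fext U fun l _ => ⟨φ l, h6 l⟩) κ) = lc Sg.F φ (M.Amb.cz hκ).1 :=
    fun m κ hκ => by
      rw [ad_mu, Hm.mF_rT, ← Hm.lc_co _ hκ.1]
      exact congrArg (lc Sg.F · _) (funext fun l => congrArg ((r1 Sg k).inc p) (Hm.fext_fu U _ l))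
  have h8 : ∀ (m : ℕ) κ (hκ : κ ∈ (r1 Sg k).KK I p m),
      lc Sg.F φ (M.Amb.cz hκ).1 ∈ (ad Sg p k).gen U m := fun m κ hκ => by
    rw [hU, h.gen_eq, Nat.cast_add]; exact h4 _ _ (M.Amb.cz_mem hκ)
  refine ⟨Hm.fext U fun l _ => ⟨φ l, h6 l⟩, fun κ hκ => (h7 _ κ hκ).symm ▸ h8 _ κ hκ,
    fun κ hκ h0 => ?_⟩
  obtain ⟨θ, hθ, e⟩ := h8 _ κ hκ
  refine ⟨θ, hθ, e.trans (h7 _ κ hκ).symm, ?_⟩
  have hO := fun ξ => FwB.co_O (α := ad Sg p k) (U := U) (j := j + 1) x ξ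
  have h9 := h1 _ (Pnt.Gm_mem_loc (M.Amb.cz_mem hκ))
  obtain ⟨s, hs, h10⟩ := hg.exists_val (x := x)
    (a := Sg.V.X.t x.i ^ (-((j + 1 : ℕ) : ℤ)) • Hm.co U (j + 1) θ -
      ψ' (Sg.V.X.t x.i ^ (-((j + 1 : ℕ) : ℤ)) • M.Amb.cz hκ) •
        fun l => algebraMap ℂ Sg.F (Hm.fc U u l))
    (fun l => sub_mem (hO θ l) (mul_mem h9 (x.O.algebraMap_mem _))) (by
      have := h5 (Sg.V.X.t x.i ^ (-((j + 1 : ℕ) : ℤ)) • M.Amb.cz hκ) fun l =>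
        ⟨hO κ l, (mem_van.1 ((Hm.evz_eq_zero_iff hz hκ.1).1 h0 l)).2⟩
      rw [Submodule.coe_smul, map_smul, ← e] at this
      rw [map_sub, map_smul, map_smul _ (ψ' _), M.Amb.lc_fr hθ]
      exact this)
  obtain ⟨g, hg1, hg2⟩ := fib_surj (e := (j + 1 : ℕ)) (fun d hd =>
    (M.Amb.reg_SZ (𝔞 := r1 Sg k) (h.leO k) h.reg).gen (by omega)) x hs
  obtain ⟨κ', hκ', rfl⟩ := M.Amb.exists_KK (𝔞 := r1 Sg k) hg1
  refine ⟨κ', hκ', ?_⟩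
  have h11 : ∀ l, x.val ((Sg.V.X.t x.i ^ (-((j + 1 : ℕ) : ℤ)) • Hm.co U (j + 1) κ') l) =
      x.val (s.1 l) := fun l => by
    refine (sub_eq_zero.1 ((Pnt.val_sub (mem_loc_syz.1 hs l) (hO κ' l)).symm.trans ?_)).symm
    refine Submodule.smul_induction_on (p := fun v : LinearMap.ker (lc Sg.F ((r1 Sg k).fr I p)) =>
      v.1 l ∈ x.O ∧ x.val (v.1 l) = 0) hg2 (fun r hr w hw => ?_) (fun v w hv hw => ?_) |>.2
    · exact ⟨mul_mem r.2 (mem_loc_syz.1 hw l), (Pnt.val_mul r.2 (mem_loc_syz.1 hw l)).trans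
        (by rw [Pnt.mem_m.1 hr, zero_mul])⟩
    · exact ⟨add_mem hv.1 hw.1, (Pnt.val_add hv.1 hw.1).trans (by rw [hv.2, hw.2, add_zero])⟩
  refine (Hm.evz_eq hκ'.1).trans (eq_sub_of_add_eq (Eq.trans ?_ (Hm.evz_eq hθ).symm))
  rw [← Hm.sum_fc hu, Finset.smul_sum, ← Finset.sum_add_distrib]
  refine Finset.sum_congr rfl fun l _ => ?_
  rw [smul_smul, ← add_smul, hev, hev]
  congr 1
  have h12 := (h11 l).trans ((h10 l).trans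
    (Pnt.val_sub (hO θ l) (mul_mem h9 (x.O.algebraMap_mem _))))
  rw [Pi.smul_apply (ψ' _), smul_eq_mul, Pnt.val_mul h9 (x.O.algebraMap_mem _), Pnt.val_const, h2,
    LinearMap.smul_apply, smul_eq_mul] at h12
  refine (congrArg (c ^ (j + 1) * · + _) h12).trans ?_
  beta_reduce
  rw [mul_sub, ← mul_assoc, mul_inv_cancel_left₀ (pow_ne_zero _ hc), sub_add_cancel]
  rfl
end RT

end Crest.Agent.N265.N
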