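import Crest.Agent.N265.N.Fw0
import Crest.Agent.N265.Fib.P4
import Crest.Agent.N265.N.FwA
import Crest.Agent.N265.N.FwB
import Crest.Agent.N265.N.FwC

/-!
# Row 265, layer N, task N-FW: the fibrewise facts `TyOK`, `StepOK` for ideals

Notation: `x = pnt z`, `t = X.t x.i`, `U = pc I p`, `A = U ⊗ O(-p)`, `B = ker (A → I)` (locally free,
`locF_comapX`), `KK j = Γ(B(p + j))`, `ZK j z = Γ(𝔪_x B(p + j + 1))` for `j ≥ 2` (`NG.Gm_mX`),
`I|_x = U / ev_z KK`.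
-/

set_option autoImplicit false
noncomputable section
open MvPolynomial Module TensorProduct

namespace Crest.Agent.N265.N
open Crest.Agent.R274
open Defs_781 Lat_781 SnapA_99 SnapB_99 SnapE_99 Gen7_750 Xs1_781 SkDefs_474
open Alg GV Br Fib M _root_.Crest.Agent.N265.Pow
variable {Sg : Surf} {p : ℕ} {k : ℤ} {β : Sg.V.G} {n : ℕ} {I : XL Sg Sg.F}

namespace RT
/-- **`Hom(I, O/I) → Hom(Tor₁(I, ℂ_z), I|_z)` is onto.** `ψ` comes from an `O_x`-linear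
`ψ~ : B_x → O_x`; `γ = ψ~ · u : B_x → I_x` extends to `φ_x : A_x → L_x` (`L` = the hull of `I`;
`Ext¹(I, O)_x` is killed by `I_x`: with `L_x = g O_x`, `B_x → A_x` the Hilbert-Burch matrix,
`u · ψ~` extends for every `u ∈ g⁻¹ I_x`; directly: `B_x ⊕ O e_u ≤ A_x` with quotient killed by `u`,
so `a ↦ ψ~(u a - μ(a) e_u)` is the extension). The class of `φ_x` modulo `I` at `x`, and zero at the
other points, is a map `U → Γ((L/I)(p))`, which lifts to `Γ(L(p)) ≤ W` (`H¹(I(p)) = 0`). -/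
theorem ks (h : RT p β n I) (_hp : 2 ≤ p) {j : ℕ} (hj : 2 ≤ j) {z : Pt} (hz : z ∈ (Sg.S 0).pts)
    {ψ : Dual ℂ (WA Sg (ad Sg p k).W (j + 1)).V}
    (hψ : ψ ∈ ((ad Sg p k).ZK ((r1 Sg k).pc I p) j z).dualAnnihilator) {u : (ad Sg p k).W.V}
    (hu : u ∈ (r1 Sg k).pc I p) : ∃ φ : (ad Sg p k).W.V →ₗ[ℂ] (ad Sg p k).W.V,
      (ad Sg p k).HomP ((r1 Sg k).pc I p) φ ∧ ∀ κ ∈ (r1 Sg k).KK I p (j + 1),
      (ad Sg p k).ev (j + 1) z κ = 0 → ∃ θ ∈ tens ((r1 Sg k).pc I p) ⊤,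
        (ad Sg p k).mu _ θ = (ad Sg p k).mu _ (LinearMap.rTensor _ φ κ) ∧
        (ad Sg p k).ev (j + 1) z θ - ψ κ • u ∈
          ((r1 Sg k).KK I p (j + 1)).map ((ad Sg p k).ev (j + 1) z) := h.ks' hj hz hψ hu
end RT

theorem tyOK (hp : 2 ≤ p) {r : ℕ} (hr : r + 1 = Uni.rkU Sg p β n) :
    (ad Sg p k).TyOK (TT Sg p k β n) r (hT Sg p β n) where
  rk := by rintro _ ⟨I, h, rfl⟩; exact (h.ty.finrank_pc h.le h.reg).trans hr.symm
  hf := by rintro _ ⟨I, h, rfl⟩ j; exact h.hf j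
  gen := by rintro _ ⟨I, h, rfl⟩ j hj; exact h.gen hp hj
  fib := by rintro _ ⟨I, h, rfl⟩ j hj z hz; have := h.fib (k := k) hp hj hz; omega
  ks := by rintro _ ⟨I, h, rfl⟩ j hj z hz ψ hψ u hu; exact h.ks hp hj hz hψ hu
  soc_inj := by
    rintro _ ⟨I, h, rfl⟩ j hj z x y hxy u hu w hw ξ hξ η hη e₁ e₂ e
    exact h.soc_inj hp hj hxy hu hw hξ hη e₁ e₂ e
  soc_surj := by
    rintro _ ⟨I, h, rfl⟩ j hj z x y hxy u hu κ hκ h0
    exact h.soc_surj hp hj hxy hu hκ h0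

theorem stepOK (hp : 2 ≤ p) {r : ℕ} (hr : r + 1 = Uni.rkU Sg p β (n + 1)) (h : RT p β (n + 1) I)
    (hreg : ∀ J : XL Sg Sg.F, LeL J (OX Sg.V.X) → Ty J β (n + 1) → RegL J.toLat p) :
    (ad Sg p k).StepOK (TT Sg p k β n) (TT Sg p k β (n + 1)) r (hT Sg p β n) (hT Sg p β (n + 1)) where
  ty := tyOK hp (by have := h.rkU_succ 0; rw [Nat.zero_add] at this; omega)
  ty' := tyOK hp hr
  hh := h.hh
  down := by
    rintro _ U' ⟨I, h, rfl⟩ z hz hm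
    obtain ⟨J, h1, h2, e⟩ := h.down hz hm
    exact ⟨J, ⟨h1, h2, hreg J h1 h2⟩, e⟩
  up := by rintro _ ⟨I, h, rfl⟩ z hz w hw h0; exact h.up hz hw h0

end Crest.Agent.N265.N
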