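import Crest.Agent.N265.N.KK
import Crest.Agent.N265.M.TV
import Crest.Agent.N265.M.Ty

/-!
# Row 265, layer N: ideals as an instance of `AD`; task N-FW0: numerical facts and the dictionary
-/

set_option autoImplicit false
noncomputable section
open MvPolynomial Module TensorProduct

namespace Crest.Agent.N265.N
open Crest.Agent.R274
open Defs_781 Lat_781 SnapA_99 SnapB_99 SnapE_99 Gen7_750 Xs1_781 SkDefs_474
open Alg GV Br Fib M _root_.Crest.Agent.N265.Pow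

/-- sections of `O(p) t^k` -/
abbrev ad (Sg : Surf) (p : ℕ) (k : ℤ) : AD Sg :=
  { b := 0, e := 2, he := one_le_two, W := (r1 Sg k).G p, wt := k, hg := fun _ => rfl
    M := Sg.F, emb := (r1 Sg k).inc p }
variable {Sg : Surf} {p : ℕ} {k : ℤ} {β : Sg.V.G} {n : ℕ} {I : XL Sg Sg.F}
lemma ad_mu (j : ℕ) : (ad Sg p k).mu j = mF ((r1 Sg k).inc p) j := rfl
lemma ad_KK (I : XL Sg Sg.F) (j : ℕ) :
    (ad Sg p k).KK ((r1 Sg k).pc I p) j = (r1 Sg k).KK I p j := rfl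
/-- `p`-regular ideals of type `(β, n)` -/
structure RT (p : ℕ) (β : Sg.V.G) (n : ℕ) (I : XL Sg Sg.F) : Prop where
  le : LeL I (OX Sg.V.X)
  ty : Ty I β n
  reg : RegL I.toLat p
/-- their pieces of degree `p` -/
def TT (Sg : Surf) (p : ℕ) (k : ℤ) (β : Sg.V.G) (n : ℕ) (U : Submodule ℂ (ad Sg p k).W.V) : Prop :=
  ∃ I, RT p β n I ∧ U = (r1 Sg k).pc I p
/-- the dimension of the syzygies -/
def hT (Sg : Surf) (p : ℕ) (β : Sg.V.G) (n j : ℕ) : ℕ :=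
  Uni.rkU Sg p β n * finrank ℂ (SA Sg j) - Uni.rkU Sg (j + p) β n

namespace RT
theorem leO (h : RT p β n I) (k : ℤ) : LeL I (r1 Sg k).O :=
  fun J hJ => (h.le J hJ).trans (r1_O k J hJ).ge
theorem regL (h : RT p β n I) (j : ℕ) : RegL I.toLat (j + p : ℕ) :=
  h.reg.mono (by push_cast; omega)
theorem lfam (h : RT p β n I) (hp : 2 ≤ p) (X : Spc) : LFam (r1 Sg k) X p fun _ => I where
  two := hp
  le := fun _ _ => h.leO k
  reg := fun _ _ => h.reg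
  hp := ⟨_, _, fun _ _ => (h.ty.hp h.le).trans (by rw [Fintype.card_unique])⟩
  ab := fun j _ => IsAB.const ((r1 Sg k).in_G j _) (stab_of_le fun v hv => by
    rw [(ad Sg j k).hg v]; exact Submodule.smul_mem _ _ hv)
/-- `A_j U = Γ(I(p + j))` (`map_mul_pc`, `inc_mul`, `map_pc`) -/
theorem gen_eq (h : RT p β n I) (j : ℕ) :
    (ad Sg p k).gen ((r1 Sg k).pc I p) j = Gm I.toLat (j + p : ℕ) := by
  have e : (ad Sg p k).mu j = (r1 Sg k).inc (j + p) ∘ₗ (r1 Sg k).mul p j :=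
    LinearMap.ext fun t => ((r1 Sg k).inc_mul p j t).symm
  rw [AD.gen, e, Submodule.map_comp, Amb.map_mul_pc (h.leO k) h.reg le_rfl, Amb.map_pc (h.leO k)]
theorem finrank_gen (h : RT p β n I) (j : ℕ) :
    finrank ℂ ((ad Sg p k).gen ((r1 Sg k).pc I p) j) = Uni.rkU Sg (j + p) β n := by
  rw [(h.gen_eq j).trans (Amb.map_pc (𝔞 := r1 Sg k) (h.leO k) (j + p)).symm,
    ← h.ty.finrank_pc (k := k) h.le (h.regL j)]
  exact (LinearEquiv.finrank_eq (Submodule.equivMapOfInjective _ ((r1 Sg k).inc_inj _) _)).symm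
theorem homP_iff (h : RT p β n I) {φ : (ad Sg p k).W.V →ₗ[ℂ] (ad Sg p k).W.V} :
    (ad Sg p k).HomP ((r1 Sg k).pc I p) φ ↔ φ ∈ (r1 Sg k).Tv (r1 Sg k) I I p := by
  have e : ∀ κ, (ad Sg p k).mu 3 (LinearMap.rTensor _ φ κ) ∈ (ad Sg p k).gen ((r1 Sg k).pc I p) 3 ↔
      (r1 Sg k).res (r1 Sg k) p φ κ ∈ (r1 Sg k).pc I (3 + p) := fun κ => by
    rw [h.gen_eq, Amb.mem_pc, Amb.res_apply, Amb.inc_mul]
    rfl
  exact ⟨fun H => mem_homMap.2 fun κ hκ => (e κ).1 (H κ hκ),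
    fun H κ hκ => (e κ).2 (mem_homMap.1 H κ hκ)⟩
theorem hf_add (h : RT p β n I) (k : ℤ) (j : ℕ) :
    Uni.rkU Sg (j + p) β n + finrank ℂ ((r1 Sg k).KK I p j) =
      Uni.rkU Sg p β n * finrank ℂ (SA Sg j) := by
  rw [← h.finrank_gen (k := k) j, ← h.ty.finrank_pc (k := k) h.le h.reg]
  exact AD.finrank_gen (α := ad Sg p k) _ j
theorem hf (h : RT p β n I) (j : ℕ) : finrank ℂ ((r1 Sg k).KK I p j) = hT Sg p β n j := by
  have := h.hf_add k j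
  rw [hT]
  omega
theorem syzF (h : RT p β n I) (hp : 2 ≤ p) (k : ℤ) : SyzF Sg 0 Spc.pt0 ((r1 Sg k).G p)
    (fun j _ => (r1 Sg k).KK I p j) 2 (Uni.rkU Sg p β n - 1) :=
  (h.lfam hp Spc.pt0).syzF (by simp) fun _ _ => by
    have := h.ty.rkU_pos h.le h.reg
    rw [h.ty.finrank_pc h.le h.reg, Fintype.card_unique]
    omega
/-- `LFam.syzF` over `Spc.pt0` -/
theorem gen (h : RT p β n I) (hp : 2 ≤ p) {j : ℕ} (hj : 2 ≤ j) :
    mulS Sg ⊤ ((r1 Sg k).KK I p j) = (r1 Sg k).KK I p (j + 1) :=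
  (h.syzF hp k).gen j hj 0 (by rw [Spc.pt0_pts]; rfl)
theorem fib (h : RT p β n I) (hp : 2 ≤ p) {j : ℕ} (hj : 2 ≤ j) {z : Pt} (hz : z ∈ (Sg.S 0).pts) :
    finrank ℂ ((ad Sg p k).ZK ((r1 Sg k).pc I p) j z) + Uni.rkU Sg p β n =
      hT Sg p β n (j + 1) + 1 := by
  have h1 : finrank ℂ ((ad Sg p k).ZK ((r1 Sg k).pc I p) j z) + (Uni.rkU Sg p β n - 1) =
      finrank ℂ ((r1 Sg k).KK I p (j + 1)) :=
    (h.syzF hp k).rk j hj 0 (by rw [Spc.pt0_pts]; rfl) z hz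
  have h2 := h.ty.rkU_pos h.le h.reg
  rw [h.hf] at h1
  omega
theorem rkU_succ (h : RT p β (n + 1) I) (j : ℕ) :
    Uni.rkU Sg (j + p) β n = Uni.rkU Sg (j + p) β (n + 1) + 1 := by
  have := h.ty.rkU_pos h.le (h.regL j)
  simp only [Uni.rkU] at this ⊢
  omega
theorem hh (h : RT p β (n + 1) I) (j : ℕ) :
    hT Sg p β n j + 1 = hT Sg p β (n + 1) j + finrank ℂ (SA Sg j) := by
  have h1 := h.hf_add 0 j
  have h2 := h.ty.rkU_pos h.le (h.regL j)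
  have h3 := h.rkU_succ 0
  have h4 := h.rkU_succ j
  rw [Nat.zero_add] at h3
  have h5 : finrank ℂ (SA Sg j) ≠ 0 := fun e => by
    rw [e, Nat.mul_zero] at h1
    omega
  rw [hT, hT, h3, h4, Nat.add_mul, Nat.one_mul]
  omega
theorem eqL (h : RT p β n I) {J : XL Sg Sg.F} (h' : RT p β n J)
    (e : (r1 Sg k).pc I p = (r1 Sg k).pc J p) : EqL I J :=
  eqv_of_le (Amb.le_of_pc (h.leO k) h.reg le_rfl e.le) (Amb.le_of_pc (h'.leO k) h'.reg le_rfl e.ge)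
end RT

end Crest.Agent.N265.N
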