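import Crest.Agent.N265.N.Fn
import Crest.Agent.N265.N.FHF

/-!
# Row 265, layer N, task N-UNIF: finitely many Hilbert functions, uniform bounds
-/

set_option autoImplicit false
noncomputable section
open MvPolynomial Module

namespace Crest.Agent.N265.N
variable {S X Y : Spc} {b : ℕ} {ι κ : Type} [Fintype ι] [Fintype κ]

/-- up to a uniform bound there are only finitely many functions `h x` -/
def FinEv (X : Spc) (h : Pt → ℤ → ℤ) : Prop :=
  ∃ (j₀ : ℤ) (T : Finset (ℤ → ℤ)), ∀ x ∈ X.pts, ∃ t ∈ T, ∀ j ≥ j₀, h x j = t j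

namespace FinEv
variable {h h' : Pt → ℤ → ℤ}
lemma of_finite (H : (h '' X.pts).Finite) : FinEv X h :=
  ⟨0, H.toFinset, fun x hx => ⟨h x, H.mem_toFinset.2 ⟨x, hx, rfl⟩, fun _ _ => rfl⟩⟩
lemma const (t : ℤ → ℤ) : FinEv X fun _ => t :=
  ⟨0, {t}, fun _ _ => ⟨t, Finset.mem_singleton_self t, fun _ _ => rfl⟩⟩
lemma of_lc {f : Pt → ℤ} (H : X.LC f) : FinEv X fun x _ => f x :=
  of_finite (H.comp fun n (_ : ℤ) => n).finite_range
lemma op₂ (φ : ℤ → ℤ → ℤ) (H : FinEv X h) (H' : FinEv X h') :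
    FinEv X fun x j => φ (h x j) (h' x j) := by
  classical
  obtain ⟨j₀, T, H⟩ := H
  obtain ⟨j₁, T', H'⟩ := H'
  refine ⟨max j₀ j₁, (T ×ˢ T').image fun p j => φ (p.1 j) (p.2 j), fun x hx => ?_⟩
  obtain ⟨t, ht, e⟩ := H x hx
  obtain ⟨t', ht', e'⟩ := H' x hx
  refine ⟨_, Finset.mem_image.2 ⟨(t, t'), Finset.mem_product.2 ⟨ht, ht'⟩, rfl⟩, fun j hj => ?_⟩
  simp only [e j (le_of_max_le_left hj), e' j (le_of_max_le_right hj)]
lemma add (H : FinEv X h) (H' : FinEv X h') : FinEv X fun x j => h x j + h' x j :=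
  H.op₂ (· + ·) H'
lemma sub (H : FinEv X h) (H' : FinEv X h') : FinEv X fun x j => h x j - h' x j :=
  H.op₂ (· - ·) H'
lemma shift (H : FinEv X h) (k : ℤ) : FinEv X fun x j => h x (j + k) := by
  classical
  obtain ⟨j₀, T, H⟩ := H
  refine ⟨j₀ - k, T.image fun t j => t (j + k), fun x hx => ?_⟩
  obtain ⟨t, ht, e⟩ := H x hx
  exact ⟨_, Finset.mem_image.2 ⟨t, ht, rfl⟩, fun j hj => e _ (by omega)⟩
lemma congr (H : FinEv X h) {j₀ : ℤ} (e : ∀ x ∈ X.pts, ∀ j ≥ j₀, h x j = h' x j) : FinEv X h' := by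
  obtain ⟨j₁, T, H⟩ := H
  refine ⟨max j₀ j₁, T, fun x hx => ?_⟩
  obtain ⟨t, ht, e'⟩ := H x hx
  exact ⟨t, ht, fun j hj => by
    rw [← e x hx j (le_of_max_le_left hj), e' j (le_of_max_le_right hj)]⟩
lemma pull (H : FinEv X h) (p : Proj Y X) : FinEv Y fun y => h (restr X.B y) := by
  obtain ⟨j₁, T, H⟩ := H
  exact ⟨j₁, T, fun y hy => H _ (p.map y hy)⟩
/-- pointwise eventual vanishing is uniform -/
theorem unif (H : FinEv X h) (h0 : ∀ x ∈ X.pts, ∃ j₀ : ℤ, ∀ j ≥ j₀, h x j = 0) :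
    ∃ j₀ : ℤ, ∀ x ∈ X.pts, ∀ j ≥ j₀, h x j = 0 := by
  classical
  obtain ⟨j₁, T, H⟩ := H
  have hb : ∀ t : ℤ → ℤ, ∃ n : ℤ, (∃ m : ℤ, ∀ j ≥ m, t j = 0) → ∀ j ≥ n, t j = 0 := fun t => by
    by_cases ht : ∃ m : ℤ, ∀ j ≥ m, t j = 0
    · exact ⟨ht.choose, fun _ => ht.choose_spec⟩
    · exact ⟨0, fun h => absurd h ht⟩
  choose n hn using hb
  obtain ⟨N, hN⟩ := (T.image n).bddAbove
  refine ⟨max j₁ N, fun x hx j hj => ?_⟩
  obtain ⟨t, ht, e⟩ := H x hx
  obtain ⟨m, hm⟩ := h0 x hx
  rw [e j (le_of_max_le_left hj)]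
  refine hn t ⟨max j₁ m, fun i hi => ?_⟩ j
    ((hN (Finset.mem_coe.2 (Finset.mem_image_of_mem n ht))).trans (le_of_max_le_right hj))
  rw [← e i (le_of_max_le_left hi), hm i (le_of_max_le_right hi)]
end FinEv

/-- pointwise eventual equality of nested finite-dimensional families is uniform -/
theorem unif_eq {M : Type} [AddCommGroup M] [Module ℂ M] {P Q : Pt → ℤ → Submodule ℂ M}
    (hfd : ∀ x ∈ X.pts, ∀ j, FiniteDimensional ℂ (Q x j))
    (hP : FinEv X fun x j => finrank ℂ (P x j)) (hQ : FinEv X fun x j => finrank ℂ (Q x j))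
    (hle : ∀ x ∈ X.pts, ∀ j, P x j ≤ Q x j) (h : ∀ x ∈ X.pts, ∃ j₀ : ℤ, ∀ j ≥ j₀, Q x j ≤ P x j) :
    ∃ j₀ : ℤ, ∀ j ≥ j₀, ∀ x ∈ X.pts, P x j = Q x j := by
  obtain ⟨j₀, H⟩ := (hP.sub hQ).unif fun x hx => by
    obtain ⟨m, hm⟩ := h x hx
    exact ⟨m, fun j hj => by rw [le_antisymm (hle x hx j) (hm j hj), sub_self]⟩
  refine ⟨j₀, fun j hj x hx => ?_⟩
  have := hfd x hx j
  refine Submodule.eq_of_le_of_finrank_eq (hle x hx j) ?_
  have := H x hx j hj
  omega

lemma finrank_map_add_inf_ker {M M' : Type} [AddCommGroup M] [Module ℂ M] [AddCommGroup M']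
    [Module ℂ M'] (f : M →ₗ[ℂ] M') (P : Submodule ℂ M) [FiniteDimensional ℂ P] :
    finrank ℂ (P.map f) + finrank ℂ (P ⊓ LinearMap.ker f : Submodule ℂ M) = finrank ℂ P := by
  rw [← (f.domRestrict P).finrank_range_add_finrank_ker, LinearMap.range_domRestrict,
    LinearMap.ker_domRestrict, ← Submodule.finrank_map_subtype_eq, Submodule.map_comap_subtype]

section theta
variable {A : Type} [CommRing A] [Algebra ℂ A] (V : Finset Var)
open Classical in
/-- keep the variables of `V`, evaluate the other ones at `ρ` -/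
def theta (ρ : Var → A) : R →ₐ[ℂ] MvPolynomial V A :=
  aeval fun v => if h : v ∈ V then MvPolynomial.X ⟨v, h⟩ else C (ρ v)
lemma weight_one {τ : Type} (μ : τ →₀ ℕ) :
    Finsupp.weight (fun _ => (1 : ℤ)) μ = ((Finsupp.degree μ : ℕ) : ℤ) := by
  induction μ using Finsupp.induction_linear with
  | zero => simp
  | add s t hs ht => simp [hs, ht]
  | single v n => simp [Finsupp.weight_single]
lemma theta_deg (hV : ∀ v ∈ V, v.1 = b) {ρ : Var → A} (hρ : ∀ v : Var, v.1 = b → ρ v = 0) {d : D}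
    {r : R} (h : Hmg d r) (μ : V →₀ ℕ) (hμ : coeff μ (theta V ρ r) ≠ 0) :
    ((Finsupp.degree μ : ℕ) : ℤ) = d (some b) := by
  rw [← weight_one]
  suffices H : IsWeightedHomogeneous (fun _ => (1 : ℤ)) (theta V ρ r) (d (some b)) from H hμ
  rw [r.as_sum, map_sum]
  refine IsWeightedHomogeneous.sum _ _ _ fun m hm => ?_
  rw [← hmg_iff.1 h (mem_support_iff.1 hm), weight_some, theta, aeval_monomial, Finsupp.prod]
  refine IsWeightedHomogeneous.C_mul (IsWeightedHomogeneous.prod _ _ _ fun v _ => ?_) _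
  have : IsWeightedHomogeneous (fun _ => (1 : ℤ))
      (if h : v ∈ V then MvPolynomial.X ⟨v, h⟩ else C (ρ v) : MvPolynomial V A)
      (if v.1 = b then 1 else 0) := by
    by_cases h1 : v ∈ V
    · rw [dif_pos h1, if_pos (hV v h1)]; exact isWeightedHomogeneous_X _ _ _
    · rw [dif_neg h1]
      split_ifs with h2
      · rw [hρ v h2, C_0]; exact isWeightedHomogeneous_zero _ _ _
      · exact isWeightedHomogeneous_C _ _
  convert this.pow (m v) using 1
  split_ifs <;> simp
lemma map_theta (φ : A →ₐ[ℂ] ℂ) (ρ : Var → A) (r : R) :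
    map (φ : A →+* ℂ) (theta V ρ r) = theta V (fun v => φ (ρ v)) r := by
  induction r using MvPolynomial.induction_on with
  | C c => simp [theta]
  | add p q hp hq => simp only [map_add, hp, hq]
  | mul_X p v hp =>
    simp only [map_mul, hp]
    by_cases h : v ∈ V <;> simp [theta, h]
lemma eval_theta {x x' z : Pt} (h1 : ∀ v ∈ V, x v = 0) (h2 : ∀ v ∉ V, z v = 0)
    (h3 : ∀ v ∉ V, x' v = x v) (r : R) :
    eval (fun v : V => z v.1) (theta V x' r) = eval (x + z) r := by
  induction r using MvPolynomial.induction_on with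
  | C c => simp [theta]
  | add p q hp hq => simp only [map_add, hp, hq]
  | mul_X p v hp =>
    simp only [map_mul, hp]
    by_cases h : v ∈ V
    · simp [theta, h, h1 v h]
    · simp [theta, h, h2 v h, h3 v h]
/-- polynomial vectors as functions on the cone -/
def evU (S : Spc) (κ : Type) : (κ → MvPolynomial V ℂ) →ₗ[ℂ] (S.pts → κ → ℂ) where
  toFun p z k := eval (fun v : V => z.1 v.1) (p k)
  map_add' p q := by funext z k; simp
  map_smul' c p := by funext z k; simp
/-- vectors of degree `j` -/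
def degP (κ : Type) (c : κ → ℤ) (j : ℤ) : Submodule ℂ (κ → MvPolynomial V ℂ) where
  carrier := {p | ∀ k μ, coeff μ (p k) ≠ 0 → ((Finsupp.degree μ : ℕ) : ℤ) = j + c k}
  add_mem' := by
    intro p q hp hq k μ h
    by_cases h1 : coeff μ (p k) = 0
    · exact hq k μ (by simpa [h1] using h)
    · exact hp k μ h1
  zero_mem' := by intro k μ h; simp at h
  smul_mem' := by
    intro a p hp k μ h
    exact hp k μ fun h1 => h (by simp [h1])
instance (c : κ → ℤ) (j : ℤ) : FiniteDimensional ℂ (degP V κ c j) := by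
  have : ∀ k, FiniteDimensional ℂ (homogeneousSubmodule V ℂ (j + c k).toNat) := fun k =>
    Module.Finite.iff_fg.2 (homogeneousSubmodule_fg _ _ _)
  refine Module.Finite.of_injective (N := ∀ k, homogeneousSubmodule V ℂ (j + c k).toNat)
    (LinearMap.pi fun k => LinearMap.codRestrict _ ((LinearMap.proj k).comp (degP V κ c j).subtype)
      fun p μ hμ => ?_) fun p q h => Subtype.ext (funext fun k => congrArg Subtype.val (congrFun h k))
  have := p.2 k μ hμ
  have e : Finsupp.weight 1 μ = Finsupp.degree μ := by rw [Finsupp.degree_eq_weight_one]; rfl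
  omega
lemma mon_mem_Fn (hS : Base S b) (ν : V →₀ ℕ) :
    (fun z : S.pts => eval (fun v : V => z.1 v.1) (monomial ν (1 : ℂ))) ∈
      Fn S b ((Finsupp.degree ν : ℕ) : ℤ) := by
  induction ν using Finsupp.induction_linear with
  | zero => simp only [monomial_zero', map_one, map_zero, Nat.cast_zero]; exact one_mem_Fn
  | add s t hs ht =>
    convert mul_mem_Fn hs ht using 1
    · simp
    · funext z; rw [Pi.mul_apply, ← map_mul, monomial_mul, one_mul]
  | single v n =>
    convert pow_mem_Fn (X_mem_Fn hS v.1) n using 1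
    · simp
    · funext z; simp [← X_pow_eq_monomial]
end theta

/-- **Finitely many rank functions.** Apply `fhf` over `A = R ⧸ X.I`, `τ` = the variables of `S`,
to the columns of `Φ` together with the vectors `q • e_i`, `q` running through homogeneous
generators of the ideal of `S` in `ℂ[τ]`; the map `ℂ[τ]^κ → (S.pts → κ → ℂ)` sends the piece of
degree `j` onto the image and its kernel on the piece is the (constant) piece of the `q • e_i`. -/
theorem finite_rank (hS : Base S b) (hb : b ∉ X.B) {a : ι → D} {c : κ → D} {Φ : Matrix κ ι R}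
    (hΦ : MHmg a c Φ) :
    ((fun x (j : ℤ) => (finrank ℂ ((Amb S b (sdeg b a) j).map (act S x Φ)) : ℤ)) '' X.pts).Finite := by
  classical
  obtain ⟨V, hV, hV'⟩ := S.fin
  obtain ⟨W, hW, hW'⟩ := X.fin
  have hVb : ∀ v ∈ V, v.1 = b := fun v hv => by simpa [hS.B] using hV v hv
  let A := MvPolynomial W ℂ
  let ρ : Var → A := fun v => if h : v ∈ W then MvPolynomial.X ⟨v, h⟩ else 0
  have hρ : ∀ v : Var, v.1 = b → ρ v = 0 := fun v hv => dif_neg fun h => hb (hv ▸ hW v h)
  let K : ℤ → Submodule ℂ (κ → MvPolynomial V ℂ) := fun j =>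
    degP V κ (sdeg b c) j ⊓ LinearMap.ker (evU V S κ)
  let g : ι ⊕ (Σ j, K j) → κ → MvPolynomial V A :=
    Sum.elim (fun i k => theta V ρ (Φ k i)) fun p => vmap (algebraMap ℂ A) p.2.1
  let d : ι ⊕ (Σ j, K j) → ℤ := Sum.elim (fun i => -sdeg b a i) fun p => p.1
  have hg : ∀ t k μ, coeff μ (g t k) ≠ 0 → ((Finsupp.degree μ : ℕ) : ℤ) = d t + sdeg b c k := by
    rintro (i | p) k μ h
    · rw [theta_deg V hVb hρ (hΦ k i) μ h]; simp [d, sdeg]; ring
    · exact p.2.2.1 k μ fun h0 => h (by simp [g, vmap, coeff_map, h0])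
  refine ((fhf g d (sdeg b c) hg ℂ).image
    fun h j => (h j : ℤ) - finrank ℂ (K j)).subset ?_
  rintro _ ⟨x, hx, rfl⟩
  let φ : A →ₐ[ℂ] ℂ := aeval fun v : W => x v.1
  refine ⟨_, ⟨φ, rfl⟩, funext fun j => ?_⟩
  have hx0 : ∀ v ∈ V, x v = 0 := fun v hv => zero_of_mem hb hx v (hVb v hv)
  have hφ : ∀ v, φ (ρ v) = x v := fun v => by
    by_cases h : v ∈ W
    · simp only [φ, ρ, dif_pos h]; exact aeval_X _ _
    · simp [ρ, h, hW' x hx v h]
  have e1 : ∀ i, vmap (φ : A →+* ℂ) (g (.inl i)) = fun k => theta V x (Φ k i) := fun i => by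
    funext k; simp only [vmap, g, Sum.elim_inl, map_theta, hφ]
  have e2 : ∀ p, vmap (φ : A →+* ℂ) (g (.inr p)) = p.2.1 := fun p => by
    funext k
    simp only [g, Sum.elim_inr, vmap_vmap, AlgHom.comp_algebraMap]
    exact map_id _
  have e3 : ∀ (p : MvPolynomial V ℂ) i, evU V S κ (p • fun k => theta V x (Φ k i)) =
      act S x Φ fun z => Pi.single i (eval (fun v : V => z.1 v.1) p) := fun p i => by
    funext z k
    simp [evU, act_apply, mev, eval_theta V hx0 (hV' z.1 z.2) fun _ _ => rfl, mul_comm]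
  set P := piece (fun t => vmap (φ : A →+* ℂ) (g t)) d j with hP
  have hle : P ≤ degP V κ (sdeg b c) j := fun v hv =>
    deg_of_mem_piece _ d _ (fun t k μ h => hg t k μ fun h0 => h (by simp [vmap, coeff_map, h0])) j hv
  have hK : P ⊓ LinearMap.ker (evU V S κ) = K j := by
    refine le_antisymm (inf_le_inf_right _ hle) fun v hv => ⟨?_, hv.2⟩
    exact Submodule.subset_span ⟨.inr ⟨j, v, hv⟩, 0, by simp [d], by simp [e2]⟩
  have hI : P.map (evU V S κ) = (Amb S b (sdeg b a) j).map (act S x Φ) := by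
    apply le_antisymm
    · rw [Submodule.map_le_iff_le_comap]
      refine Submodule.span_le.2 ?_
      rintro _ ⟨i | p, ν, h, rfl⟩
      · simp only [e1, SetLike.mem_coe, Submodule.mem_comap, e3]
        refine Submodule.mem_map_of_mem fun i' => ?_
        by_cases hi : i' = i
        · subst hi
          simp only [Pi.single_eq_same]
          convert mon_mem_Fn V hS ν using 2
          simp only [d, Sum.elim_inl] at h
          omega
        · simp only [Pi.single_eq_of_ne hi]; exact zero_mem _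
      · simp only [e2, SetLike.mem_coe, Submodule.mem_comap]
        convert Submodule.zero_mem _
        funext z k
        have : eval (fun v : V => z.1 v.1) (p.2.1 k) = 0 := congrFun (congrFun p.2.2.2 z) k
        simp [evU, this]
    · rintro _ ⟨σ, hσ, rfl⟩
      have : σ = ∑ i, fun z => Pi.single i (σ z i) := by
        funext z; simp [Finset.sum_apply, Finset.univ_sum_single]
      rw [this, map_sum]
      refine Submodule.sum_mem _ fun i _ => ?_
      obtain ⟨r, hr, er⟩ := mem_Fn.1 (hσ i)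
      refine ⟨theta V (0 : Pt) r • fun k => theta V x (Φ k i), ?_, ?_⟩
      · rw [(theta V (0 : Pt) r).as_sum, Finset.sum_smul]
        refine Submodule.sum_mem _ fun ν hν => ?_
        rw [← mul_one (coeff ν _), ← smul_eq_mul, ← smul_monomial, smul_assoc]
        refine Submodule.smul_mem _ _ (Submodule.subset_span ⟨.inl i, ν, ?_, by simp only [e1]⟩)
        rw [theta_deg V hVb (fun _ _ => rfl) hr ν (mem_support_iff.1 hν)]
        simp [d, eB]
      · rw [e3]
        congr 1
        funext z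
        rw [eval_theta V (x := 0) (fun _ _ => rfl) (hV' z.1 z.2) (fun _ _ => rfl), zero_add]
        exact congrArg _ (er z).symm
  have : FiniteDimensional ℂ P := Submodule.finiteDimensional_of_le hle
  have := finrank_map_add_inf_ker (evU V S κ) P
  simp only
  rw [← hI, ← hK]
  change (finrank ℂ P : ℤ) - _ = _
  omega
theorem finEv_rank (hS : Base S b) (hb : b ∉ X.B) {a : ι → D} {c : κ → D} {Φ : Matrix κ ι R}
    (hΦ : MHmg a c Φ) :
    FinEv X fun x j => finrank ℂ ((Amb S b (sdeg b a) j).map (act S x Φ)) :=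
  .of_finite (finite_rank hS hb hΦ)
theorem finEv_ker (hS : Base S b) (hb : b ∉ X.B) {a : ι → D} {c : κ → D} {Φ : Matrix κ ι R}
    (hΦ : MHmg a c Φ) : FinEv X fun x j =>
      finrank ℂ (Amb S b (sdeg b a) j ⊓ LinearMap.ker (act S x Φ) : Submodule ℂ _) :=
  ((FinEv.const fun j => finrank ℂ (Amb S b (sdeg b a) j)).sub (finEv_rank hS hb hΦ)).congr
    (j₀ := 0) fun x _ j _ => by
      have := finrank_map_add_inf_ker (act S x Φ) (Amb S b (sdeg b a) j)
      omega

end Crest.Agent.N265.N
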