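import Crest.Agent.N265.N.Locex
import Crest.Agent.N265.N.Unif

/-!
# Row 265, layer N, task N-GAM: sections `Γ_j(E)` of a bundle on `X × S` along `S`
-/

set_option autoImplicit false
set_option backward.isDefEq.respectTransparency false
set_option linter.unusedSectionVars false
noncomputable section
open MvPolynomial Module

namespace Crest.Agent.N265.N
open Alg GV
variable {S X Y : Spc} {b : ℕ} {ι κ : Type} [Fintype ι] [Fintype κ]

/-- sections of degree `j` of `E` over `{x} × S` -/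
def gam (E : Bun (X.fib S)) (b : ℕ) (j : ℤ) (x : Pt) : Submodule ℂ (S.pts → E.ι → ℂ) :=
  Amb S b (sdeg b E.deg) j ⊓ secs S fun z => E.L (x + z)
lemma gsub_gam (E : Bun (X.fib S)) (x : Pt) : GSub S b (sdeg b E.deg) fun j => gam E b j x :=
  gsub_Amb.inf_secs _
instance (E : Bun (X.fib S)) (j : ℤ) (x : Pt) : FiniteDimensional ℂ (gam E b j x) :=
  Submodule.finiteDimensional_of_le inf_le_left

/-- homogeneous elements of `P` are near `z` images of regular sections of `L` -/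
def LocOnto (S : Spc) (b : ℕ) (x : Pt) (L : Pt → Submodule ℂ (ι → ℂ)) (c : κ → ℤ)
    (P : Submodule ℂ (S.pts → κ → ℂ)) (f : Matrix κ ι R) (z : S.pts) : Prop :=
  ∀ j, ∀ σ ∈ Amb S b c j, σ ∈ P → ∃ r ∈ S.fn, r z ≠ 0 ∧
    ∃ τ ∈ secs S L, RegV S.fn τ ∧ act S x f τ = r • σ

lemma finrank_map_add_ker {M N : Type} [AddCommGroup M] [Module ℂ M] [AddCommGroup N] [Module ℂ N]
    (U : Submodule ℂ M) [FiniteDimensional ℂ U] (φ : M →ₗ[ℂ] N) :
    finrank ℂ (U.map φ) + finrank ℂ (U ⊓ LinearMap.ker φ : Submodule ℂ M) = finrank ℂ U := by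
  have h := LinearMap.finrank_range_add_finrank_ker (φ.domRestrict U)
  rwa [LinearMap.range_domRestrict, LinearMap.ker_domRestrict, ← Submodule.finrank_map_subtype_eq,
    Submodule.map_comap_subtype] at h
lemma smul_mem_secs {M : Type} [AddCommGroup M] [Module ℂ M] {L : Pt → Submodule ℂ M}
    {σ : S.pts → M} (h : σ ∈ secs S L) (r : S.pts → ℂ) : r • σ ∈ secs S L :=
  fun z => Submodule.smul_mem _ (r z) (h z)

section
variable (hS : Base S b) (hb : b ∉ X.B)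
include hS hb

lemma gsub_gam_map {E : Bun (X.fib S)} {c : κ → D} {f : Matrix κ E.ι R} (hf : MHmg E.deg c f)
    {x : Pt} (hx : x ∈ X.pts) : GSub S b (sdeg b c) fun j => (gam E b j x).map (act S x f) :=
  (gsub_gam E x).map _ (act_smul x f) fun _ _ h => act_mem_Amb hS hf (zero_of_mem hb hx) h
lemma act_mem_iSup {E : Bun (X.fib S)} (f : Matrix κ E.ι R) {x : Pt} (hx : x ∈ X.pts)
    {τ : S.pts → E.ι → ℂ} (h : τ ∈ secs S fun z => E.L (x + z)) (hτ : RegV S.fn τ) :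
    act S x f τ ∈ ⨆ j, (gam E b j x).map (act S x f) := by
  rw [← Submodule.map_iSup]
  exact ⟨τ, mem_iSup_secs hS (fibre_eqv hS hb E hx) hτ h, rfl⟩
/-- `LocOnto` only depends on the line through `z` (`mem_iSup_secs`, `GSub.exists_hom`) -/
lemma LocOnto.smul {E : Bun (X.fib S)} {c : κ → D} {f : Matrix κ E.ι R} (hf : MHmg E.deg c f)
    {x : Pt} (hx : x ∈ X.pts) {P : Submodule ℂ (S.pts → κ → ℂ)} {z z' : S.pts} {a : ℂ}
    (h : LocOnto S b x (fun z => E.L (x + z)) (sdeg b c) P f z) (e : z'.1 = a • z.1) :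
    LocOnto S b x (fun z => E.L (x + z)) (sdeg b c) P f z' := by
  intro j σ hσ hP
  obtain ⟨r, hr, h0, τ, h1, h2, h3⟩ := h j σ hσ hP
  obtain ⟨m, g, hg, hg0, τ', hτ', e'⟩ := (gsub_gam_map hS hb hf hx).exists_hom hS hσ hr h0
    (h3 ▸ act_mem_iSup hS hb f hx h1 h2)
  refine ⟨g, Fn_le hg, ?_, τ', hτ'.2, regV_of_Amb hτ'.1, e'⟩
  rw [Fn_smul hS hg e]
  refine mul_ne_zero (zpow_ne_zero _ fun ha => ?_) hg0
  obtain ⟨v, -, hv⟩ := S.rel _ z'.2 b (by simp [hS.B])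
  simp [e, ha] at hv
/-- `IsAlg.exists_homotopy` -/
lemma locOnto_of_exact {A B C : Bun (X.fib S)} (f : Matrix B.ι A.ι R) (g : Matrix C.ι B.ι R)
    (h : ∀ y ∈ (X.fib S).pts, (A.L y).map (mev y f) ≤ B.L y ⊓ LinearMap.ker (mev y g) ∧
      (B.L y).map (mev y g) ≤ C.L y) {x : Pt} (hx : x ∈ X.pts) {z : S.pts}
    (he : (A.L (x + z.1)).map (mev (x + z.1) f) =
      B.L (x + z.1) ⊓ LinearMap.ker (mev (x + z.1) g)) :
    LocOnto S b x (fun z => A.L (x + z)) (sdeg b B.deg)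
      (secs S (fun z => B.L (x + z)) ⊓ LinearMap.ker (act S x g)) f z := by
  obtain ⟨r, H, H', hr, hH⟩ := A.alg.exists_homotopy B.alg C.alg f g (fun y hy => (h y hy).1)
    (fun y hy => (h y hy).2) (hS.add_mem hb hx z.2) he
  intro j σ hσ hP
  refine ⟨_, eval_add_mem_fn x r, hr, act S x H σ, fun w => (hH _ (hS.add_mem hb hx w.2)).1 _,
    regV_act x H (regV_of_Amb hσ), funext fun w => ?_⟩
  have := (hH _ (hS.add_mem hb hx w.2)).2.2 _ (hP.1 w)
  rwa [show mev (x + w.1) g (σ w) = 0 from congrFun hP.2 w, map_zero, add_zero] at this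
/-- `IsAlg.exists_sect` -/
lemma locOnto_of_surj {A B : Bun (X.fib S)} (f : Matrix B.ι A.ι R)
    (h : ∀ y ∈ (X.fib S).pts, (A.L y).map (mev y f) ≤ B.L y) {x : Pt} (hx : x ∈ X.pts) {z : S.pts}
    (he : (A.L (x + z.1)).map (mev (x + z.1) f) = B.L (x + z.1)) :
    LocOnto S b x (fun z => A.L (x + z)) (sdeg b B.deg) (secs S fun z => B.L (x + z)) f z := by
  obtain ⟨r, H, hr, hH⟩ := A.alg.exists_sect B.alg f h (hS.add_mem hb hx z.2) he
  intro j σ hσ hP
  exact ⟨_, eval_add_mem_fn x r, hr, act S x H σ, fun w => (hH _ (hS.add_mem hb hx w.2)).1 _,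
    regV_act x H (regV_of_Amb hσ), funext fun w => (hH _ (hS.add_mem hb hx w.2)).2 _ (hP w)⟩
/-- for one `x` (`GSub.le_of_local`) -/
lemma gam_onto_at {E : Bun (X.fib S)} {c : κ → D} {f : Matrix κ E.ι R} (hf : MHmg E.deg c f)
    {x : Pt} (hx : x ∈ X.pts) {P : Submodule ℂ (S.pts → κ → ℂ)}
    (hP : ∀ r ∈ S.fn, ∀ σ ∈ P, r • σ ∈ P)
    (hl : ∀ z, LocOnto S b x (fun z => E.L (x + z)) (sdeg b c) P f z) :
    ∃ j₀ : ℤ, ∀ j ≥ j₀, Amb S b (sdeg b c) j ⊓ P ≤ (gam E b j x).map (act S x f) :=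
  (gsub_Amb.inf_const P hP).le_of_local hS (gsub_gam_map hS hb hf hx) fun j σ hσ z => by
    obtain ⟨r, hr, h0, τ, h1, h2, h3⟩ := hl z j σ hσ.1 hσ.2
    exact ⟨r, hr, h0, h3 ▸ act_mem_iSup hS hb f hx h1 h2⟩
lemma exists_cog (E : Bun (X.fib S)) : ∃ (n : ℕ) (e : Fin n → D) (Φ : Matrix (Fin n) E.ι R),
    (∀ i, e i ∈ DS (X.fib S).B) ∧ MHmg E.deg e Φ ∧
      ∀ x ∈ X.pts, LinearMap.ker (act S x Φ) = secs S fun z => E.L (x + z) := by
  obtain ⟨n, e, Φ, he, hΦ, h⟩ := E.alg.cogen.exists_hmg E.eqv E.hdeg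
  refine ⟨n, e, Φ, he, hΦ, fun x hx => Submodule.ext fun σ => funext_iff.trans
    (forall_congr' fun z => ?_)⟩
  change _ ↔ σ z ∈ E.L (x + z.1)
  rw [← h _ (hS.add_mem hb hx z.2)]
  rfl
/-- stack a cogenerating matrix (`Cogen.exists_hmg`) on `g`; `finEv_ker` -/
lemma finEv_gam_ker (E : Bun (X.fib S)) {c : κ → D} {g : Matrix κ E.ι R} (hg : MHmg E.deg c g) :
    FinEv X fun x j =>
      finrank ℂ (gam E b j x ⊓ LinearMap.ker (act S x g) : Submodule ℂ _) := by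
  obtain ⟨n, e, Φ, -, hΦ, h⟩ := exists_cog hS hb E
  have hΘ : MHmg E.deg (Sum.elim e c) (Matrix.fromRows Φ g) := by
    rintro (j | j) i
    exacts [hΦ j i, hg j i]
  refine (finEv_ker hS hb hΘ).congr (j₀ := 0) fun x hx j _ => ?_
  have : LinearMap.ker (act S x (Matrix.fromRows Φ g)) =
      LinearMap.ker (act S x Φ) ⊓ LinearMap.ker (act S x g) := by
    refine Submodule.ext fun σ => ⟨fun h0 => ⟨funext fun z => funext fun i => ?_,
      funext fun z => funext fun i => ?_⟩, fun h0 => funext fun z => funext ?_⟩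
    · exact congrFun (congrFun h0 z) (Sum.inl i)
    · exact congrFun (congrFun h0 z) (Sum.inr i)
    · rintro (i | i)
      exacts [congrFun (congrFun h0.1 z) i, congrFun (congrFun h0.2 z) i]
  rw [this, h x hx, ← inf_assoc, gam]
lemma finEv_gam (E : Bun (X.fib S)) : FinEv X fun x j => finrank ℂ (gam E b j x) := by
  obtain ⟨n, e, Φ, -, hΦ, h⟩ := exists_cog hS hb E
  exact (finEv_ker hS hb hΦ).congr (j₀ := 0) fun x hx j _ => by rw [h x hx, gam]
/-- rank-nullity -/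
lemma finEv_gam_map (E : Bun (X.fib S)) {c : κ → D} {f : Matrix κ E.ι R} (hf : MHmg E.deg c f) :
    FinEv X fun x j => finrank ℂ ((gam E b j x).map (act S x f)) :=
  ((finEv_gam hS hb E).sub (finEv_gam_ker hS hb E hf)).congr (j₀ := 0) fun x _ j _ => by
    have := finrank_map_add_ker (gam E b j x) (act S x f)
    omega
/-- **uniform exactness** -/
theorem gam_onto {E : Bun (X.fib S)} {c : κ → D} {f : Matrix κ E.ι R} (hf : MHmg E.deg c f)
    {P : Pt → Submodule ℂ (S.pts → κ → ℂ)}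
    (hP : ∀ x ∈ X.pts, ∀ r ∈ S.fn, ∀ σ ∈ P x, r • σ ∈ P x)
    (hm : ∀ x ∈ X.pts, ∀ τ ∈ secs S (fun z => E.L (x + z)), RegV S.fn τ → act S x f τ ∈ P x)
    (hl : ∀ x ∈ X.pts, ∀ z, LocOnto S b x (fun z => E.L (x + z)) (sdeg b c) (P x) f z)
    (hfin : FinEv X fun x j => finrank ℂ (Amb S b (sdeg b c) j ⊓ P x : Submodule ℂ _)) :
    ∃ j₀ : ℤ, ∀ j ≥ j₀, ∀ x ∈ X.pts,
      (gam E b j x).map (act S x f) = Amb S b (sdeg b c) j ⊓ P x :=
  unif_eq (fun _ _ _ => Submodule.finiteDimensional_of_le inf_le_left) (finEv_gam_map hS hb E hf)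
    hfin (fun x hx j => le_inf ((gsub_gam_map hS hb hf hx).le j) (by
      rintro _ ⟨τ, hτ, rfl⟩
      exact hm x hx τ hτ.2 (regV_of_Amb hτ.1)))
    fun x hx => gam_onto_at hS hb hf hx (hP x hx) (hl x hx)
theorem gam_exact {A B C : Bun (X.fib S)} {f : Matrix B.ι A.ι R} {g : Matrix C.ι B.ι R}
    (hf : MHmg A.deg B.deg f) (hg : MHmg B.deg C.deg g)
    (h : ∀ y ∈ (X.fib S).pts, (A.L y).map (mev y f) = B.L y ⊓ LinearMap.ker (mev y g) ∧
      (B.L y).map (mev y g) ≤ C.L y) : ∃ j₀ : ℤ, ∀ j ≥ j₀, ∀ x ∈ X.pts,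
      (gam A b j x).map (act S x f) = gam B b j x ⊓ LinearMap.ker (act S x g) := by
  have := gam_onto hS hb hf
    (P := fun x => secs S (fun z => B.L (x + z)) ⊓ LinearMap.ker (act S x g))
    (fun x _ r _ σ hσ => ⟨smul_mem_secs hσ.1 r, (act_smul x g r σ).trans (by
      rw [show act S x g σ = 0 from hσ.2, smul_zero])⟩)
    (fun x hx τ hτ _ => ⟨fun z => ((h _ (hS.add_mem hb hx z.2)).1.le ⟨_, hτ z, rfl⟩).1,
      funext fun z => ((h _ (hS.add_mem hb hx z.2)).1.le ⟨_, hτ z, rfl⟩).2⟩)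
    (fun x hx z => locOnto_of_exact hS hb f g (fun y hy => ⟨(h y hy).1.le, (h y hy).2⟩) hx
      (h _ (hS.add_mem hb hx z.2)).1)
    ((finEv_gam_ker hS hb B hg).congr (j₀ := 0) fun x _ j _ => by rw [← inf_assoc, gam])
  simpa only [← inf_assoc, gam] using this
theorem gam_surj {A B : Bun (X.fib S)} {f : Matrix B.ι A.ι R} (hf : MHmg A.deg B.deg f)
    (h : ∀ y ∈ (X.fib S).pts, (A.L y).map (mev y f) = B.L y) : ∃ j₀ : ℤ, ∀ j ≥ j₀, ∀ x ∈ X.pts,
      (gam A b j x).map (act S x f) = gam B b j x :=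
  gam_onto hS hb hf (P := fun x => secs S fun z => B.L (x + z))
    (fun _ _ r _ _ hσ => smul_mem_secs hσ r)
    (fun _ hx _ hτ _ z => (h _ (hS.add_mem hb hx z.2)).le ⟨_, hτ z, rfl⟩)
    (fun _ hx z => locOnto_of_surj hS hb f (fun y hy => (h y hy).le) hx
      (h _ (hS.add_mem hb hx z.2))) (finEv_gam hS hb B)
/-- evaluation at a point of `S` is onto (columns of a generating matrix times `l ^ k`) -/
theorem gam_eval_surj (E : Bun (X.fib S)) (p : S.pts) : ∃ j₀ : ℤ, ∀ j ≥ j₀, ∀ x ∈ X.pts,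
    (gam E b j x).map (LinearMap.proj p) = E.L (x + p.1) := by
  obtain ⟨n, e, Φ, -, hΦ, h⟩ := E.alg.gen.exists_hmg E.eqv E.hdeg
  obtain ⟨l, hl, hp⟩ := exists_lin_ne hS {p}
  have hp := hp p (Finset.mem_singleton_self p)
  obtain ⟨N, hN⟩ := (Set.finite_range fun i => -sdeg b e i).bddAbove
  refine ⟨N, fun j hj x hx => le_antisymm ?_ fun v hv => ?_⟩
  · rintro _ ⟨σ, hσ, rfl⟩
    exact hσ.2 p
  obtain ⟨w, rfl⟩ := (h _ (hS.add_mem hb hx p.2)).ge hv
  let σ : S.pts → Fin n → ℂ := fun z i => w i * (l z / l p) ^ (j + sdeg b e i).toNat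
  have hσ : σ ∈ Amb S b (sdeg b e) j := fun i => by
    have h1 := (Fn S b _).smul_mem (w i)
      (pow_mem_Fn ((Fn S b 1).smul_mem (l p)⁻¹ hl) (j + sdeg b e i).toNat)
    have h2 : -sdeg b e i ≤ N := hN ⟨i, rfl⟩
    rw [mul_one, Int.toNat_of_nonneg (by omega)] at h1
    convert h1 using 1
    funext z
    simp [σ, div_eq_inv_mul]
  refine ⟨act S x Φ σ, ⟨act_mem_Amb hS hΦ (zero_of_mem hb hx) hσ, fun z =>
    (h _ (hS.add_mem hb hx z.2)).le ⟨_, rfl⟩⟩, congrArg (mev (x + p.1) Φ) (funext fun i => ?_)⟩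
  simp [σ, hp]
end

/-! ### as bundles on `X` -/

/-- the torus element of `X` on vector valued functions -/
def gS (S : Spc) (d : ι → D) : (S.pts → ι → ℂ) ≃ₗ[ℂ] (S.pts → ι → ℂ) :=
  LinearEquiv.piCongrRight fun _ => gd d
lemma map_gS_Amb (d : ι → D) (a : ι → ℤ) (j : ℤ) :
    (Amb S b a j).map (gS S d).toLinearMap = Amb S b a j :=
  Submodule.eq_of_le_of_finrank_eq (by
    rintro _ ⟨σ, hσ, rfl⟩ i
    exact (Fn S b _).smul_mem (chi (d i)) (hσ i)) (LinearEquiv.finrank_map_eq _ _)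
/-- `⊕ Γ(O(j + a i)) ⊗ O(dpr (deg i))` -/
abbrev AmbG (X S : Spc) (b : ℕ) (deg : ι → D) (j : ℤ) : GV :=
  { V := Amb S b (sdeg b deg) j
    g := (gS S fun i => dpr X.B (deg i)).ofSubmodules _ _ (map_gS_Amb _ _ _) }
lemma AmbG_g (deg : ι → D) (j : ℤ) (σ : (AmbG X S b deg j).V) (z : S.pts) (i : ι) :
    ((AmbG X S b deg j).g σ).1 z i = chi (dpr X.B (deg i)) * σ.1 z i := rfl
lemma in_AmbG (deg : ι → D) (j : ℤ) : (AmbG X S b deg j).In X.B :=
  In.of_inj (W := GV.pi fun i => (GV.triv (Fn S b (j + sdeg b deg i))).shift (dpr X.B (deg i)))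
    (in_pi fun _ => (in_triv _).shift (dpr_mem _ _))
    (f := { toFun := fun σ i => ⟨fun z => σ.1 z i, σ.2 i⟩
            map_add' := fun _ _ => rfl
            map_smul' := fun _ _ => rfl }) (fun _ => rfl) fun _ _ h =>
    Subtype.ext (funext fun z => funext fun i => congrFun (congrArg Subtype.val (congrFun h i)) z)
/-- `Γ_j(E)` inside `AmbG` -/
def gamG (E : Bun (X.fib S)) (b : ℕ) (j : ℤ) (x : Pt) : Submodule ℂ (AmbG X S b E.deg j).V :=
  (gam E b j x).comap (Amb S b (sdeg b E.deg) j).subtype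
lemma mem_gamG {E : Bun (X.fib S)} {j : ℤ} {x : Pt} {σ : (AmbG X S b E.deg j).V} :
    σ ∈ gamG E b j x ↔ ∀ z : S.pts, σ.1 z ∈ E.L (x + z.1) := ⟨fun h => h.2, fun h => ⟨σ.2, h⟩⟩
/-- the class of `Γ_j(E)` -/
def gamK (E : Bun (X.fib S)) (b : ℕ) (j : ℤ) : K X := kc X (AmbG X S b E.deg j) (gamG E b j)

lemma pres_equiv {V W : GV} {L : Pt → Submodule ℂ V.V} {M : Pt → Submodule ℂ W.V} {A : Bun X}
    (h : Pres A V L) (e : V.V ≃ₗ[ℂ] W.V) (he : Deg0 V W e.toLinearMap)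
    (hL : ∀ x ∈ X.pts, (L x).map e.toLinearMap = M x) : Pres A W M := by
  obtain ⟨β, h1, h2⟩ := h
  refine ⟨β.map e, fun i => ((he (β i)).symm.trans ?_), fun x hx => ?_⟩
  · rw [h1, map_smul]; rfl
  · rw [h2 x hx, ← hL x hx, ← Submodule.map_comp]
    congr 1
    ext v i
    simp
/-- a constant isomorphism of ambient spaces does not change the class -/
lemma kc_equiv {V W : GV} {L : Pt → Submodule ℂ V.V} {M : Pt → Submodule ℂ W.V}
    (e : V.V ≃ₗ[ℂ] W.V) (he : Deg0 V W e.toLinearMap)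
    (hL : ∀ x ∈ X.pts, ∀ v, v ∈ L x ↔ e v ∈ M x) : kc X V L = kc X W M := by
  by_cases h : ∃ A : Bun X, Pres A V L
  · obtain ⟨A, h⟩ := h
    rw [← h.kl, ← (pres_equiv h e he (M := M) fun x hx => Submodule.ext fun w => by
      rw [Submodule.mem_map_equiv, hL x hx, LinearEquiv.apply_symm_apply]).kl]
  · have h' : ¬∃ A : Bun X, Pres A W M := fun ⟨A, hA⟩ => h ⟨A, pres_equiv hA e.symm
      (fun w => e.injective ((e.apply_symm_apply _).trans
        ((congrArg W.g (e.apply_symm_apply w)).symm.trans (he (e.symm w)).symm)))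
      fun x hx => Submodule.ext fun v => by
        rw [Submodule.mem_map_equiv, hL x hx, LinearEquiv.symm_symm]⟩
    rw [kc, kc, dif_neg h, dif_neg h']
/-- `ℂ^ι ⊗ Γ(⊕ O(a k)) → Γ(⊕ O(c (i, k)))` -/
def tensG {a : κ → ℤ} {c : ι × κ → ℤ} (h : ∀ p, c p = a p.2) (j : ℤ) :
    TensorProduct ℂ (ι → ℂ) (Amb S b a j) →ₗ[ℂ] Amb S b c j :=
  TensorProduct.lift (LinearMap.mk₂ ℂ (fun v σ => ⟨fun z p => v p.1 * σ.1 z p.2, fun p =>
      h p ▸ (Fn S b _).smul_mem (v p.1) (σ.2 p.2)⟩)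
    (fun _ _ _ => Subtype.ext (funext fun _ => funext fun _ => add_mul _ _ _))
    (fun _ _ _ => Subtype.ext (funext fun _ => funext fun _ => mul_assoc _ _ _))
    (fun _ _ _ => Subtype.ext (funext fun _ => funext fun _ => mul_add _ _ _))
    (fun _ _ _ => Subtype.ext (funext fun _ => funext fun _ => mul_left_comm _ _ _)))
lemma tensG_tmul {a : κ → ℤ} {c : ι × κ → ℤ} (h : ∀ p, c p = a p.2) (j : ℤ) (v : ι → ℂ)
    (σ : Amb S b a j) (z : S.pts) (p : ι × κ) :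
    (tensG h j (v ⊗ₜ σ)).1 z p = v p.1 * σ.1 z p.2 := rfl
lemma deg0_tensG {d : ι → D} {e : κ → D} {c : ι × κ → D} (h : ∀ p, sdeg b c p = sdeg b e p.2)
    (hd : ∀ p, dpr X.B (c p) = d p.1 + dpr X.B (e p.2)) (j : ℤ) :
    Deg0 ((co d).tens (AmbG X S b e j)) (AmbG X S b c j) (tensG h j) := by
  intro t
  induction t using TensorProduct.induction_on with
  | zero => simp
  | add s t hs ht => simp only [map_add, hs, ht]
  | tmul v σ =>
    apply Subtype.ext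
    funext z p
    rw [AmbG_g, tensG_tmul, hd, chi_add]
    refine (tensG_tmul h j (gd d v) ((AmbG X S b e j).g σ) z p).trans ?_
    rw [AmbG_g]
    change chi (d p.1) * v p.1 * _ = _
    ring
/-- the `i`-th slice -/
def sliceG {a : κ → ℤ} {c : ι × κ → ℤ} (h : ∀ p, c p = a p.2) (j : ℤ) (i : ι) :
    Amb S b c j →ₗ[ℂ] Amb S b a j where
  toFun τ := ⟨fun z k => τ.1 z (i, k), fun k => h (i, k) ▸ τ.2 (i, k)⟩
  map_add' _ _ := rfl
  map_smul' _ _ := rfl
lemma tensG_sum {a : κ → ℤ} {c : ι × κ → ℤ} (h : ∀ p, c p = a p.2) (j : ℤ) (v : ι → ι → ℂ)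
    (τ : Amb S b c j) (H : ∀ z (p : ι × κ), ∑ i, v i p.1 * τ.1 z (i, p.2) = τ.1 z p) :
    tensG h j (∑ i, v i ⊗ₜ sliceG h j i τ) = τ := by
  apply Subtype.ext
  funext z p
  rw [map_sum, AddSubmonoidClass.coe_finsetSum, Finset.sum_apply, Finset.sum_apply]
  exact H z p
lemma tensG_inj {a : κ → ℤ} {c : ι × κ → ℤ} (h : ∀ p, c p = a p.2) (j : ℤ) :
    Function.Injective (tensG (S := S) (b := b) h j) := by
  classical
  let r : Amb S b c j →ₗ[ℂ] TensorProduct ℂ (ι → ℂ) (Amb S b a j) :=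
    ∑ i, TensorProduct.mk ℂ (ι → ℂ) _ (Pi.single i 1) ∘ₗ sliceG h j i
  refine Function.LeftInverse.injective (g := r) fun t => ?_
  induction t using TensorProduct.induction_on with
  | zero => simp
  | add s t hs ht => rw [map_add, map_add, hs, ht]
  | tmul v σ =>
    have : ∀ i, sliceG h j i (tensG h j (v ⊗ₜ σ)) = v i • σ := fun _ => rfl
    simp only [r, LinearMap.coe_sum, Finset.sum_apply, LinearMap.comp_apply, this,
      TensorProduct.mk_apply, ← TensorProduct.smul_tmul, ← TensorProduct.sum_tmul]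
    congr 1
    funext k
    simp [Pi.single_apply]

section
variable (hS : Base S b) (hb : b ∉ X.B)
/-- a degree zero matrix on sections -/
def actG {a : ι → D} {c : κ → D} {Φ : Matrix κ ι R} (hΦ : MHmg a c Φ) (j : ℤ) (x : Pt) :
    (AmbG X S b a j).V →ₗ[ℂ] (AmbG X S b c j).V :=
  (act S (restr X.B x) Φ).restrict fun _ h =>
    act_mem_Amb hS hΦ (fun v hv => by simp [restr, hv, hb]) h
lemma actG_val {a : ι → D} {c : κ → D} {Φ : Matrix κ ι R} (hΦ : MHmg a c Φ) (j : ℤ) {x : Pt}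
    (hx : x ∈ X.pts) (σ : (AmbG X S b a j).V) :
    (actG hS hb hΦ j x σ).1 = act S x Φ σ.1 := by
  change act S (restr X.B x) Φ σ.1 = _
  rw [X.restr_eq hx]
lemma isRM_actG {a : ι → D} {c : κ → D} (ha : ∀ i, a i ∈ DS (X.fib S).B)
    (hc : ∀ i, c i ∈ DS (X.fib S).B) {Φ : Matrix κ ι R} (hΦ : MHmg a c Φ) (j : ℤ) :
    IsRM X (AmbG X S b a j) (AmbG X S b c j) (actG hS hb hΦ j) := by
  refine IsRM.mk' (fun σ => regV_of_eval _ fun z => regV_pi.2 fun k => ?_) fun x hx σ =>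
    Subtype.ext (funext fun z => ?_)
  · have : (fun x : X.pts => (actG hS hb hΦ j x.1 σ).1 z k) =
        fun x => ∑ i, eval (z.1 + x.1) (Φ k i) * σ.1 z i := funext fun x => by
      rw [actG_val hS hb hΦ j x.2, act_apply, mev_apply, add_comm]
    rw [this]
    exact fsum_mem _ fun i _ => fmul_mem (eval_add_mem_fn z.1 _) (const_mem _)
  · rw [actG_val hS hb hΦ j (X.inv x hx)]
    refine (mev_gpt_add hS hb ha hc hΦ hx z.2 (σ.1 z)).trans (funext fun k => ?_)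
    rw [AmbG_g, actG_val hS hb hΦ j hx]
    rfl
lemma map_actG {E : Bun (X.fib S)} {c : κ → D} {Φ : Matrix κ E.ι R} (hΦ : MHmg E.deg c Φ) (j : ℤ)
    {x : Pt} (hx : x ∈ X.pts) : (gamG E b j x).map (actG hS hb hΦ j x) =
      ((gam E b j x).map (act S x Φ)).comap (Amb S b (sdeg b c) j).subtype :=
  Submodule.ext fun _ => ⟨fun ⟨σ, hσ, e⟩ => ⟨σ.1, hσ, (actG_val hS hb hΦ j hx σ).symm.trans
    (congrArg Subtype.val e)⟩, fun ⟨σ, hσ, e⟩ =>
      ⟨⟨σ, hσ.1⟩, hσ, Subtype.ext ((actG_val hS hb hΦ j hx _).trans e)⟩⟩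
lemma ker_actG {a : ι → D} {c : κ → D} {Φ : Matrix κ ι R} (hΦ : MHmg a c Φ) (j : ℤ)
    {x : Pt} (hx : x ∈ X.pts) : LinearMap.ker (actG hS hb hΦ j x) =
      (LinearMap.ker (act S x Φ)).comap (Amb S b (sdeg b a) j).subtype :=
  Submodule.ext fun σ => Subtype.ext_iff.trans (by rw [actG_val hS hb hΦ j hx]; rfl)
include hS hb
lemma eqv_gamG (E : Bun (X.fib S)) (j : ℤ) : Eqv X (AmbG X S b E.deg j) (gamG E b j) :=
  Eqv.of_mem_iff fun _ hx σ => mem_gamG.trans ((forall_congr' fun z =>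
    (fibre_gpt hS hb E hx z.2 (σ.1 z)).symm).trans mem_gamG.symm)
lemma cogA_gamG (E : Bun (X.fib S)) (j : ℤ) : CogA X (gamG E b j) := by
  obtain ⟨n, e, Φ, he, hΦ, h⟩ := exists_cog hS hb E
  refine (cogA_ker (isRM_actG hS hb E.hdeg he hΦ j).reg).congr fun x hx => ?_
  rw [ker_actG hS hb hΦ j hx, h x hx]
  exact Submodule.ext fun σ => mem_gamG.symm
/-- kernel of a cogenerating matrix, image of a generating matrix (`gam_surj`) -/
theorem isAB_gamG (E : Bun (X.fib S)) :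
    ∃ j₀ : ℤ, ∀ j ≥ j₀, IsAB X (AmbG X S b E.deg j) (gamG E b j) := by
  obtain ⟨n, e, Φ, he, hΦ, h⟩ := E.alg.gen.exists_hmg E.eqv E.hdeg
  obtain ⟨j₀, hj₀⟩ := gam_surj hS hb (A := Bun.triv (X.fib S) e he) (B := E) hΦ fun y hy =>
    (Submodule.map_top _).trans (h y hy)
  refine ⟨j₀, fun j hj => IsAB.of_gen_cog (in_AmbG _ _) (eqv_gamG hS hb E j)
    (((IsAB.top (in_AmbG (S := S) (b := b) e j)).gen.map
      (isRM_actG hS hb he E.hdeg hΦ j).reg).congr fun x hx => ?_) (cogA_gamG hS hb E j)⟩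
  have := map_actG hS hb (E := Bun.triv (X.fib S) e he) hΦ j hx
  rw [hj₀ j hj x hx, show gamG (Bun.triv (X.fib S) e he) b j x = ⊤ from
    eq_top_iff.2 fun _ _ => mem_gamG.2 fun _ => trivial] at this
  exact this
theorem gamK_ses {A B C : Bun (X.fib S)} (h : Bun.SES A B C) :
    ∃ j₀ : ℤ, ∀ j ≥ j₀, gamK B b j = gamK A b j + gamK C b j := by
  obtain ⟨f, g, hf, hg, h⟩ := h
  obtain ⟨j₁, h₁⟩ := isAB_gamG hS hb A
  obtain ⟨j₂, h₂⟩ := isAB_gamG hS hb B
  obtain ⟨j₃, h₃⟩ := isAB_gamG hS hb C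
  obtain ⟨j₄, h₄⟩ := gam_exact hS hb hf hg fun y hy => ⟨(h y hy).2.1, (h y hy).2.2.le⟩
  obtain ⟨j₅, h₅⟩ := gam_surj hS hb hg fun y hy => (h y hy).2.2
  refine ⟨max (max (max j₁ j₂) j₃) (max j₄ j₅), fun j hj => kc_ses (h₁ j (by omega))
    (h₂ j (by omega)) (h₃ j (by omega)) (isRM_actG hS hb A.hdeg B.hdeg hf j)
    (isRM_actG hS hb B.hdeg C.hdeg hg j) fun x hx => ⟨eq_bot_iff.2 fun σ hσ => ?_, ?_, ?_⟩⟩
  · rw [ker_actG hS hb hf j hx] at hσ
    exact Subtype.ext (funext fun z => (h _ (hS.add_mem hb hx z.2)).1.le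
      ⟨mem_gamG.1 hσ.1 z, congrFun hσ.2 z⟩)
  · rw [map_actG hS hb hf j hx, h₄ j (by omega) x hx, ker_actG hS hb hg j hx, Submodule.comap_inf,
      gamG]
  · rw [map_actG hS hb hg j hx, h₅ j (by omega) x hx, gamG]
theorem gamK_twist (E : Bun (X.fib S)) (j k : ℤ) :
    gamK (E.twist (k • eB b) (hS.eB_mem k)) b j = gamK E b (j + k) := by
  have h1 : sdeg b (E.twist (k • eB b) (hS.eB_mem k)).deg = fun i => sdeg b E.deg i + k :=
    funext fun i => by simp [sdeg, Bun.twist, eB]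
  have h2 : ∀ i, dpr X.B ((E.twist (k • eB b) (hS.eB_mem k)).deg i) = dpr X.B (E.deg i) := by
    intro i
    rw [hS.dpr_eq hb (Bun.hdeg _ i), hS.dpr_eq hb (E.hdeg i)]
    have := congrFun h1 i
    rw [sdeg] at this
    rw [this, add_smul]
    exact add_sub_add_right_eq_sub _ _ _
  have h3 : Amb S b (sdeg b (E.twist (k • eB b) (hS.eB_mem k)).deg) j =
      Amb S b (sdeg b E.deg) (j + k) := (congrArg (Amb S b · j) h1).trans (Amb_shift _ j k)
  refine kc_equiv (V := AmbG X S b (E.twist (k • eB b) (hS.eB_mem k)).deg j)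
    (W := AmbG X S b E.deg (j + k)) (LinearEquiv.ofEq _ _ h3) (fun σ => Subtype.ext ?_)
    fun x _ σ => mem_gamG.trans (Iff.trans ?_ mem_gamG.symm)
  · exact funext fun z => funext fun i => congrArg (chi · * σ.1 z i) (h2 i)
  · rfl
theorem gamK_tens (A : Bun X) (E : Bun (X.fib S)) {j : ℤ}
    (h : IsAB X (AmbG X S b E.deg j) (gamG E b j)) :
    gamK ((A.pull (Spc.fib_fst X S)).tens E) b j = A.kl * gamK E b j := by
  let F := (A.pull (Spc.fib_fst X S)).tens E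
  have hc : ∀ p : A.ι × E.ι, sdeg b F.deg p = sdeg b E.deg p.2 := fun p => by
    change A.deg p.1 (some b) + E.deg p.2 (some b) = E.deg p.2 (some b)
    rw [A.hdeg p.1 b hb, zero_add]
  have hd : Deg0 ((co A.deg).tens (AmbG X S b E.deg j)) (AmbG X S b F.deg j) (tensG hc j) :=
    deg0_tensG (c := fun p : A.ι × E.ι => A.deg p.1 + E.deg p.2) hc
      (fun p => by rw [map_add, dpr_of_mem (A.hdeg _)]) j
  have hi : ∀ x ∈ X.pts, Pow.tens (A.L x) (gamG E b j x) ⊓ LinearMap.ker (tensG hc j) = ⊥ :=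
    fun x _ => by rw [LinearMap.ker_eq_bot.2 (tensG_inj hc j), inf_bot_eq]
  have hL : ∀ x ∈ X.pts, ∀ (z : S.pts) (u : A.ι × E.ι → ℂ), u ∈ F.L (x + z.1) ↔
      (∀ k, (fun i => u (i, k)) ∈ A.L x) ∧ ∀ i, (fun k => u (i, k)) ∈ E.L (x + z.1) := by
    intro x hx z u
    refine Bun.mem_tens.trans ?_
    change (∀ k, (fun i => u (i, k)) ∈ A.L (restr X.B (x + z.1))) ∧ _ ↔ _
    rw [(Spc.add_mem_fib (hS.disj hb) hx z.2).2.1]
    rfl
  have he : ∀ x ∈ X.pts, (Pow.tens (A.L x) (gamG E b j x)).map (tensG hc j) = gamG F b j x := by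
    intro x hx
    refine le_antisymm (Submodule.map_le_iff_le_comap.2 (Pow.tens_le.2 fun v hv σ hσ =>
      mem_gamG.2 fun z => (hL x hx z _).2 ⟨fun k => ?_, fun i => ?_⟩)) fun τ hτ => ?_
    · convert (A.L x).smul_mem (σ.1 z k) hv using 1
      exact funext fun i => mul_comm _ _
    · exact (E.L _).smul_mem (v i) (mem_gamG.1 hσ z)
    · obtain ⟨P, hP, hP'⟩ := B0.exists_projM (A.L x)
      refine ⟨∑ i, (fun a => P a i) ⊗ₜ sliceG hc j i τ, sum_mem fun i _ => Pow.tmul_mem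
        (B0.col_mem hP i) (mem_gamG.2 fun z => ((hL x hx z _).1 (mem_gamG.1 hτ z)).2 i),
        tensG_sum hc j (fun i a => P a i) τ fun z p =>
          congrFun (hP' _ (((hL x hx z _).1 (mem_gamG.1 hτ z)).1 p.2)) p.1⟩
  have hT := A.isAB.tens h
  rw [A.kl_eq_kc, gamK, gamK, ← kc_tens A.isAB h]
  exact (kc_iso hT ((hT.map_of_inj (in_AmbG _ _) (IsRM.const hd) hi).congr he) (IsRM.const hd)
    fun x hx => ⟨hi x hx, he x hx⟩).symm
theorem gamK_pull (q : Proj Y X) (hY : b ∉ Y.B) (E : Bun (X.fib S)) {j : ℤ}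
    (h : IsAB X (AmbG X S b E.deg j) (gamG E b j)) :
    gamK (E.pull (q.fib_map S)) b j = K.pull q (gamK E b j) := by
  rw [gamK, gamK, kc_pull h q]
  have hd : ∀ i, dpr Y.B (E.deg i) = dpr X.B (E.deg i) := fun i =>
    (hS.dpr_eq hY ((E.pull (q.fib_map S)).hdeg i)).trans (hS.dpr_eq hb (E.hdeg i)).symm
  refine kc_equiv (V := AmbG Y S b E.deg j) (W := AmbG X S b E.deg j)
    (LinearEquiv.refl ℂ (Amb S b (sdeg b E.deg) j)) (fun σ => Subtype.ext (funext fun z =>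
      funext fun i => congrArg (chi · * σ.1 z i) (hd i))) fun y hy σ =>
    (mem_gamG (E := E.pull (q.fib_map S))).trans ((forall_congr' fun z => ?_).trans
      (mem_gamG (E := E) (σ := σ)).symm)
  have : restr (X.B ∪ S.B) (y + z.1) = restr X.B y + z.1 := by
    funext u
    by_cases h2 : u.1 ∈ S.B
    · have h3 : y u = 0 := zero_of_mem hY hy u (by simpa [hS.B] using h2)
      simp [restr, h2, h3]
    · have h3 : z.1 u = 0 := by_contra fun h0 => h2 (S.mem_B z.2 h0)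
      simp [restr, h2, h3]
  change σ.1 z ∈ E.L (restr (X.B ∪ S.B) (y + z.1)) ↔ _
  rw [this]
theorem gamK_line (j : ℤ) :
    gamK (Bun.line (X.fib S) 0) b j = (finrank ℂ (Fn S b j) : K X) := by
  have h0 : ∀ i, (Bun.line (X.fib S) 0).deg i = 0 := fun _ => map_zero (dpr (X.fib S).B)
  rw [gamK, kc_equiv (V := AmbG X S b (Bun.line (X.fib S) 0).deg j)
    (W := GV.triv (Amb S b (sdeg b (Bun.line (X.fib S) 0).deg) j))
    (L := gamG (Bun.line (X.fib S) 0) b j) (M := fun _ => ⊤) (LinearEquiv.refl ℂ _)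
    (fun σ => Subtype.ext (funext fun z => funext fun i => (AmbG_g _ j σ z i).trans
      (by rw [h0, map_zero, chi_zero, one_mul]; rfl)))
    fun x _ σ => ⟨fun _ => trivial, fun _ => mem_gamG.2 fun _ => trivial⟩, kc_triv,
    finrank_top, finrank_Amb]
  change ((∑ i : Unit, finrank ℂ (Fn S b (j + (Bun.line (X.fib S) 0).deg i (some b))) : ℕ) :
    K X) = _
  rw [Fintype.sum_unique, h0, Finsupp.zero_apply, add_zero]
end

end Crest.Agent.N265.N
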