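import Crest.Agent.N265.N.Sig
import Crest.Agent.N265.K.AB3

/-!
# Row 265, layer N, task N-KK: syzygies of a subspace of sections; the fibrewise interface

`W` is a space of sections of a torsion free sheaf (`emb : W → M`, `M` the generic
fibre). `TyOK T` and `StepOK T T'` are the fibrewise facts on the types of ideals that the nested
geometry uses.
-/

set_option autoImplicit false
noncomputable section
open MvPolynomial Module TensorProduct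

namespace Crest.Agent.N265.N
open Alg GV Br _root_.Crest.Agent.N265.Pow

/-- ambient data -/
structure AD (Sg : Surf) where
  /-- the block of the surface -/
  b : ℕ
  /-- the regularity bound of the syzygies -/
  e : ℕ
  he : 1 ≤ e
  W : GV
  /-- the weight of `W` -/
  wt : ℤ
  hg : ∀ w, W.g w = chi (wt • eT) • w
  M : Type
  [acg : AddCommGroup M]
  [modC : Module ℂ M]
  [modF : Module Sg.F M]
  [tow : IsScalarTower ℂ Sg.F M]
  emb : W.V →ₗ[ℂ] M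
attribute [instance] AD.acg AD.modC AD.modF AD.tow

namespace AD
variable {Sg : Surf} (α : AD Sg)
/-- the surface -/
abbrev S : Spc := Sg.S α.b
/-- multiplication `w ⊗ f ↦ f • w` -/
def mu (k : ℕ) : (WA Sg α.W k).V →ₗ[ℂ] α.M :=
  TensorProduct.lift (LinearMap.mk₂ ℂ (fun w (f : SA Sg k) => f.1 • α.emb w)
    (fun _ _ _ => by rw [map_add, smul_add]) (fun c w f => by rw [map_smul, smul_comm])
    (fun _ _ _ => add_smul _ _ _) (fun c w f => smul_assoc c f.1 _))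
@[simp] lemma mu_tmul {k : ℕ} (w : α.W.V) (f : SA Sg k) : α.mu k (w ⊗ₜ f) = f.1 • α.emb w := rfl
/-- evaluation of the second factor at `z` -/
def ev (k : ℕ) (z : Pt) : (WA Sg α.W k).V →ₗ[ℂ] α.W.V := evT α.W.V (evP Sg α.b k z)
/-- `A_k · U` -/
def gen (U : Submodule ℂ α.W.V) (k : ℕ) : Submodule ℂ α.M := (tens U ⊤).map (α.mu k)
/-- `ker (U ⊗ A_k → M)` -/
def KK (U : Submodule ℂ α.W.V) (k : ℕ) : Submodule ℂ (WA Sg α.W k).V :=
  tens U ⊤ ⊓ LinearMap.ker (α.mu k)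
/-- `V_z · KK_k` -/
def ZK (U : Submodule ℂ α.W.V) (k : ℕ) (z : Pt) : Submodule ℂ (WA Sg α.W (k + 1)).V :=
  mulS Sg (mP Sg α.b 1 z) (α.KK U k)
/-- `φ` induces a homomorphism from the module generated by `U` to the quotient -/
def HomP (U : Submodule ℂ α.W.V) (φ : α.W.V →ₗ[ℂ] α.W.V) : Prop :=
  ∀ κ ∈ α.KK U (α.e + 1), α.mu _ (LinearMap.rTensor _ φ κ) ∈ α.gen U (α.e + 1)
/-- the socle of the quotient at `z` -/
def soc (U : Submodule ℂ α.W.V) (z : Pt) : Submodule ℂ α.W.V :=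
  ⨅ l : mP Sg α.b 1 z, (α.gen U 1).comap (α.mu 1 ∘ₗ (TensorProduct.mk ℂ _ _).flip l.1)
lemma mem_soc {U : Submodule ℂ α.W.V} {z : Pt} {w : α.W.V} :
    w ∈ α.soc U z ↔ ∀ l ∈ mP Sg α.b 1 z, l.1 • α.emb w ∈ α.gen U 1 := by
  simp only [soc, Submodule.mem_iInf, Subtype.forall]; rfl
/-- `x, y ∈ V_z` are local parameters at `z` -/
def Par (z : α.S.pts) (x y : SA Sg 1) : Prop := x ∈ mP Sg α.b 1 z.1 ∧ y ∈ mP Sg α.b 1 z.1 ∧
  LocGen α.S α.b z (evS Sg α.b 1 x) (evS Sg α.b 1 y)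
/-- the Koszul syzygy `u (y ξ - x η)`, `u` of degree `k` -/
def kos (k : ℕ) (x y : SA Sg 1) (u : SA Sg k) (ξ η : (WA Sg α.W 1).V) : (WA Sg α.W (k + 1 + 1)).V :=
  LinearMap.lTensor _ ((mulA Sg 1 (k + 1)).flip (mulA Sg 1 k y u)) ξ -
    LinearMap.lTensor _ ((mulA Sg 1 (k + 1)).flip (mulA Sg 1 k x u)) η

/-- fibrewise facts on one type `T` of subspaces -/
structure TyOK (T : Submodule ℂ α.W.V → Prop) (r : ℕ) (h : ℕ → ℕ) : Prop where
  rk : ∀ U, T U → finrank ℂ U = r + 1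
  hf : ∀ U, T U → ∀ k, finrank ℂ (α.KK U k) = h k
  gen : ∀ U, T U → ∀ k ≥ α.e, mulS Sg ⊤ (α.KK U k) = α.KK U (k + 1)
  fib : ∀ U, T U → ∀ k ≥ α.e, ∀ z ∈ α.S.pts, finrank ℂ (α.ZK U k z) + r = h (k + 1)
  /-- Kodaira-Spencer is onto `Hom(ker, coker)` -/
  ks : ∀ U, T U → ∀ k ≥ α.e, ∀ z ∈ α.S.pts, ∀ ψ ∈ (α.ZK U k z).dualAnnihilator, ∀ u ∈ U,
    ∃ φ : α.W.V →ₗ[ℂ] α.W.V, α.HomP U φ ∧ ∀ κ ∈ α.KK U (k + 1),
      α.ev (k + 1) z κ = 0 → ∃ θ ∈ tens U ⊤, α.mu _ θ = α.mu _ (LinearMap.rTensor _ φ κ) ∧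
        α.ev (k + 1) z θ - ψ κ • u ∈ (α.KK U (k + 1)).map (α.ev (k + 1) z)
  /-- `Soc → Tor₁` is injective -/
  soc_inj : ∀ U, T U → ∀ k ≥ α.e, ∀ (z : α.S.pts) (x y : SA Sg 1), α.Par z x y →
    ∀ u : SA Sg k, u ∉ mP Sg α.b k z.1 → ∀ w ∈ α.soc U z.1, ∀ ξ ∈ tens U ⊤, ∀ η ∈ tens U ⊤,
      α.mu 1 ξ = x.1 • α.emb w → α.mu 1 η = y.1 • α.emb w →
      α.kos k x y u ξ η ∈ α.ZK U (k + 1) z.1 → w ∈ U
  /-- `Soc → Tor₁` is onto -/
  soc_surj : ∀ U, T U → ∀ k ≥ α.e, ∀ (z : α.S.pts) (x y : SA Sg 1), α.Par z x y →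
    ∀ u : SA Sg k, u ∉ mP Sg α.b k z.1 → ∀ κ ∈ α.KK U (k + 1 + 1), α.ev _ z.1 κ = 0 →
      ∃ w ∈ α.soc U z.1, ∃ ξ ∈ tens U ⊤, ∃ η ∈ tens U ⊤,
        α.mu 1 ξ = x.1 • α.emb w ∧ α.mu 1 η = y.1 • α.emb w ∧
        α.kos k x y u ξ η - κ ∈ α.ZK U (k + 1) z.1

/-- `U'` is an elementary modification of `U` at `z` -/
def Mod (U U' : Submodule ℂ α.W.V) (z : Pt) : Prop :=
  U' ≤ U ∧ finrank ℂ U = finrank ℂ U' + 1 ∧ ∀ k, (α.KK U k).map (α.ev k z) ≤ U'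

/-- fibrewise facts on the step from type `T` (colength `n`) to type `T'` (colength `n + 1`) -/
structure StepOK (T T' : Submodule ℂ α.W.V → Prop) (r : ℕ) (h h' : ℕ → ℕ) : Prop where
  ty : α.TyOK T (r + 1) h
  ty' : α.TyOK T' r h'
  hh : ∀ k, h k + 1 = h' k + finrank ℂ (SA Sg k)
  down : ∀ U U', T U → ∀ z ∈ α.S.pts, α.Mod U U' z → T' U'
  up : ∀ U', T' U' → ∀ z ∈ α.S.pts, ∀ w ∈ α.soc U' z, w ∉ U' → T (U' ⊔ Submodule.span ℂ {w})

variable {α}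
variable {U U' : Submodule ℂ α.W.V} {T T' : Submodule ℂ α.W.V → Prop} {r : ℕ} {h h' : ℕ → ℕ}
namespace KKh
section lin
variable {M A A' : Type} [AddCommGroup M] [Module ℂ M] [AddCommGroup A] [Module ℂ A]
  [AddCommGroup A'] [Module ℂ A'] {P : Submodule ℂ M}
lemma lT_mem (φ : A →ₗ[ℂ] A') {t : M ⊗[ℂ] A} (ht : t ∈ tens P ⊤) :
    LinearMap.lTensor M φ t ∈ tens P ⊤ :=
  tmap_mem (φ := LinearMap.id) (ψ := φ) (fun _ h => h) (fun _ _ => Submodule.mem_top) ht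
lemma evT_mem (e : A →ₗ[ℂ] ℂ) {t : M ⊗[ℂ] A} (ht : t ∈ tens P ⊤) : evT M e t ∈ P :=
  (tens_le (N := P.comap (evT M e))).2 (fun w hw f _ => by
    rw [Submodule.mem_comap, evT_tmul]; exact P.smul_mem _ hw) ht
lemma sub_evT_mem {e : A →ₗ[ℂ] ℂ} {u : A} (hu : e u = 1) {t : M ⊗[ℂ] A} (ht : t ∈ tens P ⊤) :
    t - evT M e t ⊗ₜ[ℂ] u ∈ tens P (LinearMap.ker e) := by
  refine (tens_le (N := (tens P (LinearMap.ker e)).comap
    (LinearMap.id - (TensorProduct.mk ℂ M A).flip u ∘ₗ evT M e))).2 (fun m hm a _ => ?_) ht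
  have : m ⊗ₜ[ℂ] a - (e a • m) ⊗ₜ[ℂ] u = m ⊗ₜ[ℂ] (a - e a • u) := by
    rw [tmul_sub, smul_tmul]
  change m ⊗ₜ[ℂ] a - evT M e (m ⊗ₜ[ℂ] a) ⊗ₜ[ℂ] u ∈ tens P (LinearMap.ker e)
  rw [evT_tmul, this]
  exact tmul_mem hm (by simp [hu])
lemma exists_dec {w : M} {t : M ⊗[ℂ] A} (ht : t ∈ tens (P ⊔ Submodule.span ℂ {w}) ⊤) :
    ∃ θ ∈ tens P (⊤ : Submodule ℂ A), ∃ f : A, t = θ + w ⊗ₜ[ℂ] f := by
  have : tens (Submodule.span ℂ {w}) (⊤ : Submodule ℂ A) ≤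
      LinearMap.range (TensorProduct.mk ℂ M A w) := tens_le.2 fun v hv a _ => by
    obtain ⟨c, rfl⟩ := Submodule.mem_span_singleton.1 hv
    exact ⟨c • a, (smul_tmul c w a).symm⟩
  rw [tens_sup_left] at ht
  obtain ⟨θ, hθ, _, h', rfl⟩ := Submodule.mem_sup.1 ht
  obtain ⟨f, rfl⟩ := this h'
  exact ⟨θ, hθ, f, rfl⟩
end lin
lemma muW_eq {M : Type} [AddCommGroup M] [Module ℂ M] (k : ℕ) (l : SA Sg 1) (κ : M ⊗[ℂ] SA Sg k) :
    muW Sg M k (l ⊗ₜ κ) = LinearMap.lTensor M (mulA Sg 1 k l) κ := by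
  induction κ using TensorProduct.induction_on with
  | zero => simp
  | add a c ha hc => simp only [tmul_add, map_add, ha, hc]
  | tmul w f => rw [Sg1.muW_tmul, LinearMap.lTensor_tmul]
lemma mu_lT {m n : ℕ} (φ : SA Sg m →ₗ[ℂ] SA Sg n) (g : Sg.F) (hφ : ∀ f, (φ f).1 = g * f.1)
    (t : (WA Sg α.W m).V) : α.mu n (LinearMap.lTensor _ φ t) = g • α.mu m t := by
  induction t using TensorProduct.induction_on with
  | zero => simp
  | add a c ha hc => simp only [map_add, ha, hc, smul_add]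
  | tmul w f => rw [LinearMap.lTensor_tmul, mu_tmul, mu_tmul, hφ, mul_smul]
lemma lT_KK {m n : ℕ} (φ : SA Sg m →ₗ[ℂ] SA Sg n) (g : Sg.F) (hφ : ∀ f, (φ f).1 = g * f.1)
    {t : (WA Sg α.W m).V} (ht : t ∈ α.KK U m) : LinearMap.lTensor _ φ t ∈ α.KK U n :=
  ⟨lT_mem φ ht.1, by rw [SetLike.mem_coe, LinearMap.mem_ker, mu_lT φ g hφ, ht.2, smul_zero]⟩
lemma smul_gen {m n : ℕ} (g : SA Sg n) {v : α.M} (hv : v ∈ α.gen U m) :
    g.1 • v ∈ α.gen U (n + m) := by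
  obtain ⟨t, ht, rfl⟩ := hv
  exact ⟨_, lT_mem ((mulA Sg m n).flip g) ht, mu_lT _ _ (fun f => mul_comm _ _) t⟩
lemma inf_tens (hle : U' ≤ U) (k : ℕ) : α.KK U k ⊓ tens U' ⊤ = α.KK U' k :=
  le_antisymm (fun _ h => ⟨h.2, h.1.2⟩) fun _ h => ⟨⟨tens_mono hle le_rfl h.1, h.2⟩, h.1⟩
lemma stab_smul {V : GV} {c : ℂ} (h : ∀ v, V.g v = c • v) (N : Submodule ℂ V.V) : V.Stab N :=
  stab_of_le fun v hv => (h v).symm ▸ N.smul_mem c hv
lemma isVar_tens {Y M A : Type} {𝒜 : Subalgebra ℂ (Y → ℂ)} {x₀ : Y} {δ : (Y → ℂ) →ₗ[ℂ] ℂ}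
    [AddCommGroup M] [Module ℂ M] [FiniteDimensional ℂ M] [AddCommGroup A] [Module ℂ A]
    [FiniteDimensional ℂ A] {L : Y → Submodule ℂ M} {φ : M →ₗ[ℂ] M} (h : PDer 𝒜 x₀ δ)
    (hL : Alg 𝒜 L) (hφ : IsVar 𝒜 x₀ δ L φ) :
    IsVar 𝒜 x₀ δ (fun y => tens (L y) (⊤ : Submodule ℂ A)) (LinearMap.rTensor A φ) := by
  obtain ⟨φ', h'⟩ := h.exists_isVar (hL.tens (Alg.const (⊤ : Submodule ℂ A)))
  refine IsVar.congr h' fun v hv => (tens_le (N := (tens (L x₀) ⊤).comap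
    (φ' - LinearMap.rTensor A φ))).2 (fun w hw f _ => ?_) hv
  obtain ⟨σ, hσ, hm, rfl⟩ := hL.exists_section hw
  have h1 := h' _ (hσ.map ((TensorProduct.mk ℂ M A).flip f)) fun y => tmul_mem (hm y) trivial
  have h2 : (dV δ σ - φ (σ x₀)) ⊗ₜ[ℂ] f ∈ tens (L x₀) ⊤ := tmul_mem (hφ σ hσ hm) trivial
  rw [dV_lin] at h1
  have h3 := Submodule.sub_mem _ h2 h1
  rw [sub_tmul] at h3
  change _ - (dV δ σ ⊗ₜ[ℂ] f - φ' (σ x₀ ⊗ₜ[ℂ] f)) ∈ _ at h3
  rw [sub_sub_sub_cancel_left] at h3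
  exact h3
end KKh
open KKh
lemma mu_muW (k : ℕ) (l : SA Sg 1) (κ : (WA Sg α.W k).V) :
    α.mu (k + 1) (muW Sg _ k (l ⊗ₜ κ)) = l.1 • α.mu k κ := by
  rw [muW_eq]; exact mu_lT _ _ (fun _ => rfl) κ
lemma ev_muW (k : ℕ) {z : Pt} (hz : z ∈ α.S.pts) (l : SA Sg 1) (κ : (WA Sg α.W k).V) :
    α.ev (k + 1) z (muW Sg _ k (l ⊗ₜ κ)) = evP Sg α.b 1 z l • α.ev k z κ := by
  induction κ using TensorProduct.induction_on with
  | zero => simp
  | add a c ha hc => simp only [tmul_add, map_add, ha, hc, smul_add]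
  | tmul w f =>
    rw [Sg1.muW_tmul, ev, ev, evT_tmul, evT_tmul, smul_smul, evP_apply Sg _ _ ⟨z, hz⟩,
      evP_apply Sg _ _ ⟨z, hz⟩, evP_apply Sg _ _ ⟨z, hz⟩, evS_mulA, Pi.mul_apply]
lemma mulS_KK_le (U : Submodule ℂ α.W.V) (k : ℕ) (P : Submodule ℂ (SA Sg 1)) :
    mulS Sg P (α.KK U k) ≤ α.KK U (k + 1) :=   Submodule.map_le_iff_le_comap.2 (tens_le.2 fun l _ κ hκ => by
    rw [Submodule.mem_comap, muW_eq]; exact lT_KK _ l.1 (fun _ => rfl) hκ)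
lemma ZK_le (U : Submodule ℂ α.W.V) (k : ℕ) (z : Pt) : α.ZK U k z ≤ α.KK U (k + 1) :=
  mulS_KK_le U k _
lemma ZK_le_ker (U : Submodule ℂ α.W.V) (k : ℕ) {z : Pt} (hz : z ∈ α.S.pts) :
    α.ZK U k z ≤ LinearMap.ker (α.ev (k + 1) z) :=   Submodule.map_le_iff_le_comap.2 (tens_le.2 fun l hl κ _ => by
    rw [Submodule.mem_comap, LinearMap.mem_ker, ev_muW k hz, LinearMap.mem_ker.1 hl, zero_smul])
lemma KK_mono (h : U' ≤ U) (k : ℕ) : α.KK U' k ≤ α.KK U k :=   inf_le_inf_right _ (tens_mono h le_rfl)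
lemma ZK_mono (h : U' ≤ U) (k : ℕ) (z : Pt) : α.ZK U' k z ≤ α.ZK U k z :=   Sg1.mulS_mono le_rfl (KK_mono h k)
lemma map_ev_le (U : Submodule ℂ α.W.V) (k : ℕ) (z : Pt) : (α.KK U k).map (α.ev k z) ≤ U :=   Submodule.map_le_iff_le_comap.2 fun _ h => evT_mem _ h.1
/-- multiply by a form that does not vanish at `z` -/
lemma map_ev_mono (U : Submodule ℂ α.W.V) {j k : ℕ} (h : j ≤ k) {z : Pt} (hz : z ∈ α.S.pts) :
    (α.KK U j).map (α.ev j z) ≤ (α.KK U k).map (α.ev k z) := by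
  induction h with
  | refl => exact le_rfl
  | @step k _ ih =>
    refine ih.trans ?_
    rintro _ ⟨κ, hκ, rfl⟩
    obtain ⟨l, hl⟩ := evP_surj Sg α.b 1 hz 1
    exact ⟨_, mulS_KK_le U k ⊤ ⟨_, tmul_mem (v := l) trivial hκ, rfl⟩,
      by rw [ev_muW k hz, hl, one_smul]⟩
lemma TyOK.map_ev_le (H : α.TyOK T r h) (hU : T U) (j : ℕ) {k : ℕ} (hk : α.e ≤ k) {z : Pt}
    (hz : z ∈ α.S.pts) : (α.KK U j).map (α.ev j z) ≤ (α.KK U k).map (α.ev k z) := by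
  rcases le_total j k with h1 | h1
  · exact map_ev_mono U h1 hz
  induction h1 with
  | refl => exact le_rfl
  | @step j hj ih =>
    refine le_trans ?_ ih
    rw [← H.gen U hU j (hk.trans hj), mulS, ← Submodule.map_comp, Submodule.map_le_iff_le_comap]
    refine tens_le.2 fun l _ κ hκ => ?_
    rw [Submodule.mem_comap, LinearMap.comp_apply, ev_muW j hz]
    exact Submodule.smul_mem _ _ ⟨κ, hκ, rfl⟩
lemma finrank_gen (U : Submodule ℂ α.W.V) (k : ℕ) : finrank ℂ (α.gen U k) + finrank ℂ (α.KK U k) =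
    finrank ℂ U * finrank ℂ (SA Sg k) := by
  rw [← finrank_top ℂ (SA Sg k), ← finrank_tens]
  exact Alg.finrank_map_add_inf_ker _ _
/-- `KK U / KK U' = (U / U') ⊗ 𝔪_z` by a dimension count -/
lemma StepOK.sup (H : α.StepOK T T' r h h') (hU : T U) {z : Pt} (hz : z ∈ α.S.pts)
    (hm : α.Mod U U' z) (k : ℕ) :
    α.KK U k ⊔ tens U' ⊤ = tens U (mP Sg α.b k z) ⊔ tens U' ⊤ := by
  refine Submodule.eq_of_le_of_finrank_le (sup_le (fun κ hκ => ?_) le_sup_right) ?_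
  · obtain ⟨u, hu⟩ := evP_surj Sg α.b k hz 1
    rw [← sub_add_cancel κ (α.ev k z κ ⊗ₜ[ℂ] u)]
    exact Submodule.add_mem_sup (sub_evT_mem hu hκ.1)
      (tmul_mem (hm.2.2 k ⟨κ, hκ, rfl⟩) trivial)
  · obtain ⟨w, hw, h0⟩ := SetLike.exists_of_lt (p := U') (q := U)
      (lt_of_le_of_ne hm.1 fun e => by have := hm.2.1; rw [e] at this; omega)
    have e : U' ⊔ Submodule.span ℂ {w} = U :=
      Submodule.eq_of_le_of_finrank_eq (sup_le hm.1 ((Submodule.span_singleton_le_iff_mem _ _).2 hw))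
        ((Submodule.finrank_sup_span_singleton h0).trans hm.2.1.symm)
    have h1 : tens U (mP Sg α.b k z) ⊔ tens U' ⊤ ≤
        tens (Submodule.span ℂ {w}) (mP Sg α.b k z) ⊔ tens U' ⊤ := by
      rw [← e, tens_sup_left]
      exact sup_le (sup_le ((tens_mono le_rfl le_top).trans le_sup_right) le_sup_left) le_sup_right
    have h2 := (Submodule.finrank_mono h1).trans (Submodule.finrank_add_le_finrank_add_finrank _ _)
    have h3 := Submodule.finrank_sup_add_finrank_inf_eq (α.KK U k) (tens U' ⊤)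
    rw [inf_tens hm.1, H.ty.hf U hU, H.ty'.hf U' (H.down _ _ hU z hz hm)] at h3
    rw [finrank_tens (Submodule.span ℂ {w}), finrank_span_singleton (v := w)
      (fun e => h0 (e ▸ zero_mem U')), one_mul] at h2
    have key : ∀ a b c d e f g : ℕ, a ≤ b + c → d + e = f + c → b + 1 = g → f + 1 = e + g →
        a ≤ d := by omega
    exact key _ _ _ _ _ _ _ h2 h3 (finrank_mP Sg α.b k hz) (H.hh k)
lemma StepOK.le_soc (H : α.StepOK T T' r h h') (hU : T U) {z : Pt} (hz : z ∈ α.S.pts)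
    (hm : α.Mod U U' z) : U ≤ α.soc U' z := fun w hw => α.mem_soc.2 fun l hl => by
  obtain ⟨κ, hκ, θ, hθ, e⟩ := Submodule.mem_sup.1
    ((H.sup hU hz hm 1).ge (Submodule.mem_sup_left (tmul_mem hw hl)))
  exact ⟨θ, hθ, by rw [← α.mu_tmul, ← e, map_add, LinearMap.mem_ker.1 hκ.2, zero_add]⟩
/-- if `w ⊗ f + κ'` is a syzygy with `f z ≠ 0` then `A_k w ≤ A_k U'`, against `hh` -/
lemma StepOK.mod_up (H : α.StepOK T T' r h h') (hU : T' U') {z : Pt} (hz : z ∈ α.S.pts)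
    {w : α.W.V} (hw : w ∈ α.soc U' z) (h0 : w ∉ U') :
    α.Mod (U' ⊔ Submodule.span ℂ {w}) U' z := by
  have hT := H.up U' hU z hz w hw h0
  refine ⟨le_sup_left, Submodule.finrank_sup_span_singleton h0, fun k => ?_⟩
  rintro _ ⟨κ, hκ, rfl⟩
  obtain ⟨θ, hθ, f, rfl⟩ := exists_dec hκ.1
  rw [map_add]
  refine add_mem (evT_mem _ hθ) ?_
  rw [ev, evT_tmul]
  by_cases hf : evP Sg α.b k z f = 0
  · rw [hf, zero_smul]; exact zero_mem _
  exfalso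
  let F : Submodule ℂ (SA Sg k) :=
    (α.gen U' k).comap (α.mu k ∘ₗ TensorProduct.mk ℂ α.W.V (SA Sg k) w)
  have hF : ∀ g, g ∈ F ↔ g.1 • α.emb w ∈ α.gen U' k := fun _ => Iff.rfl
  have h1 : f ∈ F := by
    have := LinearMap.mem_ker.1 hκ.2
    rw [map_add, add_comm, add_eq_zero_iff_eq_neg] at this
    exact (hF f).2 (this ▸ neg_mem ⟨θ, hθ, rfl⟩ : α.mu k (w ⊗ₜ f) ∈ _)
  have h2 : mP Sg α.b k z ≤ F := by
    cases k with
    | zero =>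
      intro g hg
      obtain ⟨c, e1, e2⟩ := DL.exists_const (b := α.b) g
      rw [← e2 ⟨z, hz⟩, (mem_mP Sg α.b (z := ⟨z, hz⟩)).1 hg, map_zero] at e1
      rw [hF, e1, zero_smul]; exact zero_mem _
    | succ k =>
      rw [← map_muA_top Sg α.b k hz]
      refine Submodule.map_le_iff_le_comap.2 (tens_le.2 fun l hl g _ => (hF _).2 ?_)
      rw [muA_tmul, mulA_val, mul_comm, mul_smul]
      exact smul_gen g (α.mem_soc.1 hw l hl)
  have h3 : ∀ g, g ∈ F := fun g => by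
    rw [← sub_add_cancel g ((evP Sg α.b k z g / evP Sg α.b k z f) • f)]
    refine add_mem (h2 (LinearMap.mem_ker.2 ?_)) (F.smul_mem _ h1)
    rw [map_sub, map_smul, smul_eq_mul, div_mul_cancel₀ _ hf, sub_self]
  have h4 : α.gen (U' ⊔ Submodule.span ℂ {w}) k = α.gen U' k := by
    refine le_antisymm ?_ (Submodule.map_mono (tens_mono le_sup_left le_rfl))
    rintro _ ⟨t, ht, rfl⟩
    obtain ⟨θ', hθ', g, rfl⟩ := exists_dec ht
    rw [map_add]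
    exact add_mem ⟨θ', hθ', rfl⟩ (h3 g)
  have h5 := finrank_gen (U' ⊔ Submodule.span ℂ {w}) k
  have h6 := finrank_gen U' k
  rw [h4, H.ty.hf _ hT, Submodule.finrank_sup_span_singleton h0, add_mul, one_mul] at h5
  rw [H.ty'.hf _ hU] at h6
  have h7 := H.hh k
  omega
/-- the socle line of a step, as a subspace of `KK U' (k+1)` containing `ZK U' k` -/
def sl (α : AD Sg) (U U' : Submodule ℂ α.W.V) (k : ℕ) (z : Pt) :
    Submodule ℂ (WA Sg α.W (k + 1)).V := α.ZK U k z ⊓ α.KK U' (k + 1)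
/-- for `w ∈ U`: `w ⊗ x - ξ, w ⊗ y - η ∈ KK U 1` and `kos ξ η = - kos (w ⊗ x - ξ) (w ⊗ y - η)` -/
lemma kos_mem_sl (k : ℕ) {z : α.S.pts} {x y : SA Sg 1} (hp : α.Par z x y) (u : SA Sg k)
    (hle : U' ≤ U) {w : α.W.V} (hw : w ∈ U) {ξ η : (WA Sg α.W 1).V} (hξ : ξ ∈ tens U' ⊤)
    (hη : η ∈ tens U' ⊤) (e₁ : α.mu 1 ξ = x.1 • α.emb w) (e₂ : α.mu 1 η = y.1 • α.emb w) :
    α.kos k x y u ξ η ∈ α.sl U U' (k + 1) z.1 := by
  have key : ∀ {l : SA Sg 1} {t : (WA Sg α.W 1).V}, l ∈ mP Sg α.b 1 z.1 → t ∈ α.KK U 1 →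
      LinearMap.lTensor _ ((mulA Sg 1 (k + 1)).flip (mulA Sg 1 k l u)) t ∈ α.ZK U (k + 1) z.1 := by
    intro l t hl ht
    refine ⟨_, tmul_mem hl (lT_KK ((mulA Sg 1 k).flip u) u.1 (fun _ => mul_comm _ _) ht), ?_⟩
    rw [muW_eq, ← LinearMap.lTensor_comp_apply]
    congr 2
    ext f
    simp only [LinearMap.comp_apply, LinearMap.flip_apply, mulA_val]
    ring
  have hK : ∀ {l : SA Sg 1} {t : (WA Sg α.W 1).V}, t ∈ tens U' ⊤ → α.mu 1 t = l.1 • α.emb w →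
      w ⊗ₜ[ℂ] l - t ∈ α.KK U 1 := fun ht e =>
    ⟨sub_mem (tmul_mem hw trivial) (tens_mono hle le_rfl ht),
      by rw [SetLike.mem_coe, LinearMap.mem_ker, map_sub, e, mu_tmul, sub_self]⟩
  refine ⟨?_, sub_mem (lT_mem _ hξ) (lT_mem _ hη), ?_⟩
  · have e : (mulA Sg 1 (k + 1)).flip (mulA Sg 1 k x u) y =
        (mulA Sg 1 (k + 1)).flip (mulA Sg 1 k y u) x :=
      Subtype.ext (by simp only [LinearMap.flip_apply, mulA_val]; ring)
    have := sub_mem (key hp.1 (hK hη e₂)) (key hp.2.1 (hK hξ e₁))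
    rw [map_sub, map_sub, LinearMap.lTensor_tmul, LinearMap.lTensor_tmul, e,
      sub_sub_sub_cancel_left] at this
    exact this
  · rw [SetLike.mem_coe, LinearMap.mem_ker, kos, map_sub, mu_lT _ (y.1 * u.1) (fun _ => mul_comm _ _),
      mu_lT _ (x.1 * u.1) (fun _ => mul_comm _ _), e₁, e₂, smul_smul, smul_smul, ← sub_smul,
      show y.1 * u.1 * x.1 - x.1 * u.1 * y.1 = 0 by ring, zero_smul]
lemma kos_mem_ZK (k : ℕ) {z : α.S.pts} {x y : SA Sg 1} (hp : α.Par z x y) (u : SA Sg k)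
    {w : α.W.V} (hw : w ∈ U) {ξ η : (WA Sg α.W 1).V} (hξ : ξ ∈ tens U ⊤)
    (hη : η ∈ tens U ⊤) (e₁ : α.mu 1 ξ = x.1 • α.emb w) (e₂ : α.mu 1 η = y.1 • α.emb w) :
    α.kos k x y u ξ η ∈ α.ZK U (k + 1) z.1 := (kos_mem_sl k hp u le_rfl hw hξ hη e₁ e₂).1
lemma exists_par (z : α.S.pts) : ∃ x y, α.Par z x y := by
  obtain ⟨x, hx, y, hy, hx0, hy0, -, hg⟩ :=
    exists_locGen (base_S Sg α.b) (Sg.S_sm α.b) z (d := (1 : ℕ)) (by omega)
  obtain ⟨x, rfl⟩ := exists_evS_eq Sg α.b hx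
  obtain ⟨y, rfl⟩ := exists_evS_eq Sg α.b hy
  exact ⟨x, y, (mem_mP Sg α.b).2 hx0, (mem_mP Sg α.b).2 hy0, hg⟩
lemma exists_unit (k : ℕ) (z : α.S.pts) : ∃ u : SA Sg k, u ∉ mP Sg α.b k z.1 := by
  obtain ⟨u, hu⟩ := evP_surj Sg α.b k z.2 1
  exact ⟨u, fun h => one_ne_zero (hu.symm.trans (LinearMap.mem_ker.1 h))⟩

/-! ### families -/
variable {X : Spc} {L L' : Pt → Submodule ℂ α.W.V}
lemma in_W (α : AD Sg) (B : Finset ℕ) : α.W.In B :=   eq_top_iff.2 fun v _ => Submodule.mem_iSup_of_mem (chi (α.wt • eT))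
    (Submodule.mem_iSup_of_mem ⟨_, zsmul_mem (eT_mem B) _, rfl⟩
      (Module.End.mem_eigenspace_iff.2 (α.hg v)))
lemma in_WA (α : AD Sg) (k : ℕ) (B : Finset ℕ) : (WA Sg α.W k).In B :=
  (α.in_W B).tens (in_triv _)
lemma WA_g (k : ℕ) (κ : (WA Sg α.W k).V) : (WA Sg α.W k).g κ = chi (α.wt • eT) • κ := by
  induction κ using TensorProduct.induction_on with
  | zero => simp
  | add a c ha hc => rw [map_add, ha, hc, smul_add]
  | tmul w f => exact (congrArg (· ⊗ₜ[ℂ] f) (α.hg w)).trans (smul_tmul' _ _ _).symm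
lemma deg0_ev (k : ℕ) (z : Pt) : Deg0 (WA Sg α.W k) α.W (α.ev k z) := fun κ => by
  rw [WA_g, map_smul, α.hg]
/-- the grading is scalar, so equivariant families are invariant -/
lemma eqv_iff : Eqv X α.W L ↔ ∀ x ∈ X.pts, L (gpt x) = L x :=   forall₂_congr fun x _ => by rw [show (L x).map _ = L x from stab_smul α.hg _, eq_comm]
lemma eqv_WA_iff {k : ℕ} {P : Pt → Submodule ℂ (WA Sg α.W k).V} :
    Eqv X (WA Sg α.W k) P ↔ ∀ x ∈ X.pts, P (gpt x) = P x :=   forall₂_congr fun x _ => by rw [show (P x).map _ = P x from stab_smul (WA_g k) _, eq_comm]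
/-- a family of subspaces of type `T` -/
structure Fam (α : AD Sg) (X : Spc) (T : Submodule ℂ α.W.V → Prop) (L : Pt → Submodule ℂ α.W.V) :
    Prop where
  nb : α.b ∉ X.B
  ab : IsAB X α.W L
  ty : ∀ x ∈ X.pts, T (L x)
lemma Fam.pull (H : α.Fam X T L) {Y : Spc} (q : Proj Y X) (hY : α.b ∉ Y.B) :
    α.Fam Y T fun y => L (restr X.B y) := ⟨hY, H.ab.pull q, fun y hy => H.ty _ (q.map y hy)⟩
lemma fam_const (hU : T U) : α.Fam Spc.pt0 T fun _ => U :=   ⟨Finset.notMem_empty _, IsAB.const (α.in_W _) (stab_smul α.hg _), fun _ _ => hU⟩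
theorem Fam.isAB_KK (H : α.Fam X T L) (hT : α.TyOK T r h) (k : ℕ) :
    IsAB X (WA Sg α.W k) fun x => α.KK (L x) k := by
  have h1 := H.ab.tens (IsAB.top (in_triv (SA Sg k)))
  have h2 := IsAB.const (X := X) (α.in_WA k _) (stab_smul (WA_g k) (LinearMap.ker (α.mu k)))
  exact ⟨α.in_WA k _, (h1.cog.inf h2.cog).alg_of_rk fun x hx => hT.hf _ (H.ty x hx) k,
    h1.eqv'.inf h2.eqv'⟩
theorem Fam.syzF (H : α.Fam X T L) (hT : α.TyOK T r h) :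
    SyzF Sg α.b X α.W (fun k x => α.KK (L x) k) α.e r :=   ⟨H.nb, fun k _ => H.isAB_KK hT k, fun k hk x hx => hT.gen _ (H.ty x hx) k hk,
    fun k hk x hx z hz => (hT.fib _ (H.ty x hx) k hk z hz).trans (hT.hf _ (H.ty x hx) _).symm⟩
theorem Fam.step (H : α.Fam X T L) (H' : α.Fam X T' L') (hS : α.StepOK T T' r h h') {z : Pt}
    (hz : z ∈ α.S.pts) (hm : ∀ x ∈ X.pts, α.Mod (L x) (L' x) z) :
    Step Sg α.b X α.W L L' (fun k x => α.KK (L x) k) (fun k x => α.KK (L' x) k) α.e r z :=   ⟨H.ab, H'.ab, fun x hx => (hm x hx).1, fun x hx => (hm x hx).2.1, H.syzF hS.ty, H'.syzF hS.ty',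
    fun k _ x hx => inf_tens (hm x hx).1 k, fun k _ x hx => hS.sup (H.ty x hx) hz (hm x hx) k⟩
theorem Fam.isAB_ZK (H : α.Fam X T L) (hT : α.TyOK T r h) {k : ℕ} (hk : α.e ≤ k) {z : Pt}
    (hz : z ∈ α.S.pts) : IsAB X (WA Sg α.W (k + 1)) fun x => α.ZK (L x) k z :=
  (H.syzF hT).isAB_mulS hk hz
/-- `Step.socle` for the constant family -/
theorem StepOK.finrank_sl (H : α.StepOK T T' r h h') (hU : T U) {z : α.S.pts} (hm : α.Mod U U' z.1)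
    {k : ℕ} (hk : α.e ≤ k) (hd : DltOK Sg α.b k z) :
    finrank ℂ (α.sl U U' k z.1) = finrank ℂ (α.ZK U' k z.1) + 1 :=
  (((fam_const hU).step (fam_const (H.down _ _ hU _ z.2 hm)) H z.2 fun _ _ => hm).socle hk hd).2.1 0
    (by rw [Spc.pt0_pts]; rfl)
/-- the variation of the syzygies (`IsVar.le` against `tens L ⊤`, `IsVar.kill` for `mu`) -/
theorem Fam.var_KK (H : α.Fam X T L) (hT : α.TyOK T r h) {x : X.pts} {ξ : Pt}
    (hξ : ξ ∈ X.Tan x.1) {φ : α.W.V →ₗ[ℂ] α.W.V}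
    (hφ : IsVar X.fn x (X.pd x.1 ξ) (fun y => L y.1) φ) {k : ℕ}
    {a : (WA Sg α.W k).V →ₗ[ℂ] (WA Sg α.W k).V}
    (ha : IsVar X.fn x (X.pd x.1 ξ) (fun y => α.KK (L y.1) k) a) {κ θ : (WA Sg α.W k).V}
    (hκ : κ ∈ α.KK (L x.1) k) (hθ : θ ∈ tens (L x.1) ⊤)
    (e : α.mu k θ = α.mu k (LinearMap.rTensor _ φ κ)) :
    a κ - (LinearMap.rTensor _ φ κ - θ) ∈ α.KK (L x.1) k := by
  have hK := (H.isAB_KK hT k).alg
  have h1 := IsVar.le hK (fun _ => inf_le_left)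
    (isVar_tens (Spc.pder_pd x.2 hξ) H.ab.alg hφ) ha κ hκ
  have h2 := IsVar.le hK (fun _ => inf_le_right) (isVar_const (LinearMap.ker (α.mu k))) ha κ hκ
  rw [LinearMap.zero_apply, zero_sub, neg_mem_iff, LinearMap.mem_ker] at h2
  refine ⟨?_, ?_⟩
  · have := sub_mem hθ h1
    rwa [show θ - (LinearMap.rTensor _ φ κ - a κ) = a κ - (LinearMap.rTensor _ φ κ - θ) by abel]
      at this
  · rw [SetLike.mem_coe, LinearMap.mem_ker, map_sub, map_sub, h2, e, sub_self, sub_self]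
/-- versality -/
def TS (α : AD Sg) (X : Spc) (L : Pt → Submodule ℂ α.W.V) : Prop := ∀ x : X.pts, ∀ φ,
  α.HomP (L x.1) φ → ∃ ξ ∈ X.Tan x.1, IsVar X.fn x (X.pd x.1 ξ) (fun y => L y.1) φ
end AD

end Crest.Agent.N265.N
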