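import Crest.Agent.N265.N.PBb
import Crest.Agent.N265.N.Dim0

/-!
# Row 265, layer N, task N-PBZ: zero loci in projective bundles of subquotients
-/

set_option autoImplicit false
noncomputable section
open MvPolynomial Module

namespace Crest.Agent.N265.N
open Alg GV Bun
variable {X Y : Spc} {V W : GV}
variable {L L' : Pt → Submodule ℂ V.V} {b : ℕ}

lemma dV_coord {x ξ : Pt} (hξ : ξ ∈ X.Tan x) {M : Type} [AddCommGroup M] [Module ℂ M]
    [FiniteDimensional ℂ M] {σ : X.pts → M} (ℓ : Dual ℂ M) {r : R}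
    (h : ∀ y : X.pts, ℓ (σ y) = eval y.1 r) : ℓ (dV (X.pd x ξ) σ) = dAt x ξ r := by
  rw [dV_spec]; exact Spc.pd_of_eq hξ h
/-- the zero locus lemma, basis-free -/
theorem zlA {P Z : Spc} {N r : ℕ} (hP : P.Sm N) {U : GV} {E : Pt → Submodule ℂ U.V}
    (hE : IsAB P U E) (hr : ∀ z ∈ P.pts, finrank ℂ (E z) = r) {s : Pt → U.V} (hs : IsRV P U s)
    (hm : ∀ z ∈ P.pts, s z ∈ E z) (hZ : Z.Sub P) (hz : ∀ z ∈ P.pts, z ∈ Z.pts ↔ s z = 0)
    (ht : ∀ z ∈ Z.pts, ∀ e ∈ E z, ∃ ξ ∈ P.Tan z, dV (P.pd z ξ) (fun y => s y.1) = e) :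
    Z.Sm (N - r) ∧ (Z.pts.Nonempty → r ≤ N) ∧ ∃ A : Bun P, A.kl = kc P U E ∧
      push Z P (one Z) = eu A • one P ∧
      tanK Z = K.pull hZ.proj (tanK P) - K.pull hZ.proj (kc P U E) := by
  obtain ⟨A, β, hA⟩ := hE.exists_pres
  have pA : Pres A U E := ⟨β, hA⟩
  obtain ⟨t, hh, ht'⟩ := hs.exists_poly β hA.1
  have rA : A.Rk r := fun z h => (pA.finrank h).trans (hr z h)
  have sec : A.IsSec t := fun z h => by
    rw [hA.2 z h]; exact ⟨_, hm z h, funext fun i => (ht' z h i).symm⟩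
  have zer : ∀ z ∈ P.pts, z ∈ Z.pts ↔ ∀ i, eval z (t i) = 0 := fun z h => by
    rw [hz z h, ← β.repr.map_eq_zero_iff, Finsupp.ext_iff]
    exact forall_congr' fun i => by rw [ht' z h i]; rfl
  have tr : ∀ z ∈ Z.pts, finrank ℂ (P.Tan z ⊓ LinearMap.ker (V.dS z t) : Submodule ℂ Pt) + r ≤ N := by
    intro z h
    have hz' := hZ.2 h
    have h1 := V.finrank_inf_ker_add (P.Tan z) (V.dS z t)
    have h2 : A.L z ≤ (P.Tan z).map (V.dS z t) := by
      rw [hA.2 z hz']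
      rintro _ ⟨e, he, rfl⟩
      obtain ⟨ξ, hξ, rfl⟩ := ht z h e he
      exact ⟨ξ, hξ, funext fun i => (dV_coord hξ (β.coord i) fun y => (ht' y.1 y.2 i).symm).symm⟩
    have h3 := Submodule.finrank_mono h2
    rw [rA z hz'] at h3
    rw [(hP z hz').1] at h1
    omega
  obtain ⟨h1, h2, h3⟩ := V.zl hP rA sec hh hZ zer tr
  refine ⟨h1, fun ⟨z, h⟩ => (h2 z h).1, A, pA.kl, h3, ?_⟩
  obtain ⟨S, hS⟩ := exists_vars P
  rw [tanK_eq hP hS, tanK_eq h1 (V.vars_sub hS hZ), ← pA.kl, K.pull_kl, K.pull_kl,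
    V.zl_tan hP rA sec hh hZ zer tr hS h1, add_sub_cancel_right]

lemma isVar_homMap {T M N : Type} [AddCommGroup M] [Module ℂ M] [FiniteDimensional ℂ M]
    [AddCommGroup N] [Module ℂ N] [FiniteDimensional ℂ N] {𝒜 : Subalgebra ℂ (T → ℂ)} {x₀ : T}
    {δ : (T → ℂ) →ₗ[ℂ] ℂ} (hδ : PDer 𝒜 x₀ δ) {A : T → Submodule ℂ M} {B : T → Submodule ℂ N}
    (hA : Alg 𝒜 A) {a : M →ₗ[ℂ] M} {c : N →ₗ[ℂ] N} (ha : IsVar 𝒜 x₀ δ A a) (hc : IsVar 𝒜 x₀ δ B c) :
    IsVar 𝒜 x₀ δ (fun x => homMap (A x) (B x))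
      (LinearMap.llcomp ℂ M N N c - LinearMap.lcomp ℂ N a) := fun σ hσ hm v hv => by
  have := ha.map hδ hA (RegM.of_regV hσ) (fun x => Submodule.map_le_iff_le_comap.2 (hm x)) hc v hv
  convert this using 1
  simp only [LinearMap.sub_apply, LinearMap.llcomp_apply, LinearMap.lcomp_apply]
  abel
lemma cov_deriv {A : Bun X} {a : A.ι → R} (ha : A.IsCov a) {x ξ : Pt} (hx : x ∈ X.pts)
    (hξ : ξ ∈ X.Tan x) {σ : X.pts → A.ι → ℂ} (hσ : RegV X.fn σ) (hm : ∀ y, σ y ∈ A.L y.1) :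
    ∑ i, (dAt x ξ (a i) * σ ⟨x, hx⟩ i + eval x (a i) * dV (X.pd x ξ) σ i) = 0 := by
  obtain ⟨s, hs⟩ := regV_iff_poly.1 hσ
  have h0 : ∑ i, a i * s i ∈ X.I := fun y hy => by
    rw [map_sum]
    simpa only [map_mul, hs] using ha y hy _ (hm ⟨y, hy⟩)
  have h1 := hξ _ h0
  rw [← h1, Jac.dAt_sum]
  refine Finset.sum_congr rfl fun i _ => ?_
  rw [dAt_mul, show dV (X.pd x ξ) σ i = dAt x ξ (s i) from
    dV_coord hξ (σ := σ) (LinearMap.proj i) fun y => hs y i, hs]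
  ring

namespace PB
variable (π : PB X V L L' b)
/-- lifting tangent vectors with a prescribed motion of the line -/
theorem exists_lift {z : Pt} (hz : z ∈ π.P.pts) {v : V.V} (hv : v ∈ L (restr X.B z))
    (e : π.φ (restr X.B z) v = fun i => z (π.y i)) {ξ : Pt} (hξ : ξ ∈ X.Tan (restr X.B z))
    {a : V.V →ₗ[ℂ] V.V}
    (ha : IsVar X.fn ⟨_, π.proj.map z hz⟩ (X.pd (restr X.B z) ξ) (fun y => L y.1) a) {v' : V.V}
    (hv' : v' ∈ L (restr X.B z)) : ∃ η ∈ π.P.Tan z, restr X.B η = ξ ∧ ∃ c,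
      IsVar π.P.fn ⟨z, hz⟩ (π.P.pd z η) (fun y => π.ln y.1) c ∧ c v - (a v + v') ∈ π.ln z := by
  have hx := π.proj.map z hz
  have hδ := Spc.pder_pd hx hξ
  let u : π.A.ι → ℂ := dV (X.pd (restr X.B z) ξ) (fun y : X.pts => π.φ y.1) v + π.φ (restr X.B z) (a v + v')
  have e0 : ∀ w : Var, w.1 ∈ X.B → Function.extend π.y u (0 : Pt) w = 0 := fun w hw =>
    Function.extend_apply' _ _ _ (by rintro ⟨i, rfl⟩; exact π.ps.notMem i hw)
  have r0 := TanAux.restr_tan hξ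
  have e1 : restr X.B (ξ + Function.extend π.y u (0 : Pt)) = ξ := funext fun w => by
    by_cases hw : w.1 ∈ X.B
    · simp [restr, hw, e0 w hw]
    · rw [← r0]; simp [restr, hw]
  have e2 : ∀ i, (ξ + Function.extend π.y u (0 : Pt)) (π.y i) = u i := fun i => by
    rw [Pi.add_apply, π.ps.inj.extend_apply, ← r0]
    simp [restr, π.ps.notMem i]
  have mA : ∀ y ∈ X.pts, ∀ w ∈ L y, π.φ y w ∈ π.A.L y := fun y hy w hw =>
    π.map y hy ▸ Submodule.mem_map_of_mem hw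
  have hη : ξ + Function.extend π.y u (0 : Pt) ∈ π.P.Tan z := by
    refine (π.ps.mem_tan hz).2 ⟨e1.symm ▸ hξ, fun w hw => ?_, fun c hc => ?_⟩
    · by_contra hn
      rw [not_or] at hn
      refine hw ?_
      rw [Pi.add_apply, Function.extend_apply' _ _ _ hn.2, ← r0]
      simp [restr, hn.1]
    · obtain ⟨τ, h1, h2, h3⟩ := π.hL.gen ⟨_, hx⟩ v hv
      have h4 := cov_deriv hc hx hξ (π.rm.reg.apply h1) fun y => mA _ y.2 _ (h2 y)
      have h5 := hc _ hx _ (mA _ hx _ (sub_mem hv' (ha τ h1 h2)))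
      rw [hδ.dV_app π.rm.reg h1, h3, e] at h4
      have h6 := congrArg₂ (· + ·) h4 h5
      simp only [← Finset.sum_add_distrib, add_zero] at h6
      rw [e1]
      refine (Finset.sum_congr rfl fun i _ => ?_).trans h6
      rw [e2, h3]
      simp only [u, map_add, map_sub, Pi.add_apply, Pi.sub_apply]
      ring
  have hδ' := Spc.pder_pd hz hη
  have hvl : v ∈ π.ln z := ⟨hv, Submodule.mem_comap.2 (by
    rw [e]; exact Submodule.mem_span_singleton_self _)⟩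
  obtain ⟨c, hc⟩ := hδ'.exists_isVar π.isAB_ln.alg
  obtain ⟨χ, hχ⟩ := hδ'.exists_isVar π.isAB_span.alg
  refine ⟨_, hη, e1, c, hc, ?_, ?_⟩
  · have ha' := IsVar.pull π.proj hz hη π.hL.alg (φ := a) (by rw [e1]; exact ha)
    have := IsVar.le π.isAB_ln.alg (fun y => π.ln_le y.1) ha' hc v hvl
    have e3 : c v - (a v + v') = -(a v - c v + v') := by abel
    exact e3 ▸ neg_mem (add_mem this hv')
  · have h1 := hc.map hδ' π.isAB_ln.alg (π.rm.pull π.proj).reg (fun y => (π.map_ln y.2).le) hχ v hvl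
    have h2 := hχ _ π.isRV_y.reg fun y => Submodule.mem_span_singleton_self _
    have h3 : dV (π.P.pd z (ξ + Function.extend π.y u 0))
        (fun y : π.P.pts => fun i => y.1 (π.y i)) = u := by
      funext i
      have := dV_coord hη (σ := fun y : π.P.pts => fun i => y.1 (π.y i)) (LinearMap.proj i)
        (r := MvPolynomial.X (π.y i)) fun y => by rw [eval_X]; rfl
      rw [dAt_X, e2] at this
      exact this
    have h4 := dV_pd_pull π.proj hη (σ := π.φ) (regM_iff_regV.1 π.rm.reg)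
    rw [e1] at h4
    have h5 : dV (X.pd (restr X.B z) ξ) (fun y : X.pts => π.φ y.1) v + π.φ (restr X.B z) (c v) -
        χ (π.φ (restr X.B z) v) ∈ Submodule.span ℂ {fun i => z (π.y i)} := h4 ▸ h1
    have h6 : u - χ (fun i => z (π.y i)) ∈ Submodule.span ℂ {fun i => z (π.y i)} := h3 ▸ h2
    have h7 := sub_mem h5 h6
    rw [e, sub_sub_sub_cancel_right, add_sub_add_left_eq_sub, ← map_sub] at h7
    exact h7

section zero
variable {M M' : Pt → Submodule ℂ W.V} {ψ : Pt → V.V →ₗ[ℂ] W.V}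
/-- transversality of `ℓ → M / M'` at `v ∈ ℓ` over `x` -/
def _root_.Crest.Agent.N265.N.Transv (X : Spc) {V W : GV} (L : Pt → Submodule ℂ V.V)
    (M M' : Pt → Submodule ℂ W.V) (ψ : Pt → V.V →ₗ[ℂ] W.V) (x : X.pts) (v : V.V) : Prop :=
  ∀ m ∈ M x.1, ∃ ξ ∈ X.Tan x.1, ∃ (a : V.V →ₗ[ℂ] V.V) (c : W.V →ₗ[ℂ] W.V),
    IsVar X.fn x (X.pd x.1 ξ) (fun y => L y.1) a ∧ IsVar X.fn x (X.pd x.1 ξ) (fun y => M' y.1) c ∧
    ∃ v' ∈ L x.1, dV (X.pd x.1 ξ) (fun y : X.pts => ψ y.1) v + ψ x.1 (a v + v') - c (ψ x.1 v) - m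
      ∈ M' x.1
theorem exists_zero (hM' : IsAB X W M') (hψ : IsRM X V W ψ) : ∃ Z : Spc, Z.Sub π.P ∧
    ∀ z ∈ π.P.pts, z ∈ Z.pts ↔ (π.ln z).map (ψ (restr X.B z)) ≤ M' (restr X.B z) := by
  have e := π.isAB_ln.eqv'.map (hψ.pull π.proj)
  have e' := (hM'.pull π.proj).eqv'
  refine ⟨π.P.leLoc _ _ (π.isAB_ln.gen.map (hψ.pull π.proj).reg) (hM'.pull π.proj).cog
    fun z hz h => ?_, Spc.leLoc_sub _ _ _ _ _ _, fun z hz => Spc.mem_leLoc.trans (and_iff_right hz)⟩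
  exact (e z hz).symm.le.trans ((Submodule.map_mono h).trans (e' z hz).le)
/-- **zero locus of `ℓ / L' → M / M'`** -/
theorem zl {n a r : ℕ} (hX : X.Sm n) (hA : π.A.Rk a) (hM : IsAB X W M) (hM' : IsAB X W M')
    (hr : ∀ x ∈ X.pts, M' x ≤ M x ∧ finrank ℂ (M x) = finrank ℂ (M' x) + r) (hψ : IsRM X V W ψ)
    (h1 : ∀ x ∈ X.pts, (L x).map (ψ x) ≤ M x) (h2 : ∀ x ∈ X.pts, (L' x).map (ψ x) ≤ M' x)
    {Z : Spc} (hZ : Z.Sub π.P)
    (hz : ∀ z ∈ π.P.pts, z ∈ Z.pts ↔ (π.ln z).map (ψ (restr X.B z)) ≤ M' (restr X.B z))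
    (ht : ∀ x : X.pts, ∀ v ∈ L x.1, v ∉ L' x.1 → ψ x.1 v ∈ M' x.1 → Transv X L M M' ψ x v) :
    Z.Sm (n + a - r) ∧ (Z.pts.Nonempty → r ≤ n + a) ∧ ∃ E : Bun π.P,
      E.kl = lbK π.P (eB b - π.δ) * K.pull π.proj (kc X W M - kc X W M') ∧
      push Z π.P (one Z) = eu E • one π.P ∧
      tanK Z = K.pull (hZ.proj.trans π.proj) (tanK X) + lbK Z (eB b - π.δ) *
        K.pull (hZ.proj.trans π.proj) ((kc X V L - kc X V L') - (kc X W M - kc X W M')) := by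
  have q := π.proj
  have hl := π.isAB_ln
  have lel : ∀ z ∈ π.P.pts, L' (restr X.B z) ≤ π.ln z := fun z h => π.le_ln h
  have leM : ∀ z ∈ π.P.pts, M' (restr X.B z) ≤ M (restr X.B z) := fun z h => (hr _ (q.map z h)).1
  have H₁ := hl.homMap_inf (π.hL'.pull q) (hM.pull q) (hM'.pull q) lel leM
  have H₀ := hl.homMap (hM'.pull q)
  obtain ⟨U, Φ, hΦ, hE, hk, eE⟩ := H₁.exists_sq H₀ fun z h θ hθ =>
    ⟨fun v hv => leM z h (hθ v hv), fun v hv => hθ v (lel z h hv)⟩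
  rw [kq_hom hl (π.hL'.pull q) (hM.pull q) (hM'.pull q) lel leM, ← kc_pull π.hL' q, π.kc_ln,
    K.dual_lbK, neg_sub] at eE
  have hs := hΦ.app (isRM_iff.1 (hψ.pull q))
  obtain ⟨k1, k2, E, k3, k4, k5⟩ := zlA (π.ps.sm hX hA) hE (r := r) (fun z h => by
      have := rk_kc hE h
      rw [eE, map_mul, map_sub, rk_kc (hM.pull q) h, rk_kc (hM'.pull q) h, lbK, K.rk_kl,
        rk_line _ z h, (hr _ (q.map z h)).2] at this
      omega) hs (fun z h => Submodule.mem_map_of_mem ⟨fun v hv => h1 _ (q.map z h)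
      (Submodule.mem_map_of_mem (π.ln_le z hv)), fun v hv => h2 _ (q.map z h)
      (Submodule.mem_map_of_mem hv)⟩) hZ (fun z h => by
      rw [hz z h, ← LinearMap.mem_ker, hk z h]; exact Submodule.map_le_iff_le_comap) (by
      rintro z hzZ _ ⟨θ, hθ, rfl⟩
      have h := hZ.2 hzZ
      have hx := q.map z h
      have h0 := Submodule.map_le_iff_le_comap.1 ((hz z h).1 hzZ)
      obtain ⟨v, hv, e⟩ : (fun i => z (π.y i)) ∈ (π.ln z).map (π.φ (restr X.B z)) :=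
        π.map_ln h ▸ Submodule.mem_span_singleton_self _
      have hv0 : v ∉ L' (restr X.B z) := fun h' => π.y_ne h (e ▸ (π.ker _ hx).ge h')
      obtain ⟨ξ, hξ, a, c, ha, hc, v', hv', ht'⟩ := ht ⟨_, hx⟩ v hv.1 hv0 (h0 hv) _ (hθ.1 v hv)
      obtain ⟨η, hη, e1, a₁, ha₁, ha₂⟩ := π.exists_lift h hv.1 e hξ ha hv'
      have hδ := Spc.pder_pd h hη
      have hc' := IsVar.pull q h hη hM'.alg (φ := c) (by rw [e1]; exact hc)
      have dψ : dV (π.P.pd z η) (fun y : π.P.pts => ψ (restr X.B y.1)) =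
          dV (X.pd (restr X.B z) ξ) fun y : X.pts => ψ y.1 := by
        rw [dV_pd_pull q hη (regM_iff_regV.1 hψ.reg), e1]
      have kl := (isVar_homMap hδ hl.alg ha₁ hc').kill hδ H₀.alg hΦ.reg
        (fun y w hw => (hk _ y.2).ge hw) _ h0
      refine ⟨η, hη, ?_⟩
      rw [hδ.dV_app hΦ.reg (isRM_iff.1 (hψ.pull q)).reg, eq_neg_of_add_eq_zero_left kl,
        ← map_neg, ← map_add, ← sub_eq_zero, ← map_sub, ← LinearMap.mem_ker, hk z h, dψ]
      intro w hw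
      obtain ⟨t, ht⟩ := Submodule.mem_span_singleton.1 hw.2
      have hw' : w - t • v ∈ L' (restr X.B z) := (π.ker _ hx).le (by
        rw [LinearMap.mem_ker, map_sub, map_smul, e, ht, sub_self])
      obtain ⟨a', ha'⟩ := hδ.exists_isVar (π.hL'.pull q).alg
      have s1 := ha'.map hδ (π.hL'.pull q).alg (hψ.pull q).reg (fun y => h2 _ (q.map _ y.2)) hc' _ hw'
      have s2 := h0 (IsVar.le (π.hL'.pull q).alg (fun y => lel _ y.2) ha₁ ha' _ hw')
      rw [dψ] at s1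
      have s3 := add_mem (sub_mem (add_mem s1 s2) (hθ.2 _ hw'))
        (Submodule.smul_mem _ t (add_mem ht' (h0 ha₂)))
      convert s3 using 1
      simp only [LinearMap.sub_apply, LinearMap.add_apply, LinearMap.neg_apply,
        LinearMap.llcomp_apply, LinearMap.lcomp_apply, map_sub, map_add, map_smul]
      module)
  rw [eE, ← kc_pull hM q, ← kc_pull hM' q, ← map_sub] at k3 k5
  refine ⟨k1, k2, E, k3, k4, ?_⟩
  rw [k5, psub_tanK π.ps hX hA, π.kl]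
  simp only [map_add, map_mul, map_sub, K.pull_pull, K.pull_lbK _ π.d_mem]
  ring
end zero
end PB

end Crest.Agent.N265.N
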