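import Crest.Agent.N265.N.KK
import Crest.Agent.N265.N.PBz

/-!
# Row 265, layer N, task N-TRV: transversality of the two zero loci
-/

set_option autoImplicit false
noncomputable section
open MvPolynomial Module TensorProduct

namespace Crest.Agent.N265.N
open Alg GV Br _root_.Crest.Agent.N265.Pow

namespace AD
variable {Sg : Surf} {α : AD Sg} {T : Submodule ℂ α.W.V → Prop} {r : ℕ} {h : ℕ → ℕ} {X : Spc}
  {L : Pt → Submodule ℂ α.W.V} {k : ℕ} {z : Pt}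
lemma ev_rT (k : ℕ) (z : Pt) (φ : α.W.V →ₗ[ℂ] α.W.V) (t : (WA Sg α.W k).V) :
    α.ev k z (LinearMap.rTensor _ φ t) = φ (α.ev k z t) :=
  LinearMap.congr_fun (TensorProduct.ext' (g := α.ev k z ∘ₗ φ.rTensor _) (h := φ ∘ₗ α.ev k z)
    fun _ _ => by simp [ev]) t
/-- Lines in `KK / ZK` killed by evaluation. Given `m ∈ L x` take `ψ ∈ ZK^⊥` with `ψ v = 1`, `φ`
from `ks` with `u = -m`, `ξ` from `TS`, `a` a variation of `KK` (`PDer.exists_isVar`), `c = 0`.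
By `var_KK`, `ev (a v) ≡ φ (ev v) - ev θ ≡ m` modulo `ev KK`. -/
theorem Fam.transv_up (F : α.Fam X T L) (hT : α.TyOK T r h) (ts : α.TS X L) (hk : α.e ≤ k)
    (hz : z ∈ α.S.pts) (x : X.pts) {v : (WA Sg α.W (k + 1)).V} (hv : v ∈ α.KK (L x.1) (k + 1))
    (h0 : v ∉ α.ZK (L x.1) k z) (h1 : α.ev (k + 1) z v = 0) :
    Transv X (V := WA Sg α.W (k + 1)) (W := α.W) (fun a => α.KK (L a) (k + 1)) L (fun _ => ⊥)
      (fun _ => α.ev (k + 1) z) x v := by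
  intro m hm
  obtain ⟨ψ, hψ, h2⟩ : ∃ ψ ∈ (α.ZK (L x.1) k z).dualAnnihilator, ψ v ≠ 0 := by
    by_contra hc
    push Not at hc
    exact h0 ((Subspace.forall_mem_dualAnnihilator_apply_eq_zero_iff _ _).1 hc)
  obtain ⟨φ, hφ, H⟩ := hT.ks _ (F.ty _ x.2) k hk z hz ψ hψ _ ((L x.1).smul_mem (-(ψ v)⁻¹) hm)
  obtain ⟨θ, hθ, e, κ, hκ, e'⟩ := H v hv h1
  obtain ⟨ξ, hξ, hv'⟩ := ts x φ hφ
  have hd := Spc.pder_pd x.2 hξ
  obtain ⟨a, ha⟩ := hd.exists_isVar (F.isAB_KK hT (k + 1)).alg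
  refine ⟨ξ, hξ, a, 0, ha, isVar_const ⊥, _, sub_mem hκ (F.var_KK hT hξ hv' ha hv hθ e), ?_⟩
  rw [smul_smul, mul_neg, mul_inv_cancel₀ h2, neg_one_smul, sub_neg_eq_add] at e'
  rw [hd.dV_const, Submodule.mem_bot, map_add, map_sub, map_sub, map_sub, ev_rT, h1, map_zero, e',
    LinearMap.zero_apply, LinearMap.zero_apply]
  abel
/-- Functionals `λ` on `W` that kill `ev KK`, non-zero on `L x`. Given `m ∈ ZK^⊥` take `u ∈ L x`
with `λ u = -1`, `φ` from `ks` with `ψ = m`, `a = 0`, `c = -a_K^∨` (`isVar_perp`). The functional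
`m - λ ∘ ev ∘ a_K` on `KK` kills `KK ∩ ker ev` (`var_KK`), so it is `λ' ∘ ev` on `KK`. -/
theorem Fam.transv_down (F : α.Fam X T L) (hT : α.TyOK T r h) (ts : α.TS X L) (hk : α.e ≤ k)
    (hz : z ∈ α.S.pts) (x : X.pts) {l : α.W.dual.V} (h0 : l ∉ (L x.1).dualAnnihilator)
    (h1 : (α.ev (k + 1) z).dualMap l ∈ (α.KK (L x.1) (k + 1)).dualAnnihilator) :
    Transv X (V := α.W.dual) (W := (WA Sg α.W (k + 1)).dual) (fun _ => ⊤)
      (fun a => (α.ZK (L a) k z).dualAnnihilator) (fun a => (α.KK (L a) (k + 1)).dualAnnihilator)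
      (fun _ => (α.ev (k + 1) z).dualMap) x l := by
  intro m hm
  obtain ⟨u, hu, h2⟩ : ∃ u ∈ L x.1, l u ≠ 0 := by
    by_contra hc
    push Not at hc
    exact h0 ((Submodule.mem_dualAnnihilator l).2 hc)
  obtain ⟨φ, hφ, H⟩ := hT.ks _ (F.ty _ x.2) k hk z hz m hm _ ((L x.1).smul_mem (-(l u)⁻¹) hu)
  obtain ⟨ξ, hξ, hv'⟩ := ts x φ hφ
  have hd := Spc.pder_pd x.2 hξ
  have hK := (F.isAB_KK hT (k + 1)).alg
  obtain ⟨a, ha⟩ := hd.exists_isVar hK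
  have hl : ∀ κ ∈ α.KK (L x.1) (k + 1), l (α.ev (k + 1) z κ) = 0 :=
    (Submodule.mem_dualAnnihilator _).1 h1
  have : (m - l ∘ₗ α.ev (k + 1) z ∘ₗ a) ∘ₗ (α.KK (L x.1) (k + 1)).subtype ∈
      LinearMap.range (α.ev (k + 1) z ∘ₗ (α.KK (L x.1) (k + 1)).subtype).dualMap := by
    rw [LinearMap.range_dualMap_eq_dualAnnihilator_ker, Submodule.mem_dualAnnihilator]
    rintro ⟨κ, hκ⟩ h3
    replace h3 : α.ev (k + 1) z κ = 0 := h3
    obtain ⟨θ, hθ, e, κ', hκ', e'⟩ := H κ hκ h3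
    have h4 := hl _ (F.var_KK hT hξ hv' ha hκ hθ e)
    have h5 := hl _ hκ'
    rw [e'] at h5
    rw [map_sub, map_sub, map_sub, ev_rT, h3, map_zero] at h4
    simp only [map_sub, map_zero, map_smul, smul_eq_mul, neg_mul, inv_mul_cancel₀ h2] at h4 h5
    change m κ - l (α.ev (k + 1) z (a κ)) = 0
    linear_combination h5 - h4
  obtain ⟨l', hl'⟩ := this
  refine ⟨ξ, hξ, 0, -a.dualMap, isVar_const ⊤, isVar_perp hd hK ha, l', trivial,
    (Submodule.mem_dualAnnihilator _).2 fun κ hκ => ?_⟩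
  have h6 : l' (α.ev (k + 1) z κ) = m κ - l (α.ev (k + 1) z (a κ)) :=
    LinearMap.congr_fun hl' ⟨κ, hκ⟩
  rw [hd.dV_const]
  simp only [LinearMap.zero_apply, zero_add, LinearMap.sub_apply, LinearMap.neg_apply,
    LinearMap.dualMap_apply, h6]
  ring
end AD

end Crest.Agent.N265.N
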