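import Crest.Agent.N265.N.Rec
import Crest.Agent.N265.N.Trv

/-!
# Row 265, layer N, task N-NEST: the nested space as a zero locus in two ways
-/

set_option autoImplicit false
noncomputable section
open MvPolynomial Module TensorProduct

namespace Crest.Agent.N265.N
open Alg GV Br Bun _root_.Crest.Agent.N265.Pow

/-- the data of `Top.z1_of`, `Top.z2_of` -/
def ZData (N X : Spc) (a e : K X) (r : ℕ) (lam : K N) : Prop :=
  ∃ (P : Spc) (A : Bun X) (δ : D) (c : ℕ) (y : A.ι → Var) (hP : IsPSub P A δ c y) (Z : Spc)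
    (E : Bun P), Z.Sub P ∧ Proj N Z ∧ A.kl = a ∧ A.Rk r ∧
      E.kl = lbK P (eB c - δ) * K.pull hP.proj e ∧ push Z P (one Z) = eu E • one P ∧
      push N Z (one N) = one Z ∧ lam = lbK N (eB c - δ)
/-- the subset of `Z × F` given by `Q` is a graph over `Z` -/
def IsGraph (Z F : Spc) (b : ℕ) (Q : Pt → Prop) : Prop :=
  ∃ (P : Spc) (A : Bun Z) (y : A.ι → Var), IsPSub P A 0 b y ∧ A.Rk 1 ∧
    ∀ z, z ∈ P.pts ↔ z ∈ (Z.fib F).pts ∧ Q z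
/-- two graphs -/
theorem two_graphs {Z G₁ G₂ : Spc} {A₁ : Bun Z} {A₂ : Bun G₁} {δ₁ δ₂ b₁ b₂ y₁ y₂}
    (h₁ : IsPSub G₁ A₁ δ₁ b₁ y₁) (r₁ : A₁.Rk 1) (h₂ : IsPSub G₂ A₂ δ₂ b₂ y₂) (r₂ : A₂.Rk 1) {n : ℕ}
    (hZ : Z.Sm n) : push G₂ Z (one G₂) = one Z ∧
      tanK G₂ = K.pull (h₂.proj.trans h₁.proj) (tanK Z) + 2 := by
  refine ⟨by rw [← push_push h₂.proj h₁.proj, h₂.push_one r₂, h₁.push_one r₁], ?_⟩
  rw [graph_tanK h₂ (h₁.sm hZ r₁) r₂, graph_tanK h₁ hZ r₁, map_add, map_one, K.pull_pull]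
  ring

/-- two moduli spaces `F`, `F'` whose types differ by one point; `E` = the other ideals agree -/
structure ND {Sg : Surf} (α : AD Sg) where
  F : Spc
  F' : Spc
  b : ℕ
  b' : ℕ
  hB : F.B = {b}
  hB' : F'.B = {b'}
  ne : b ≠ b'
  T : Submodule ℂ α.W.V → Prop
  T' : Submodule ℂ α.W.V → Prop
  r : ℕ
  h : ℕ → ℕ
  h' : ℕ → ℕ
  ok : α.StepOK T T' r h h'
  U : Pt → Submodule ℂ α.W.V
  U' : Pt → Submodule ℂ α.W.V
  fam : α.Fam F T U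
  fam' : α.Fam F' T' U'
  n : ℕ
  n' : ℕ
  sm : F.Sm n
  sm' : F'.Sm n'
  ts : α.TS F U
  ts' : α.TS F' U'
  E : Pt → Pt → Prop
  gr : ∀ (Z : Spc) (L : Pt → Submodule ℂ α.W.V), Proj Z F' → b ∉ Z.B → α.Fam Z T L →
    IsGraph Z F b fun z => U (restr F.B z) = L (restr Z.B z) ∧ E (restr F.B z) (restr F'.B z)
  gr' : ∀ (Z : Spc) (L : Pt → Submodule ℂ α.W.V), Proj Z F → b' ∉ Z.B → α.Fam Z T' L →
    IsGraph Z F' b' fun z => U' (restr F'.B z) = L (restr Z.B z) ∧ E (restr F.B z) (restr F'.B z)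
  z : α.S.pts
  k : ℕ
  hk : α.e ≤ k
  hd : DltOK Sg α.b (k + 1) z

namespace ND
variable {Sg : Surf} {α : AD Sg} (ν : ND α)
/-- the ambient space of the syzygies -/
abbrev V : GV := WA Sg α.W (ν.k + 1 + 1)
/-- syzygies -/
abbrev KK (U : Submodule ℂ α.W.V) : Submodule ℂ ν.V.V := α.KK U (ν.k + 1 + 1)
/-- syzygies vanishing at `z` -/
abbrev ZK (U : Submodule ℂ α.W.V) : Submodule ℂ ν.V.V := α.ZK U (ν.k + 1) ν.z.1
/-- `[U]` -/
def u : K ν.F := kc ν.F α.W ν.U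
/-- `[U']` -/
def u' : K ν.F' := kc ν.F' α.W ν.U'
/-- `[B|_z]` -/
def s : K ν.F := kc ν.F ν.V (fun x => ν.KK (ν.U x)) - kc ν.F ν.V fun x => ν.ZK (ν.U x)
/-- `[B'|_z]` -/
def s' : K ν.F' := kc ν.F' ν.V (fun x => ν.KK (ν.U' x)) - kc ν.F' ν.V fun x => ν.ZK (ν.U' x)
/-- a new block -/
def c : ℕ := ν.b + ν.b' + α.b + 1
/-- hyperplanes of `U` -/
abbrev P₁ : Type 1 := PB ν.F α.W.dual (fun _ => ⊤) (fun x => (ν.U x).dualAnnihilator) ν.c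
/-- lines in `B'|_z` -/
abbrev P₂ : Type 1 := PB ν.F' ν.V (fun x => ν.KK (ν.U' x)) (fun x => ν.ZK (ν.U' x)) (ν.c + 1)
lemma hk' : α.e ≤ ν.k + 1 := ν.hk.trans (Nat.le_succ _)
lemma nb_b : α.b ≠ ν.b := fun e => ν.fam.nb (by rw [ν.hB, e]; exact Finset.mem_singleton_self _)
lemma nb_b' : α.b ≠ ν.b' := fun e => ν.fam'.nb (by rw [ν.hB', e]; exact Finset.mem_singleton_self _)
theorem exists_P₁ : Nonempty ν.P₁ :=
  exists_PB (IsAB.top (α.in_W _).dual) ν.fam.ab.perp (fun _ _ => le_top)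
    (by rw [ν.hB, Finset.mem_singleton, c]; omega)
theorem exists_P₂ : Nonempty ν.P₂ :=
  exists_PB (ν.fam'.isAB_KK ν.ok.ty' _) (ν.fam'.isAB_ZK ν.ok.ty' ν.hk' ν.z.2)
    (fun _ _ => AD.ZK_le _ _ _) (by rw [ν.hB', Finset.mem_singleton, c]; omega)
/-- the points of the nested space -/
structure Pts (π₁ : ν.P₁) (π₂ : ν.P₂) (y : Pt) : Prop where
  supp : ∀ v, y v ≠ 0 → v.1 ∈ ({ν.b, ν.b', ν.c, ν.c + 1} : Finset ℕ)
  m₁ : restr π₁.P.B y ∈ π₁.P.pts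
  m₂ : restr π₂.P.B y ∈ π₂.P.pts
  mod : α.Mod (ν.U (restr ν.F.B y)) (ν.U' (restr ν.F'.B y)) ν.z.1
  e : ν.E (restr ν.F.B y) (restr ν.F'.B y)
  l₁ : π₁.ln y = (ν.U' (restr ν.F'.B y)).dualAnnihilator
  l₂ : π₂.ln y = α.sl (ν.U (restr ν.F.B y)) (ν.U' (restr ν.F'.B y)) (ν.k + 1) ν.z.1
/-- `N` is the nested space -/
structure IsN (π₁ : ν.P₁) (π₂ : ν.P₂) (N : Spc) : Prop where
  B : N.B = {ν.b, ν.b', ν.c, ν.c + 1}
  mem : ∀ y, y ∈ N.pts ↔ ν.Pts π₁ π₂ y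
variable {ν} {π₁ : ν.P₁} {π₂ : ν.P₂} {N : Spc}
lemma IsN.uniq (h : ν.IsN π₁ π₂ N) {N' : Spc} (h' : ν.IsN π₁ π₂ N') : N = N' :=
  Spc.ext (h.B.trans h'.B.symm) (Set.ext fun y => (h.mem y).trans (h'.mem y).symm)
lemma B₁ (π₁ : ν.P₁) : π₁.P.B = {ν.c, ν.b} := by rw [π₁.ps.B, ν.hB]
lemma B₂ (π₂ : ν.P₂) : π₂.P.B = {ν.c + 1, ν.b'} := by rw [π₂.ps.B, ν.hB']
lemma IsN.pr₁ (h : ν.IsN π₁ π₂ N) : Proj N π₁.P :=
  ⟨by rw [h.B, B₁]; intro; simp only [Finset.mem_insert, Finset.mem_singleton]; tauto,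
    fun y hy => ((h.mem y).1 hy).m₁⟩
lemma IsN.pr₂ (h : ν.IsN π₁ π₂ N) : Proj N π₂.P :=
  ⟨by rw [h.B, B₂]; intro; simp only [Finset.mem_insert, Finset.mem_singleton]; tauto,
    fun y hy => ((h.mem y).1 hy).m₂⟩
lemma IsN.pr (h : ν.IsN π₁ π₂ N) : Proj N ν.F := h.pr₁.trans π₁.proj
lemma IsN.pr' (h : ν.IsN π₁ π₂ N) : Proj N ν.F' := h.pr₂.trans π₂.proj
lemma IsN.nb (h : ν.IsN π₁ π₂ N) : α.b ∉ N.B := by
  have h1 := ν.nb_b
  have h2 := ν.nb_b'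
  simp only [h.B, Finset.mem_insert, Finset.mem_singleton, c]
  omega
lemma isAB_coperp {X : Spc} {V : GV} {M : Pt → Submodule ℂ V.dual.V} (hV : V.In X.B)
    (h : IsAB X V.dual M) : IsAB X V fun x => (M x).dualCoannihilator :=
  ⟨hV, h.alg.coperp, Eqv.of_mem_iff fun x hx v => by
    rw [Submodule.mem_dualCoannihilator, Submodule.mem_dualCoannihilator, ← h.eqv x hx]
    constructor
    · intro H l hl
      simpa using H _ ⟨l, hl, rfl⟩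
    · rintro H _ ⟨l, hl, rfl⟩
      simpa using H l hl⟩
lemma kc_perp_sub {X : Spc} {V : GV} {L L' : Pt → Submodule ℂ V.V} (h : IsAB X V L)
    (h' : IsAB X V L') : kc X V.dual (fun x => (L' x).dualAnnihilator) -
      kc X V.dual (fun x => (L x).dualAnnihilator) = K.dual X (kc X V L - kc X V L') := by
  rw [kc_perp h, kc_perp h', ← map_sub, sub_sub_sub_cancel_left]

/-- **from `F`.** `Z ⊂ π₁.P` = zero locus (`exists_zero`, `zl`) for `ψ = ev^∨`, `M = ZK^⊥`,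
`M' = KK^⊥` (`transv_down`; classes by `kc_perp`, `kc_dual_top`). On `Z` the family
`L z = (π₁.ln z).dualCoannihilator` is a `Fam Z T'` (`ok.down`); `G₁` from `gr'`; on `G₁` the
socle line `sl` is a bundle (`Fam.step`, `Step.socle`, `lin_sl`); `N` from `π₂.exists_graph`;
`two_graphs`. -/
theorem exists_down (π₁ : ν.P₁) (π₂ : ν.P₂) : ∃ (N : Spc) (h : ν.IsN π₁ π₂ N),
    ZData N ν.F (K.dual _ ν.u) (K.dual _ ν.s) (ν.r + 2) (lbK N (eB ν.c - π₁.δ)) ∧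
    tanK N = K.pull h.pr (tanK ν.F) +
      lbK N (eB ν.c - π₁.δ) * K.pull h.pr (K.dual _ ν.u - K.dual _ ν.s) + 2 := by
  have n1 := ν.nb_b
  have n2 := ν.nb_b'
  have n3 := ν.ne
  have hZK := ν.fam.isAB_ZK ν.ok.ty ν.hk' ν.z.2
  have hKK := ν.fam.isAB_KK ν.ok.ty (ν.k + 1 + 1)
  have hψ : IsRM ν.F α.W.dual ν.V.dual fun _ => (α.ev (ν.k + 1 + 1) ν.z.1).dualMap :=
    (IsRM.const (AD.deg0_ev _ _)).dualMap
  have key : ∀ {U U' : Submodule ℂ α.W.V}, (ν.KK U).map (α.ev _ ν.z.1) ≤ U' →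
      U'.dualAnnihilator.map (α.ev (ν.k + 1 + 1) ν.z.1).dualMap ≤ (ν.KK U).dualAnnihilator :=
    fun h => Submodule.map_le_iff_le_comap.2 fun l hl => (Submodule.mem_dualAnnihilator _).2
      fun κ hκ => (Submodule.mem_dualAnnihilator _).1 hl _ (h ⟨κ, hκ, rfl⟩)
  obtain ⟨Z, hZ, hz⟩ := π₁.exists_zero hKK.perp hψ
  have hA : π₁.A.Rk (ν.r + 2) := π₁.rk fun x hx => by
    have h1 := Subspace.finrank_add_finrank_dualAnnihilator_eq (ν.U x)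
    rw [ν.ok.ty.rk _ (ν.fam.ty x hx)] at h1
    rw [finrank_top, Subspace.dual_finrank_eq]
    exact h1.symm.trans (add_comm _ _)
  obtain ⟨hS, -, E, hE, hp, hT⟩ := π₁.zl (r := ν.r + 1) ν.sm hA hZK.perp hKK.perp
    (fun x hx => ⟨Submodule.dualAnnihilator_anti (AD.ZK_le _ _ _), by
      have h1 := Subspace.finrank_add_finrank_dualAnnihilator_eq (ν.ZK (ν.U x))
      have h2 := Subspace.finrank_add_finrank_dualAnnihilator_eq (ν.KK (ν.U x))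
      have h3 := ν.ok.ty.fib _ (ν.fam.ty x hx) _ ν.hk' _ ν.z.2
      rw [← ν.ok.ty.hf _ (ν.fam.ty x hx)] at h3
      exact Nat.add_left_cancel (h1.trans (h2.symm.trans (by rw [← h3]; ring)))⟩) hψ
    (fun x _ => Submodule.map_le_iff_le_comap.2 fun l _ => (Submodule.mem_dualAnnihilator _).2
      fun κ hκ => (congrArg l (AD.ZK_le_ker _ _ ν.z.2 hκ)).trans (map_zero l))
    (fun x _ => key (AD.map_ev_le _ _ _)) hZ hz
    fun x v _ h0 h1 => ν.fam.transv_down ν.ok.ty ν.ts ν.hk' ν.z.2 x h0 h1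
  have pZ : Proj Z ν.F := hZ.proj.trans π₁.proj
  have BZ : Z.B = {ν.c, ν.b} := hZ.1.trans (B₁ π₁)
  have mZ : ∀ y ∈ Z.pts, α.Mod (ν.U (restr ν.F.B y)) (π₁.ln y).dualCoannihilator ν.z.1 :=
    fun y hy => by
    have hy' := hZ.2 hy
    refine ⟨(Submodule.dualCoannihilator_anti (π₁.le_ln hy')).trans
      Subspace.dualAnnihilator_dualCoannihilator_eq.le, ?_, fun j => ?_⟩
    · have h1 := Subspace.finrank_add_finrank_dualAnnihilator_eq (ν.U (restr ν.F.B y))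
      have h2 := Subspace.finrank_add_finrank_dualCoannihilator_eq (π₁.ln y)
      rw [π₁.finrank_ln hy'] at h2
      exact Nat.add_right_cancel (h1.trans (h2.symm.trans (by ring)))
    · refine (ν.ok.ty.map_ev_le (ν.fam.ty _ (pZ.map y hy)) j (k := ν.k + 1 + 1)
        (ν.hk'.trans (Nat.le_succ _)) ν.z.2).trans ?_
      rintro _ ⟨κ, hκ, rfl⟩
      exact (Submodule.mem_dualCoannihilator _).2 fun l hl =>
        (Submodule.mem_dualAnnihilator _).1 ((hz y hy').1 hy ⟨l, hl, rfl⟩) κ hκ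
  have fZ : α.Fam Z ν.T' fun y => (π₁.ln y).dualCoannihilator :=
    ⟨by simp only [BZ, Finset.mem_insert, Finset.mem_singleton, c]; omega,
      isAB_coperp (α.in_W _) (π₁.isAB_ln.mono hZ),
      fun y hy => ν.ok.down _ _ (ν.fam.ty _ (pZ.map y hy)) _ ν.z.2 (mZ y hy)⟩
  obtain ⟨G, A₁, y₁, h₁, r₁, m₁⟩ := ν.gr' Z _ pZ
    (by simp only [BZ, Finset.mem_insert, Finset.mem_singleton, c]; omega) fZ
  have BG : G.B = {ν.b', ν.c, ν.b} := by rw [h₁.B, BZ]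
  have q : Proj G ν.F := h₁.proj.trans pZ
  have q' : Proj G ν.F' := ⟨by rw [ν.hB', BG]; simp, fun y hy => ((m₁ y).1 hy).1.2.1⟩
  have nbG : α.b ∉ G.B := by
    simp only [BG, Finset.mem_insert, Finset.mem_singleton, c]; omega
  have mG : ∀ y ∈ G.pts, α.Mod (ν.U (restr ν.F.B y)) (ν.U' (restr ν.F'.B y)) ν.z.1 :=
    fun y hy => by
    rw [((m₁ y).1 hy).2.1, ← restr_restr pZ.sub]
    exact mZ _ (h₁.proj.map y hy)
  obtain ⟨N, A₂, y₂, h₂, r₂, m₂⟩ := π₂.exists_graph q'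
    (by simp only [BG, Finset.mem_insert, Finset.mem_singleton, c]; omega)
    (ℓ := fun y => α.sl (ν.U (restr ν.F.B y)) (ν.U' (restr ν.F'.B y)) (ν.k + 1) ν.z.1)
    (((ν.fam.pull q nbG).step (ν.fam'.pull q' nbG) ν.ok ν.z.2 mG).socle ν.hk' ν.hd).1
    fun y hy =>
      have l := ν.ok.lin_sl (ν.fam.ty _ (q.map y hy)) (mG y hy) ν.hk' ν.hd
      ⟨l.le₁, l.le₂, l.one⟩
  have BN : N.B = {ν.b, ν.b', ν.c, ν.c + 1} := by
    rw [h₂.B, BG]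
    ext
    simp only [Finset.mem_insert, Finset.mem_singleton]
    tauto
  have pN : Proj N Z := h₂.proj.trans h₁.proj
  have lnZ : ∀ y, π₁.ln (restr Z.B (restr G.B y)) = π₁.ln y := fun y => by
    rw [restr_restr h₁.proj.sub, π₁.ln_restr hZ.1.ge]
  have hN : ν.IsN π₁ π₂ N := ⟨BN, fun y => ⟨fun hy => ?_, fun H => ?_⟩⟩
  · obtain ⟨e₁, e₂⟩ := two_graphs h₁ r₁ h₂ r₂ hS
    have k₁ : kc ν.F α.W.dual (fun _ => ⊤) -
        kc ν.F α.W.dual (fun x => (ν.U x).dualAnnihilator) = K.dual _ ν.u := by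
      rw [kc_dual_top (α.in_W _), kc_perp ν.fam.ab, ← map_sub, sub_sub_cancel, u]
    have k₂ := kc_perp_sub hKK hZK
    refine ⟨N, hN, ⟨π₁.P, π₁.A, π₁.δ, ν.c, π₁.y, π₁.ps, Z, E, hZ, pN, π₁.kl.trans k₁, hA,
      by rw [hE, k₂]; rfl, hp, e₁, rfl⟩, ?_⟩
    rw [e₂, hT, k₁, k₂, map_add, map_mul, K.pull_pull, K.pull_pull,
      K.pull_lbK _ (hZ.1 ▸ π₁.d_mem)]
    rfl
  · obtain ⟨⟨a₁, a₂, -⟩, a₃⟩ := (m₂ y).1 hy
    obtain ⟨-, a₄, a₅⟩ := (m₁ _).1 a₁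
    have a₆ := mG _ a₁
    rw [restr_restr q.sub, restr_restr q'.sub] at a₃ a₅ a₆
    rw [restr_restr q'.sub, lnZ] at a₄
    exact ⟨fun v hv => BN ▸ Sp.restr_eq_iff.1 (N.restr_eq hy) v hv, (pN.trans hZ.proj).map y hy, a₂, a₆,
      a₅, by rw [a₄, Subspace.dualCoannihilator_dualAnnihilator_eq], a₃⟩
  · refine (m₂ y).2 ⟨⟨(m₁ _).2 ⟨⟨?_, ?_, fun v hv => ?_⟩, ?_, ?_⟩, H.m₂, fun v hv => ?_⟩, ?_⟩
    · rw [restr_restr h₁.proj.sub, hZ.1]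
      refine (hz _ H.m₁).2 ?_
      rw [π₁.ln_restr subset_rfl, restr_restr π₁.proj.sub, H.l₁]
      exact key (H.mod.2.2 _)
    · rw [restr_restr q'.sub, ← restr_restr π₂.proj.sub]
      exact π₂.proj.map _ H.m₂
    · have := (Sp.restr_ne.1 hv).1
      rw [BZ, ν.hB']
      simp only [BG, Finset.mem_insert, Finset.mem_singleton, Finset.mem_union] at this ⊢
      tauto
    · rw [restr_restr q'.sub, lnZ, H.l₁, Subspace.dualAnnihilator_dualCoannihilator_eq]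
    · rw [restr_restr q.sub, restr_restr q'.sub]
      exact H.e
    · have := H.supp v hv
      rw [BG, B₂]
      simp only [Finset.mem_insert, Finset.mem_singleton, Finset.mem_union] at this ⊢
      tauto
    · rw [restr_restr q.sub, restr_restr q'.sub]
      exact H.l₂
/-- **from `F'`.** `Z ⊂ π₂.P` = zero locus for `ψ = ev`, `M = U'`, `M' = ⊥` (`transv_up`). On `Z`
the family `L z = rcv (U' _) (π₂.ln z)` is a `Fam Z T` (`isAB_rcv`, `rcv_spec`); `G₁` from `gr`;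
`N` from `π₁.exists_graph` with the family `U'^⊥`; `rcv_sl` for the converse inclusion. -/
theorem exists_up (π₁ : ν.P₁) (π₂ : ν.P₂) : ∃ (N : Spc) (h : ν.IsN π₁ π₂ N),
    ZData N ν.F' ν.s' ν.u' ν.r (lbK N (eB (ν.c + 1) - π₂.δ)) ∧
    tanK N = K.pull h.pr' (tanK ν.F') +
      lbK N (eB (ν.c + 1) - π₂.δ) * K.pull h.pr' (ν.s' - ν.u') + 2 := by
  obtain ⟨x, y, hp⟩ := AD.exists_par (α := α) ν.z
  obtain ⟨u, hu⟩ := AD.exists_unit (α := α) ν.k ν.z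
  have hk : α.e ≤ ν.k + 1 := ν.hk.trans (Nat.le_succ _)
  have hψ : IsRM ν.F' ν.V α.W fun _ => α.ev (ν.k + 1 + 1) ν.z.1 := IsRM.const (AD.deg0_ev _ _)
  obtain ⟨Z, hZ, hz⟩ := π₂.exists_zero (IsAB.bot (α.in_W _)) hψ
  have hA : π₂.A.Rk ν.r := π₂.rk fun a ha =>
    (ν.ok.ty'.hf _ (ν.fam'.ty a ha) _).trans (ν.ok.ty'.fib _ (ν.fam'.ty a ha) _ hk _ ν.z.2).symm
  obtain ⟨sZ, -, E, hE, pZ, tZ⟩ := π₂.zl ν.sm' hA ν.fam'.ab (IsAB.bot (α.in_W _)) (r := ν.r + 1)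
    (fun a ha => ⟨bot_le, by rw [finrank_bot, zero_add, ν.ok.ty'.rk _ (ν.fam'.ty a ha)]⟩) hψ
    (fun a _ => AD.map_ev_le _ _ _)
    (fun a _ => Submodule.map_le_iff_le_comap.2 (AD.ZK_le_ker _ _ ν.z.2)) hZ hz
    fun a v h1 h2 h3 => ν.fam'.transv_up ν.ok.ty' ν.ts' hk ν.z.2 a h1 h2 h3
  rw [kc_of_bot (L := fun _ => ⊥) fun _ _ => rfl, sub_zero] at hE tZ
  have q' : Proj Z ν.F' := hZ.proj.trans π₂.proj
  have ne := ν.ne
  have nb : α.b ≠ ν.b' := fun e => ν.fam'.nb (by rw [ν.hB', e]; exact Finset.mem_singleton_self _)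
  have hc : ν.c = ν.b + ν.b' + α.b + 1 := rfl
  have BZ : Z.B = insert (ν.c + 1) {ν.b'} := by rw [hZ.1, π₂.ps.B, ν.hB']
  have B₁ : π₁.P.B = insert ν.c {ν.b} := by rw [π₁.ps.B, ν.hB]
  have nZ : α.b ∉ Z.B := by simp only [BZ, Finset.mem_insert, Finset.mem_singleton]; omega
  have lin : ∀ a ∈ Z.pts, α.Lin (ν.k + 1) ν.z.1 (ν.U' (restr ν.F'.B a)) (π₂.ln a) := fun a ha =>
    ⟨π₂.le_ln (hZ.2 ha), π₂.ln_le a, π₂.finrank_ln (hZ.2 ha),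
      Submodule.map_le_iff_le_comap.1 ((hz a (hZ.2 ha)).1 ha)⟩
  have spec := fun a ha => ν.ok.rcv_spec ν.hk ν.hd hp hu (ν.fam'.ty _ (q'.map a ha)) (lin a ha)
  obtain ⟨G, A₁, y₁, h₁, r₁, m₁⟩ := ν.gr Z _ q'
    (by simp only [BZ, Finset.mem_insert, Finset.mem_singleton]; omega)
    ⟨nZ, (ν.fam'.pull q' nZ).isAB_rcv ν.ok ν.hk ν.hd hp hu (π₂.isAB_ln.mono hZ) lin,
      fun a ha => (spec a ha).1⟩
  have qG : Proj G ν.F := ⟨by rw [ν.hB, h₁.B]; simp, fun a ha => ((m₁ a).1 ha).1.2.1⟩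
  have md : ∀ a ∈ G.pts, α.Mod (ν.U (restr ν.F.B a)) (ν.U' (restr ν.F'.B a)) ν.z.1 ∧
      π₂.ln a = α.sl (ν.U (restr ν.F.B a)) (ν.U' (restr ν.F'.B a)) (ν.k + 1) ν.z.1 := fun a ha => by
    have h := (spec _ (h₁.proj.map a ha)).2
    rw [← ((m₁ a).1 ha).2.1, restr_restr q'.sub, π₂.ln_restr hZ.1.ge] at h
    exact ⟨h.1, h.2.symm⟩
  obtain ⟨N, A₂, y₂, h₂, r₂, m₂⟩ := π₁.exists_graph qG
    (by simp only [h₁.B, BZ, Finset.mem_insert, Finset.mem_singleton]; omega)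
    (ν.fam'.ab.pull (h₁.proj.trans q')).perp fun a ha =>
      ⟨Submodule.dualAnnihilator_anti (md a ha).1.1, le_top, by
        have e1 := Subspace.finrank_add_finrank_dualAnnihilator_eq (ν.U (restr ν.F.B a))
        have e2 := Subspace.finrank_add_finrank_dualAnnihilator_eq (ν.U' (restr ν.F'.B a))
        have e3 := (md a ha).1.2.1
        change finrank ℂ (Submodule.dualAnnihilator _) = finrank ℂ (Submodule.dualAnnihilator _) + 1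
        omega⟩
  have BN : N.B = {ν.b, ν.b', ν.c, ν.c + 1} := by
    rw [h₂.B, h₁.B, BZ]
    ext
    simp only [Finset.mem_insert, Finset.mem_singleton]
    tauto
  have s₁ : Z.B ⊆ G.B := h₁.proj.sub
  have s₂ : ν.F'.B ⊆ G.B := q'.sub.trans s₁
  have s₃ : π₂.P.B ⊆ G.B := hZ.1 ▸ s₁
  have hN : ν.IsN π₁ π₂ N := ⟨BN, fun a => ⟨fun ha => by
    obtain ⟨⟨k1, k2, -⟩, k3⟩ := (m₂ a).1 ha
    obtain ⟨⟨k4, -⟩, -, k5⟩ := (m₁ _).1 k1
    obtain ⟨k6, k7⟩ := md _ k1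
    rw [restr_restr qG.sub, restr_restr s₂] at k5 k6 k7
    rw [restr_restr s₂] at k3
    rw [restr_restr s₁, hZ.1] at k4
    exact ⟨BN ▸ Sp.restr_eq_iff.1 (N.restr_eq ha), k2, hZ.2 k4, k6, k5, k3,
      (π₂.ln_restr s₃ a).symm.trans k7⟩, fun p => by
    have k1 := π₁.proj.map _ p.m₁
    rw [restr_restr π₁.proj.sub] at k1
    have k2 : restr Z.B a ∈ Z.pts := by
      rw [hZ.1]
      refine (hz _ p.m₂).2 (Submodule.map_le_iff_le_comap.2 ?_)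
      rw [π₂.ln_restr subset_rfl, p.l₂]
      exact (ν.ok.lin_sl (ν.fam.ty _ k1) p.mod hk ν.hd).ker
    refine (m₂ a).2 ⟨⟨(m₁ _).2 ⟨⟨?_, ?_, fun v hv => ?_⟩, ?_, ?_⟩, p.m₁, fun v hv => ?_⟩, ?_⟩
    · rwa [restr_restr s₁]
    · rwa [restr_restr qG.sub]
    · have := (Sp.restr_ne.1 hv).1
      rwa [h₁.B, Finset.insert_eq, Finset.union_comm, ← ν.hB] at this
    · rw [restr_restr qG.sub, restr_restr s₁, restr_restr q'.sub, π₂.ln_restr hZ.1.ge, p.l₂]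
      exact (ν.ok.rcv_sl ν.hk ν.hd hp hu (ν.fam.ty _ k1) p.mod).symm
    · rw [restr_restr qG.sub, restr_restr s₂]
      exact p.e
    · have := p.supp v hv
      simp only [h₁.B, BZ, B₁, Finset.mem_union, Finset.mem_insert, Finset.mem_singleton] at this ⊢
      tauto
    · rw [restr_restr s₂]
      exact p.l₁⟩⟩
  obtain ⟨g₁, g₂⟩ := two_graphs h₁ r₁ h₂ r₂ sZ
  refine ⟨N, hN, ⟨π₂.P, π₂.A, π₂.δ, _, π₂.y, π₂.ps, Z, E, hZ, h₂.proj.trans h₁.proj, π₂.kl, hA, hE,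
    pZ, g₁, rfl⟩, ?_⟩
  rw [g₂, tZ, map_add, map_mul, K.pull_pull, K.pull_pull, K.pull_lbK _ (hZ.1 ▸ π₂.d_mem)]
  rfl
/-- the step on `N` -/
theorem IsN.step (h : ν.IsN π₁ π₂ N) : Step Sg α.b N α.W (fun y => ν.U (restr ν.F.B y))
    (fun y => ν.U' (restr ν.F'.B y)) (fun k y => α.KK (ν.U (restr ν.F.B y)) k)
    (fun k y => α.KK (ν.U' (restr ν.F'.B y)) k) α.e ν.r ν.z.1 :=
  (ν.fam.pull h.pr h.nb).step (ν.fam'.pull h.pr' h.nb) ν.ok ν.z.2 fun y hy => ((h.mem y).1 hy).mod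
/-- `kc_ln`, `kc_perp` -/
theorem IsN.line₁ (h : ν.IsN π₁ π₂ N) :
    K.pull h.pr ν.u - K.pull h.pr' ν.u' = lbK N (eB ν.c - π₁.δ) := by
  have e := congrArg (K.pull h.pr₁) π₁.kc_ln
  rw [map_sub, K.pull_pull, kc_pull π₁.isAB_ln, kc_pull ν.fam.ab.perp,
    K.pull_lbK _ (neg_sub (eB ν.c) π₁.δ ▸ neg_mem π₁.d_mem), kc_congr fun y hy =>
      (π₁.ln_restr subset_rfl y).trans ((h.mem y).1 hy).l₁,
    kc_perp_sub (ν.fam.ab.pull h.pr) (ν.fam'.ab.pull h.pr')] at e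
  rw [u, u', kc_pull ν.fam.ab, kc_pull ν.fam'.ab, ← K.dual_dual (_ - _), e, K.dual_lbK, neg_sub]
/-- `kc_ln`, `Step.socle` -/
theorem IsN.line₂ (h : ν.IsN π₁ π₂ N) :
    K.dual N (K.pull h.pr ν.u - K.pull h.pr' ν.u') = lbK N (eB (ν.c + 1) - π₂.δ) := by
  have e := congrArg (K.pull h.pr₂) π₂.kc_ln
  rw [map_sub, K.pull_pull, kc_pull π₂.isAB_ln, kc_pull (ν.fam'.isAB_ZK ν.ok.ty' ν.hk' ν.z.2),
    K.pull_lbK _ (neg_sub (eB (ν.c + 1)) π₂.δ ▸ neg_mem π₂.d_mem), kc_congr fun y hy =>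
      (π₂.ln_restr subset_rfl y).trans ((h.mem y).1 hy).l₂] at e
  rw [u, u', kc_pull ν.fam.ab, kc_pull ν.fam'.ab, ← (h.step.socle ν.hk' ν.hd).2.2]
  exact (congrArg (K.dual N) e).trans (by rw [K.dual_lbK, neg_sub])

/-- **the nested space** -/
theorem exists_N (ν : ND α) : ∃ (N : Spc) (π : Proj N ν.F) (π' : Proj N ν.F') (L : K N),
    L = K.pull π ν.u - K.pull π' ν.u' ∧ α.b ∉ N.B ∧
    (∀ y ∈ N.pts, α.Mod (ν.U (restr ν.F.B y)) (ν.U' (restr ν.F'.B y)) ν.z.1 ∧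
      ν.E (restr ν.F.B y) (restr ν.F'.B y)) ∧
    ZData N ν.F (K.dual _ ν.u) (K.dual _ ν.s) (ν.r + 2) L ∧
    ZData N ν.F' ν.s' ν.u' ν.r (K.dual N L) ∧
    K.pull π' (tanK ν.F') = K.pull π (tanK ν.F) + L * K.dual N (K.pull π (ν.u - ν.s)) +
      K.dual N L * K.pull π' (ν.u' - ν.s') := by
  obtain ⟨π₁⟩ := ν.exists_P₁
  obtain ⟨π₂⟩ := ν.exists_P₂
  obtain ⟨N, h, z₂, t₂⟩ := exists_down π₁ π₂
  obtain ⟨N', h', z₁, t₁⟩ := exists_up π₁ π₂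
  obtain rfl := h.uniq h'
  refine ⟨N, h.pr, h.pr', _, rfl, h.nb, fun y hy => ⟨((h.mem y).1 hy).mod, ((h.mem y).1 hy).e⟩,
    h.line₁ ▸ z₂, h.line₂ ▸ z₁, ?_⟩
  rw [h.line₂, h.line₁, ← K.pull_dual, map_sub (K.dual _), map_sub (K.pull h.pr')]
  rw [map_sub (K.pull h'.pr')] at t₁
  linear_combination t₂ - t₁
end ND

end Crest.Agent.N265.N
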