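import Crest.Agent.N265.N.PBa

/-!
# Row 265, layer N, task N-PBB: projective bundles of subquotients, basis-free
-/

set_option autoImplicit false
noncomputable section
open MvPolynomial Module

namespace Crest.Agent.N265.N
open Alg GV Bun
variable {X Y : Spc} {V W : GV}

/-- `P` = the space of all `ℓ` with `L' x < ℓ ≤ L x` of colength one, in the block `b` -/
structure PB (X : Spc) (V : GV) (L L' : Pt → Submodule ℂ V.V) (b : ℕ) where
  hL : IsAB X V L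
  hL' : IsAB X V L'
  le : ∀ x ∈ X.pts, L' x ≤ L x
  A : Bun X
  δ : D
  y : A.ι → Var
  P : Spc
  ps : IsPSub P A δ b y
  φ : Pt → V.V →ₗ[ℂ] (co A.deg).V
  rm : IsRM X V (co A.deg) φ
  ker : ∀ x ∈ X.pts, LinearMap.ker (φ x) = L' x
  map : ∀ x ∈ X.pts, (L x).map (φ x) = A.L x
variable {L L' : Pt → Submodule ℂ V.V} {b : ℕ}
/-- `IsAB.exists_sq`, `exists_pres`, `exists_unif`, `exists_pvar`, `exists_psub` -/
theorem exists_PB (hL : IsAB X V L) (hL' : IsAB X V L') (le : ∀ x ∈ X.pts, L' x ≤ L x)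
    (hb : b ∉ X.B) : Nonempty (PB X V L L' b) := by
  obtain ⟨W, φ, hφ, hM, hk, -⟩ := hL.exists_sq hL' le
  obtain ⟨A₀, c, hc, hc'⟩ := hM.exists_pres
  obtain ⟨A, δ, f, hδ, hu, hf, hi⟩ := A₀.exists_unif
  obtain ⟨y, hy⟩ := exists_pvar hδ hu hb
  obtain ⟨P, hP⟩ := hy.exists_psub
  refine ⟨⟨hL, hL', le, A, δ, y, P, hP, fun x => mev x f ∘ₗ c.equivFun.toLinearMap ∘ₗ φ x,
    (isRM_mev hf).comp ((IsRM.const (deg0_equivFun c hc)).comp hφ), fun x hx => ?_,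
    fun x hx => ?_⟩⟩
  · rw [LinearMap.ker_comp_of_ker_eq_bot _ (LinearMap.ker_eq_bot.2 (hi x hx).1),
      LinearMap.ker_comp_of_ker_eq_bot _ c.equivFun.ker, hk x hx]
  · rw [Submodule.map_comp, Submodule.map_comp, ← hc' x hx, (hi x hx).2]

namespace PBb
section LA
variable {E F : Type} [AddCommGroup E] [Module ℂ E] [FiniteDimensional ℂ E] [AddCommGroup F]
  [Module ℂ F] [FiniteDimensional ℂ F] {f : E →ₗ[ℂ] F} {M ℓ : Submodule ℂ E}
lemma finrank_map_add (h : LinearMap.ker f ≤ M) :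
    finrank ℂ (LinearMap.ker f) + finrank ℂ (M.map f) = finrank ℂ M := by
  have := finrank_inf_comap_add M ⊥ f
  rwa [Submodule.comap_bot, inf_eq_right.2 h, sup_bot_eq, finrank_bot, add_zero] at this
omit [FiniteDimensional ℂ E] [FiniteDimensional ℂ F] in
lemma map_inf_comap {S : Submodule ℂ F} (h : S ≤ M.map f) : (M ⊓ S.comap f).map f = S := by
  rw [← Submodule.map_inf_eq_map_inf_comap, inf_eq_right.2 h]
omit [FiniteDimensional ℂ E] [FiniteDimensional ℂ F] in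
lemma inf_comap_map (h : LinearMap.ker f ≤ ℓ) (h' : ℓ ≤ M) : M ⊓ (ℓ.map f).comap f = ℓ := by
  rw [Submodule.comap_map_eq, sup_eq_left.2 h, inf_eq_right.2 h']
lemma eq_span {A : Submodule ℂ E} (h : finrank ℂ A = 1) {v : E} (hv : v ∈ A) (h0 : v ≠ 0) :
    Submodule.span ℂ {v} = A :=
  Submodule.eq_of_le_of_finrank_eq ((Submodule.span_singleton_le_iff_mem _ _).2 hv)
    (by rw [finrank_span_singleton h0, h])
end LA
lemma isAB_unshift {d : D} {L : Pt → Submodule ℂ V.V} (h : IsAB X (V.shift d) L) (hV : V.In X.B) :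
    IsAB X V L := ⟨hV, h.alg, Eqv.of_mem_iff fun x hx v => by
  rw [← h.eqv'.mem_iff hx, shift_g, Submodule.smul_mem_iff _ (chi_ne d)]⟩
lemma basisFun_g {ι : Type} [Fintype ι] [DecidableEq ι] (deg : ι → D) (i : ι) :
    (co deg).g (Pi.basisFun ℂ ι i) = chi (deg i) • Pi.basisFun ℂ ι i := funext fun j => by
  by_cases h : j = i <;> simp [h]
end PBb
open PBb

namespace PB
variable (π : PB X V L L' b)
lemma proj : Proj π.P X := π.ps.proj
/-- the tautological subspace -/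
def ln (z : Pt) : Submodule ℂ V.V := L (restr X.B z) ⊓
  (Submodule.span ℂ {fun i => z (π.y i)}).comap (π.φ (restr X.B z))
lemma b_mem : b ∈ π.P.B := π.ps.B ▸ Finset.mem_insert_self _ _
lemma y_restr {B : Finset ℕ} (h : π.P.B ⊆ B) (z : Pt) :
    (fun i => restr B z (π.y i)) = fun i => z (π.y i) :=
  funext fun i => if_pos (h ((π.ps.blk i).symm ▸ π.b_mem))
lemma ln_restr {B : Finset ℕ} (h : π.P.B ⊆ B) (z : Pt) : π.ln (restr B z) = π.ln z := by
  rw [ln, ln, restr_restr (π.proj.sub.trans h), π.y_restr h]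
lemma y_mem {z : Pt} (hz : z ∈ π.P.pts) : (fun i => z (π.y i)) ∈ π.A.L (restr X.B z) :=
  ((π.ps.mem z).1 hz).2.1
lemma y_ne {z : Pt} (hz : z ∈ π.P.pts) : (fun i => z (π.y i)) ≠ 0 := ((π.ps.mem z).1 hz).2.2.1
lemma span_le {z : Pt} (hz : z ∈ π.P.pts) : Submodule.span ℂ {fun i => z (π.y i)} ≤
    (L (restr X.B z)).map (π.φ (restr X.B z)) := by
  rw [π.map _ (π.proj.map z hz), Submodule.span_singleton_le_iff_mem]
  exact π.y_mem hz
lemma map_ln {z : Pt} (hz : z ∈ π.P.pts) :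
    (π.ln z).map (π.φ (restr X.B z)) = Submodule.span ℂ {fun i => z (π.y i)} :=
  map_inf_comap (π.span_le hz)
lemma ln_le (z : Pt) : π.ln z ≤ L (restr X.B z) := inf_le_left
lemma le_ln {z : Pt} (hz : z ∈ π.P.pts) : L' (restr X.B z) ≤ π.ln z :=
  le_inf (π.le _ (π.proj.map z hz))
    ((π.ker _ (π.proj.map z hz)).ge.trans (LinearMap.ker_le_comap _))
lemma finrank_ln {z : Pt} (hz : z ∈ π.P.pts) :
    finrank ℂ (π.ln z) = finrank ℂ (L' (restr X.B z)) + 1 := by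
  have hk := π.ker _ (π.proj.map z hz)
  rw [← finrank_map_add (hk.le.trans (π.le_ln hz)), hk, π.map_ln hz,
    finrank_span_singleton (π.y_ne hz)]
theorem kl : π.A.kl = kc X V L - kc X V L' := by
  rw [kc_map π.hL π.rm (π.A.isAB.congr fun x hx => (π.map x hx).symm), kc_congr π.map,
    kc_congr fun x hx => (congrArg (L x ⊓ ·) (π.ker x hx)).trans (inf_eq_right.2 (π.le x hx)),
    π.A.kl_eq_kc, add_sub_cancel_left]
theorem rk {a : ℕ} (h : ∀ x ∈ X.pts, finrank ℂ (L x) = finrank ℂ (L' x) + a) : π.A.Rk a :=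
  fun x hx => by
    have := finrank_map_add ((π.ker x hx).le.trans (π.le x hx))
    rw [π.ker x hx, π.map x hx, h x hx] at this
    exact Nat.add_left_cancel this
lemma d_mem : eB b - π.δ ∈ DS π.P.B := sub_mem π.ps.b_mem (DS_mono π.proj.sub π.ps.hδ)
lemma in_A : (co π.A.deg).In π.P.B := in_co fun i => DS_mono π.proj.sub (π.A.hdeg i)
lemma isRV_y : IsRV π.P ((co π.A.deg).shift (eB b - π.δ)) fun z i => z (π.y i) :=
  ⟨regV_iff_poly.2 ⟨fun i => MvPolynomial.X (π.y i), fun _ _ => (eval_X _).symm⟩,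
    fun z _ => π.ps.toPVar.gpt_y z⟩
lemma isAB_span : IsAB π.P (co π.A.deg) fun z => Submodule.span ℂ {fun i => z (π.y i)} :=
  isAB_unshift (V := co π.A.deg) (d := eB b - π.δ)
    (IsAB.span (π.in_A.shift π.d_mem) π.isRV_y fun _ hz => π.y_ne hz) π.in_A
lemma kc_span : kc π.P (co π.A.deg) (fun z => Submodule.span ℂ {fun i => z (π.y i)}) =
    lbK π.P (π.δ - eB b) := by
  have h := N265.kc_span (π.in_A.shift π.d_mem) π.isRV_y fun _ => π.y_ne
  rw [kc_shift π.isAB_span π.d_mem] at h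
  rw [← neg_sub, ← mul_one (lbK _ _), ← h, ← mul_assoc, mul_comm (lbK _ (-_)), lbK_mul_neg, one_mul]
theorem isAB_ln : IsAB π.P V π.ln :=
  (π.hL.pull π.proj).comap_of_surj (π.A.isAB.pull π.proj) π.isAB_span (π.rm.pull π.proj)
    fun z hz => (sup_eq_left.2 (π.span_le hz)).trans (π.map _ (π.proj.map z hz))
theorem kc_ln : kc π.P V π.ln - K.pull π.proj (kc X V L') = lbK π.P (π.δ - eB b) := by
  rw [kc_map π.isAB_ln (π.rm.pull π.proj) (π.isAB_span.congr fun z hz => (π.map_ln hz).symm),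
    kc_congr fun z hz => π.map_ln hz, kc_pull π.hL', π.kc_span, kc_congr fun z hz =>
      (congrArg (π.ln z ⊓ ·) (π.ker _ (π.proj.map z hz))).trans (inf_eq_right.2 (π.le_ln hz)),
    add_sub_cancel_left]
lemma finrank_map {x : Pt} (hx : x ∈ X.pts) {ℓ : Submodule ℂ V.V} (h1 : L' x ≤ ℓ)
    (h3 : finrank ℂ ℓ = finrank ℂ (L' x) + 1) : finrank ℂ (ℓ.map (π.φ x)) = 1 := by
  have := finrank_map_add ((π.ker x hx).le.trans h1)
  rw [π.ker x hx, h3] at this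
  omega
lemma ln_eq {z : Pt} (hx : restr X.B z ∈ X.pts) {ℓ : Submodule ℂ V.V} (h1 : L' (restr X.B z) ≤ ℓ)
    (h2 : ℓ ≤ L (restr X.B z)) (h3 : finrank ℂ ℓ = finrank ℂ (L' (restr X.B z)) + 1)
    (hv : (fun i => z (π.y i)) ∈ ℓ.map (π.φ (restr X.B z))) (h0 : (fun i => z (π.y i)) ≠ 0) :
    π.ln z = ℓ := by
  rw [ln, eq_span (π.finrank_map hx h1 h3) hv h0, inf_comap_map ((π.ker _ hx).le.trans h1) h2]
theorem exists_pt {x : Pt} (hx : x ∈ X.pts) {ℓ : Submodule ℂ V.V} (h1 : L' x ≤ ℓ) (h2 : ℓ ≤ L x)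
    (h3 : finrank ℂ ℓ = finrank ℂ (L' x) + 1) : ∃ z ∈ π.P.pts, restr X.B z = x ∧ π.ln z = ℓ := by
  obtain ⟨v, hv, h0⟩ := (ℓ.map (π.φ x)).ne_bot_iff.1 fun e => by
    have := π.finrank_map hx h1 h3
    rw [e, finrank_bot] at this
    omega
  obtain ⟨z, hz, rfl, rfl⟩ := π.ps.exists_pt hx ((π.map x hx).le (Submodule.map_mono h2 hv)) h0
  exact ⟨z, hz, rfl, π.ln_eq hx h1 h2 h3 hv h0⟩
theorem uniq {z z' : Pt} (hz : z ∈ π.P.pts) (hz' : z' ∈ π.P.pts) (e : restr X.B z = restr X.B z')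
    (h : π.ln z = π.ln z') : ∃ c : ℂ, c ≠ 0 ∧ ∀ v : Var, v.1 = b → z' v = c * z v := by
  have h1 := π.map_ln hz
  rw [h, e, π.map_ln hz'] at h1
  obtain ⟨c, hc⟩ := Submodule.mem_span_singleton.1 (h1.le (Submodule.mem_span_singleton_self _))
  refine ⟨c, fun h0 => π.y_ne hz' (by rw [← hc, h0, zero_smul]), fun v hv => ?_⟩
  by_cases hy : v ∈ Set.range π.y
  · obtain ⟨i, rfl⟩ := hy
    exact (congrFun hc i).symm
  · have : ∀ {u : Pt}, u ∈ π.P.pts → u v = 0 := fun hu => by_contra fun h0 =>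
      (((π.ps.mem _).1 hu).2.2.2 v h0).elim (fun h => π.ps.new (hv ▸ h)) hy
    rw [this hz, this hz', mul_zero]
/-- if `L / L'` is pure then `T` acts trivially (`IsRM.map_part`) -/
theorem ttriv {w : ℕ → ℤ} (hw : X.TTriv w) {k : ℤ}
    (h : ∀ x ∈ X.pts, L x ≤ L' x ⊔ V.part fun d => nwt X.B w d = k) :
    ∃ a : ℤ, π.P.TTriv (Function.update w b a) := by
  refine ⟨k - nwt X.B w π.δ, fun z hz v hv => ?_⟩
  have hx := π.proj.map z hz
  rcases ((π.ps.mem z).1 hz).2.2.2 v hv with h1 | ⟨i, rfl⟩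
  · rw [Function.update_of_ne fun e : v.1 = b => π.ps.new (e ▸ h1)]
    exact hw _ hx v (by rwa [restr, if_pos h1])
  · have h2 := Submodule.map_mono (h _ hx) (π.span_le hz (Submodule.mem_span_singleton_self _))
    rw [Submodule.map_sup, ← π.ker _ hx,
      eq_bot_iff.2 (Submodule.map_le_iff_le_comap.2 (LinearMap.ker_le_comap _)), bot_sup_eq] at h2
    have h3 := (AB4.mem_part_iff _ (basisFun_g π.A.deg)).1
      (π.rm.map_part π.hL.hin π.A.isAB.hin hw (· = k) hx h2) i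
    have h4 : nwt X.B w (π.A.deg i) = k := by_contra fun h => hv (h3 h)
    rw [π.ps.deg i, show nwt X.B w _ = _ from (nwtH X.B w).map_add _ _] at h4
    rw [π.ps.blk i, Function.update_self, ← h4]
    exact (nwt_eT X.B w _).symm.trans (add_sub_cancel_left _ _).symm
/-- a family of lines over `Y → X` gives a graph -/
theorem exists_graph (q : Proj Y X) (hb : b ∉ Y.B) {ℓ : Pt → Submodule ℂ V.V} (hℓ : IsAB Y V ℓ)
    (h : ∀ y ∈ Y.pts, L' (restr X.B y) ≤ ℓ y ∧ ℓ y ≤ L (restr X.B y) ∧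
      finrank ℂ (ℓ y) = finrank ℂ (L' (restr X.B y)) + 1) :
    ∃ (G : Spc) (A₁ : Bun Y) (y₁ : A₁.ι → Var), IsPSub G A₁ π.δ b y₁ ∧ A₁.Rk 1 ∧
      ∀ z, z ∈ G.pts ↔ z ∈ (Y.fib π.P).pts ∧ π.ln z = ℓ (restr Y.B z) := by
  have hd := fun i => DS_mono q.sub (π.A.hdeg i)
  have hr := fun y hy => π.finrank_map (q.map y hy) (h y hy).1 (h y hy).2.2
  have hM := hℓ.map_of_rk (in_co hd) (π.rm.pull q) hr
  have hp : PVar (hM.toBun (Pi.basisFun ℂ π.A.ι) π.A.deg hd (basisFun_g _)) π.δ b π.y :=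
    ⟨hb, DS_mono q.sub π.ps.hδ, π.ps.inj, π.ps.blk, π.ps.deg⟩
  obtain ⟨G, hG⟩ := hp.exists_psub
  have e : ∀ y, (hM.toBun (Pi.basisFun ℂ π.A.ι) π.A.deg hd (basisFun_g _)).L y =
      (ℓ y).map (π.φ (restr X.B y)) := fun y => by
    change Submodule.map _ _ = _
    rw [Pi.basisFun_equivFun]
    exact Submodule.map_id _
  refine ⟨G, _, _, hG, fun y hy => by rw [e]; exact hr y hy, fun z => ?_⟩
  rw [hG.mem, (π.ps.fib q hb).mem, e]
  have e' := restr_restr q.sub z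
  refine ⟨fun ⟨h1, h2, h3, h4⟩ => ?_, fun ⟨⟨h1, h2, h3, h4⟩, h5⟩ => ⟨h1, ?_, h3, h4⟩⟩
  · have hx := q.map _ h1
    obtain ⟨k1, k2, k3⟩ := h _ h1
    refine ⟨⟨h1, (π.map _ hx).le (Submodule.map_mono k2 h2), h3, h4⟩, ?_⟩
    rw [e'] at hx k1 k2 k3 h2
    exact π.ln_eq hx k1 k2 k3 h2 h3
  · have hx := q.map _ h1
    have h6 := (π.map _ hx).ge h2
    rw [← h5]
    rw [e'] at h6 ⊢
    exact (map_inf_comap ((Submodule.span_singleton_le_iff_mem _ _).2 h6)).ge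
      (Submodule.mem_span_singleton_self _)

end PB

end Crest.Agent.N265.N
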