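import Crest.Agent.N265.N.Gam

/-!
# Row 265, layer N, task N-PTRES (auxiliary): `A ⊗ O_S` as regular sections; the line through a point
-/

set_option autoImplicit false
noncomputable section
open MvPolynomial Module

namespace Crest.Agent.N265.N.PR
open Alg GM
variable {S : Spc} {b : ℕ}

/-- a local statement for homogeneous elements at `p` is uniform along the orbit of `p` -/
lemma unif_line {M : GM} {N P : Submodule R M.M} (hN : M.Stab N) (hP : M.Stab P) {p : Pt}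
    (h : ∀ d, ∀ m ∈ N, m ∈ M.gr d → ∃ r : R, eval p r ≠ 0 ∧ r • m ∈ P) {c : ℕ → ℂ}
    (hc : ∀ b, c b ≠ 0) {y : Pt} (hy : ∀ v, y v = c v.1 * p v) :
    ∃ r : R, eval y r ≠ 0 ∧ ∀ m ∈ N, r • m ∈ P := by
  let T : Submodule R M.M :=
    { carrier := {m | ∃ r : R, eval p r ≠ 0 ∧ r • m ∈ P}
      add_mem' := by
        rintro m n ⟨r, hr, h1⟩ ⟨s, hs, h2⟩
        refine ⟨r * s, by simp [hr, hs], ?_⟩
        rw [smul_add]
        refine P.add_mem ?_ ?_
        · rw [mul_comm, mul_smul]; exact P.smul_mem _ h1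
        · rw [mul_smul]; exact P.smul_mem _ h2
      zero_mem' := ⟨1, by simp, by simp⟩
      smul_mem' := by
        rintro a m ⟨r, hr, h1⟩
        exact ⟨r, hr, by rw [smul_comm]; exact P.smul_mem _ h1⟩ }
  obtain ⟨r, hr, h1⟩ := exists_uniform (N := N) P (x := p) fun m hm =>
    mem_of_cp_mem (N := T) fun d => h d _ (hN.cp_mem hm d) (M.cp_mem d m)
  let J : Ideal R :=
    { carrier := {r | ∀ m ∈ N, r • m ∈ P}
      add_mem' := fun ha hb m hm => by rw [add_smul]; exact P.add_mem (ha m hm) (hb m hm)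
      zero_mem' := fun m _ => by rw [zero_smul]; exact P.zero_mem
      smul_mem' := fun a _ ha m hm => by
        rw [smul_eq_mul, mul_smul]; exact P.smul_mem _ (ha m hm) }
  obtain ⟨d, s, hs, h2, h3⟩ := exists_hmg_of_mem (J := J) (fun a ha m hm => by
    obtain ⟨n, rfl⟩ := M.g_surj m
    rw [← LinearMap.map_smulₛₗ]
    exact hP _ (ha n (hN.mem_of_g_mem hm))) h1 hr
  obtain ⟨a, ha, h4⟩ := Sp.exists_eval_bsc hc d
  refine ⟨s, ?_, h2⟩
  rw [show y = Sp.bsc c p from funext hy, h4 s p hs]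
  exact mul_ne_zero ha h3

/-- evaluation of a class modulo the ideal of `S` -/
def evq (S : Spc) (z : S.pts) : (R ⧸ S.I) →+* ℂ :=
  Ideal.Quotient.lift S.I (eval z.1) fun _ hr => hr z.1 z.2
@[simp] lemma evq_mk (z : S.pts) (r : R) : evq S z (Ideal.Quotient.mk S.I r) = eval z.1 r := rfl
lemma evq_smul (z : S.pts) (r : R) (q : R ⧸ S.I) : evq S z (r • q) = eval z.1 r * evq S z q :=
  map_mul (evq S z) (Ideal.Quotient.mk S.I r) q
lemma eq_of_evq {q q' : R ⧸ S.I} (h : ∀ z, evq S z q = evq S z q') : q = q' := by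
  obtain ⟨r, rfl⟩ := Ideal.Quotient.mk_surjective q
  obtain ⟨r', rfl⟩ := Ideal.Quotient.mk_surjective q'
  refine Ideal.Quotient.eq.2 fun z hz => ?_
  rw [map_sub, sub_eq_zero]; exact h ⟨z, hz⟩

variable {A B : Bun S}
/-- the underlying vector of classes -/
def val (u : (A.act (O S)).M) : A.ι → R ⧸ S.I := Subtype.val u
/-- the function of an element of `A ⊗ O_S` -/
def fnOf (u : (A.act (O S)).M) : S.pts → A.ι → ℂ := fun z i => evq S z (val u i)
lemma exists_rep (u : (A.act (O S)).M) : ∃ s : A.ι → R, A.IsSec s ∧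
    ∀ i, val u i = Ideal.Quotient.mk S.I (s i) := by
  choose s hs using fun i => Ideal.Quotient.mk_surjective (val u i)
  refine ⟨s, (A.mem_act_O s).1 ?_, fun i => (hs i).symm⟩
  rw [funext hs]
  exact Subtype.property u
lemma fnOf_inj {u u' : (A.act (O S)).M} (h : fnOf u = fnOf u') : u = u' :=
  Subtype.ext (funext fun i => eq_of_evq fun z => congrFun (congrFun h z) i)
lemma fnOf_zero : fnOf (0 : (A.act (O S)).M) = 0 := funext fun z => funext fun _ => map_zero (evq S z)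
lemma fnOf_smul (r : R) (u : (A.act (O S)).M) :
    fnOf (r • u) = (fun z : S.pts => eval z.1 r) • fnOf u :=
  funext fun z => funext fun i => evq_smul z r (val u i)
lemma fnOf_mem (u : (A.act (O S)).M) : fnOf u ∈ secs S A.L := fun z => by
  obtain ⟨s, hs, e⟩ := exists_rep u
  have : fnOf u z = fun i => eval z.1 (s i) := funext fun i => by rw [fnOf, e, evq_mk]
  rw [this]; exact hs z.1 z.2
lemma regV_fnOf (u : (A.act (O S)).M) : RegV S.fn (fnOf u) := by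
  obtain ⟨s, -, e⟩ := exists_rep u
  exact regV_iff_poly.2 ⟨s, fun z i => by rw [fnOf, e, evq_mk]⟩
lemma exists_fnOf {τ : S.pts → A.ι → ℂ} (h : τ ∈ secs S A.L) (hr : RegV S.fn τ) :
    ∃ u : (A.act (O S)).M, fnOf u = τ := by
  obtain ⟨s, hs⟩ := regV_iff_poly.1 hr
  have h1 : A.IsSec s := fun z hz => by
    rw [← funext (hs ⟨z, hz⟩)]
    exact h ⟨z, hz⟩
  let u : A.actSub (O S) := ⟨_, (A.mem_act_O s).2 h1⟩
  refine ⟨u, funext fun z => funext fun i => ?_⟩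
  rw [hs]
  exact evq_mk z (s i)
lemma fnOf_actMap (f : Matrix B.ι A.ι R) (h) (u : (A.act (O S)).M) :
    fnOf (A.actMap B f h (O S) u) = act S 0 f (fnOf u) := by
  funext z j
  rw [act_apply, zero_add, mev_apply]
  refine (map_sum (evq S z) (fun i => f j i • val u i) Finset.univ).trans ?_
  exact Finset.sum_congr rfl fun i _ => evq_smul z _ _
lemma fnOf_mem_Amb (hS : Base S b) {d : D} {u : (A.act (O S)).M} (hu : u ∈ (A.act (O S)).gr d) :
    fnOf u ∈ Amb S b (sdeg b A.deg) (d (some b)) := fun i => by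
  have h1 := (pw_gr A.deg).1 ((sub_gr (A.stab_actSub (O S))).1 hu) i
  obtain ⟨r, hr, e⟩ := (Oid_gr _ _).1 h1
  have h2 := eval_add_mem_Fn hS hr (x := 0) fun _ _ => rfl
  have h3 : (fun z : S.pts => fnOf u z i) = fun z : S.pts => eval (0 + z.1) r := funext fun z => by
    rw [zero_add]; exact congrArg (evq S z) e.symm
  rw [h3]; exact h2

/-- `LocOnto` for the modules of sections, along the line through `p` -/
lemma locOnto_mod (hS : Base S b) {f : Matrix B.ι A.ι R} (hf : MHmg A.deg B.deg f) (h)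
    {P : Submodule ℂ (S.pts → B.ι → ℂ)} {p : S.pts} (hl : LocOnto S b 0 A.L (sdeg b B.deg) P f p)
    {N : Submodule R (B.act (O S)).M} (hN : (B.act (O S)).Stab N) (hP : ∀ u ∈ N, fnOf u ∈ P)
    {c : ℕ → ℂ} (hc : ∀ b, c b ≠ 0) {y : Pt} (hy : ∀ v, y v = c v.1 * p.1 v) :
    ∃ r : R, eval y r ≠ 0 ∧ ∀ u ∈ N, ∃ a, A.actMap B f h (O S) a = r • u := by
  refine unif_line hN (Bun.deg0_actMap hf h (O S)).stab_range (fun d u hu hd => ?_) hc hy
  obtain ⟨r, hr, h0, τ, h1, h2, e⟩ := hl _ _ (fnOf_mem_Amb hS hd) (hP u hu)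
  obtain ⟨r, rfl⟩ : ∃ s : R, r = fun z => eval z.1 s := hr.imp fun _ h => funext h
  obtain ⟨a, rfl⟩ := exists_fnOf h1 h2
  exact ⟨r, h0, a, fnOf_inj (by rw [fnOf_actMap, fnOf_smul, e])⟩

section orb
variable (hT : S.TTriv fun _ => 0) (p : S.pts) (ε : (A.ι → ℂ) →ₗ[ℂ] ℂ)
/-- `s ↦ ∑ ε(e_i) s_i` restricted to the orbit of `p` -/
def toOrb : (A.act (O S)).M →ₗ[R] (O (S.orb _ hT p.1 p.2)).M :=
  dvRes (S.orb_sub _ hT p.1 p.2) ∘ₗ (∑ i, (C (ε (Pi.single i 1)) : R) •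
    (LinearMap.proj i : (A.ι → R ⧸ S.I) →ₗ[R] R ⧸ S.I)) ∘ₗ (A.actSub (O S)).subtype
lemma evq_toOrb (u : (A.act (O S)).M) (y : (S.orb _ hT p.1 p.2).pts) :
    evq _ y (toOrb hT p ε u) = ε (fnOf u ⟨y.1, (S.orb_sub _ hT p.1 p.2).2 y.2⟩) := by
  have key : ∀ q : R ⧸ S.I, evq _ y (dvRes (S.orb_sub _ hT p.1 p.2) q) =
      evq S ⟨y.1, (S.orb_sub _ hT p.1 p.2).2 y.2⟩ q := fun q => by
    obtain ⟨r, rfl⟩ := Ideal.Quotient.mk_surjective q
    rfl
  refine (key _).trans ?_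
  rw [LinearMap.pi_apply_eq_sum_univ ε]
  change evq S _ ((∑ i, (C (ε (Pi.single i 1)) : R) •
    (LinearMap.proj i : (A.ι → R ⧸ S.I) →ₗ[R] R ⧸ S.I)) (val u)) = _
  rw [LinearMap.sum_apply, map_sum]
  refine Finset.sum_congr rfl fun i _ => ?_
  rw [LinearMap.smul_apply, evq_smul, eval_C, smul_eq_mul, mul_comm]
  congr 2
  funext j
  simp [Pi.single_apply, eq_comm]
lemma deg0_toOrb (h0 : ∀ i, A.deg i = 0) : Deg0 (toOrb hT p ε) := deg0_of_gr fun d u hu => by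
  have h1 := (pw_gr A.deg).1 ((sub_gr (A.stab_actSub (O S))).1 hu)
  refine (deg0_dvRes (S.orb_sub _ hT p.1 p.2)).map_gr ?_
  change (∑ i, (C (ε (Pi.single i 1)) : R) •
    (LinearMap.proj i : (A.ι → R ⧸ S.I) →ₗ[R] R ⧸ S.I)) (val u) ∈ (O S).gr d
  rw [LinearMap.sum_apply]
  refine Submodule.sum_mem _ fun i _ => ?_
  have h2 := (O S).smul_mem_gr (Hmg.C (ε (Pi.single i 1))) (h1 i)
  rwa [h0, add_zero, zero_add] at h2
/-- a homogeneous function on the orbit that vanishes at `p` vanishes -/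
lemma orb_eq_zero {d : D} {q : (O (S.orb _ hT p.1 p.2)).M}
    (hq : q ∈ (O (S.orb _ hT p.1 p.2)).gr d)
    (h : evq _ ⟨p.1, S.self_mem_orb _ hT p.1 p.2⟩ q = 0) : q = 0 := by
  obtain ⟨r, hr, rfl⟩ := (Oid_gr _ _).1 hq
  refine Ideal.Quotient.eq_zero_iff_mem.2 ?_
  rintro y ⟨c, hc, hy⟩
  obtain ⟨a, -, h4⟩ := Sp.exists_eval_bsc hc d
  rw [show y = Sp.bsc c p from funext hy, h4 r p hr, show eval p.1 r = 0 from h, mul_zero]
lemma toOrb_surj (h0 : ∀ i, A.deg i = 0) (hne : ∃ v ∈ A.L p.1, ε v ≠ 0) {x : Pt}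
    (hx : x ∈ S.pts) : ∃ r : R, eval x r ≠ 0 ∧ ∀ q, ∃ u, toOrb hT p ε u = r • q := by
  by_cases ho : x ∈ (S.orb _ hT p.1 p.2).pts
  · obtain ⟨c, hc, hy⟩ := ho
    obtain ⟨v, hv, hε⟩ := hne
    obtain ⟨t, rfl, ht⟩ := A.alg.gen p.1 p.2 v hv
    obtain ⟨u, hu⟩ := exists_fnOf (A := A) (τ := fun z i => eval z.1 (t i)) (fun z => ht z.1 z.2)
      (regV_poly S t)
    obtain ⟨r, hr⟩ := Ideal.Quotient.mk_surjective (I := (S.orb _ hT p.1 p.2).I) (toOrb hT p ε u)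
    have h1 : eval p.1 r ≠ 0 := by
      have := evq_toOrb hT p ε u ⟨p.1, S.self_mem_orb _ hT p.1 p.2⟩
      rw [← hr, evq_mk, hu] at this
      rw [this]; exact hε
    obtain ⟨s, hs, h2⟩ := unif_line stab_top (deg0_toOrb hT p ε h0).stab_range
      (fun d q _ _ => ⟨r, h1, by
        obtain ⟨q, rfl⟩ := Ideal.Quotient.mk_surjective (I := (S.orb _ hT p.1 p.2).I) q
        refine ⟨q • u, ?_⟩
        rw [map_smul, ← hr]
        exact mul_comm (Ideal.Quotient.mk (S.orb _ hT p.1 p.2).I q)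
          (Ideal.Quotient.mk (S.orb _ hT p.1 p.2).I r)⟩) hc hy
    exact ⟨s, hs, fun q => h2 q trivial⟩
  · obtain ⟨r, hr, h⟩ := (red_O (S.orb _ hT p.1 p.2)).on.supp x (S.rel x hx) ho
    exact ⟨r, hr, fun q => ⟨0, by rw [map_zero, h]⟩⟩
end orb

end Crest.Agent.N265.N.PR
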