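import Crest.Agent.N265.N.Push
import Crest.Agent.N265.N.PtRes0
import Crest.Agent.N265.Top.Model

/-!
# Row 265, layer N, task N-PTRES: resolutions of a point of `S`
-/

set_option autoImplicit false
noncomputable section
open MvPolynomial Module

namespace Crest.Agent.N265.N
open Alg GV
variable {S X : Spc} {b : ℕ}

/-- `0 → C₂ → C₁ → C₀ → ℂ_p → 0`, the last map being `σ ↦ ε (σ p)` -/
structure PtRes (S : Spc) (b : ℕ) (p : S.pts) where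
  C₂ : Bun S
  C₁ : Bun S
  C₀ : Bun S
  f : Matrix C₁.ι C₂.ι R
  g : Matrix C₀.ι C₁.ι R
  ε : (C₀.ι → ℂ) →ₗ[ℂ] ℂ
  hf : MHmg C₂.deg C₁.deg f
  hg : MHmg C₁.deg C₀.deg g
  w₂ : ∀ i, C₂.deg i none = 0
  w₁ : ∀ i, C₁.deg i none = 0
  w₀ : ∀ i, C₀.deg i none = 0
  cx : ∀ z ∈ S.pts, (C₂.L z).map (mev z f) ≤ C₁.L z ⊓ LinearMap.ker (mev z g) ∧
    (C₁.L z).map (mev z g) ≤ C₀.L z
  off : ∀ z ∈ S.pts, (∀ c : ℂ, z ≠ c • p.1) →
    (C₂.L z).map (mev z f) = C₁.L z ⊓ LinearMap.ker (mev z g) ∧ (C₁.L z).map (mev z g) = C₀.L z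
  rk : ∀ z ∈ S.pts, finrank ℂ (C₀.L z) + finrank ℂ (C₂.L z) = finrank ℂ (C₁.L z)
  inj : ∀ τ ∈ secs S C₂.L, RegV S.fn τ → act S 0 f τ = 0 → τ = 0
  mid : LocOnto S b 0 C₂.L (sdeg b C₁.deg) (secs S C₁.L ⊓ LinearMap.ker (act S 0 g)) f p
  top : LocOnto S b 0 C₁.L (sdeg b C₀.deg)
    (secs S C₀.L ⊓ LinearMap.ker (ε ∘ₗ LinearMap.proj p)) g p
  eps : (C₁.L p.1).map (mev p.1 g) ≤ LinearMap.ker ε
  ne : ∃ v ∈ C₀.L p.1, ε v ≠ 0

namespace PR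
variable (hS : Base S b) (hb : b ∉ X.B)
/-- `A ⊗ C` on `X × S` -/
abbrev tp (A : Bun (X.fib S)) (C : Bun S) : Bun (X.fib S) := A.tens (C.pull (Spc.fib_snd X S))
/-- `1 ⊗ f` -/
abbrev tm (A : Bun (X.fib S)) {ι κ : Type} (S : Spc) (f : Matrix κ ι R) :
    Matrix (A.ι × κ) (A.ι × ι) R := K3.kr (1 : Matrix A.ι A.ι R) (f.map (kill S.B))
/-- the `i`-th row of a function -/
abbrev row (S : Spc) {α ι : Type} (i : α) : (S.pts → α × ι → ℂ) →ₗ[ℂ] (S.pts → ι → ℂ) :=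
  LinearMap.compLeft (LinearMap.funLeft ℂ ℂ fun k => (i, k)) S.pts
lemma mhmg_tm (A : Bun (X.fib S)) {C C' : Bun S} {f : Matrix C'.ι C.ι R}
    (hf : MHmg C.deg C'.deg f) : MHmg (tp A C).deg (tp A C').deg (tm A S f) :=
  K3.mhmg_kr (MHmg.one A.deg) (B0.mhmg_kill hf S.B)
include hS hb
lemma tp_L (A : Bun (X.fib S)) (C : Bun S) {x z : Pt} (hx : x ∈ X.pts) (hz : z ∈ S.pts) :
    (tp A C).L (x + z) = B0.tensS (A.L (x + z)) (C.L z) := by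
  change B0.tensS _ (C.L (restr S.B (x + z))) = _
  rw [(Spc.add_mem_fib (hS.disj hb) hx hz).2.2]
lemma mem_tp (A : Bun (X.fib S)) (C : Bun S) {x z : Pt} (hx : x ∈ X.pts) (hz : z ∈ S.pts)
    {u : A.ι × C.ι → ℂ} : u ∈ (tp A C).L (x + z) ↔
      (∀ k, (fun i => u (i, k)) ∈ A.L (x + z)) ∧ ∀ i, (fun k => u (i, k)) ∈ C.L z := by
  rw [← B0.mem_tensS, ← tp_L hS hb A C hx hz]
  rfl
lemma mev_tm (A : Bun (X.fib S)) {ι κ : Type} [Fintype ι] (f : Matrix κ ι R) {x z : Pt}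
    (hx : x ∈ X.pts) (hz : z ∈ S.pts) : mev (x + z) (tm A S f) = B0.rowMap A.ι (mev z f) := by
  have := B0.mev_kron_one (μ := A.ι) (x + z) (f.map (kill S.B))
  rwa [B0.mev_kill, (Spc.add_mem_fib (hS.disj hb) hx hz).2.2] at this
lemma row_act (A : Bun (X.fib S)) {ι κ : Type} [Fintype ι] (f : Matrix κ ι R) {x : Pt}
    (hx : x ∈ X.pts) (σ : S.pts → A.ι × ι → ℂ) (i : A.ι) :
    row S i (act S x (tm A S f) σ) = act S 0 f (row S i σ) := by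
  funext z k
  change mev (x + z.1) (tm A S f) (σ z) (i, k) = mev (0 + z.1) f _ k
  rw [mev_tm hS hb A f hx z.2, zero_add]
  rfl
lemma row_secs (A : Bun (X.fib S)) (C : Bun S) {x : Pt} (hx : x ∈ X.pts)
    {σ : S.pts → A.ι × C.ι → ℂ} (h : σ ∈ secs S fun z => (tp A C).L (x + z)) (i : A.ι) :
    row S i σ ∈ secs S C.L := fun z => ((mem_tp hS hb A C hx z.2).1 (h z)).2 i
lemma dpr_deg {C : Bun S} (w : ∀ i, C.deg i none = 0) (i : C.ι) : dpr X.B (C.deg i) = 0 := by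
  ext j
  rw [dpr_apply]
  split_ifs with h1
  · rcases j with _ | c
    · exact w i
    · exact C.hdeg i c (Finset.disjoint_left.1 (hS.disj hb) (h1 c rfl))
  · rfl
lemma map_gamG {E E' : Bun (X.fib S)} {f : Matrix E'.ι E.ι R} (hf : MHmg E.deg E'.deg f) {x : Pt}
    (hx : x ∈ X.pts) {j : ℤ} {P : Submodule ℂ (S.pts → E'.ι → ℂ)}
    (h : (gam E b j x).map (act S x f) = Amb S b (sdeg b E'.deg) j ⊓ P) :
    (gamG E b j x).map (actG hS hb hf j x) = P.comap (Amb S b (sdeg b E'.deg) j).subtype := by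
  refine le_antisymm ?_ fun σ hσ => ?_
  · rintro _ ⟨τ, hτ, rfl⟩
    have h1 : act S x f τ.1 ∈ Amb S b (sdeg b E'.deg) j ⊓ P := h ▸ ⟨τ.1, hτ, rfl⟩
    rw [← actG_val hS hb hf j hx] at h1
    exact h1.2
  · obtain ⟨τ, hτ, e⟩ : σ.1 ∈ (gam E b j x).map (act S x f) := h ▸ ⟨σ.2, hσ⟩
    exact ⟨⟨τ, hτ.1⟩, hτ, Subtype.ext ((actG_val hS hb hf j hx _).trans e)⟩
lemma map_tp (A : Bun (X.fib S)) {C C' : Bun S} (f : Matrix C'.ι C.ι R) {x z : Pt}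
    (hx : x ∈ X.pts) (hz : z ∈ S.pts) : ((tp A C).L (x + z)).map (mev (x + z) (tm A S f)) =
      B0.tensS (A.L (x + z)) ((C.L z).map (mev z f)) := by
  rw [← B0.map_tensS, ← tp_L hS hb A C hx hz, ← mev_tm hS hb A f hx hz]
lemma ker_tp (A : Bun (X.fib S)) {C C' : Bun S} (f : Matrix C'.ι C.ι R) {x z : Pt}
    (hx : x ∈ X.pts) (hz : z ∈ S.pts) :
    (tp A C).L (x + z) ⊓ LinearMap.ker (mev (x + z) (tm A S f)) =
      B0.tensS (A.L (x + z)) (C.L z ⊓ LinearMap.ker (mev z f)) := by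
  rw [← B0.tensS_inf_ker, ← tp_L hS hb A C hx hz, ← mev_tm hS hb A f hx hz]
  rfl
omit hS hb
lemma finrank_ker_add {V W : Type} [AddCommGroup V] [Module ℂ V] [AddCommGroup W] [Module ℂ W]
    (U : Submodule ℂ V) [FiniteDimensional ℂ U] (φ : V →ₗ[ℂ] W) {N : Submodule ℂ W}
    (e : U.map φ = N) :
    finrank ℂ (U ⊓ LinearMap.ker φ : Submodule ℂ _) + finrank ℂ N = finrank ℂ U := by
  have h := LinearMap.finrank_range_add_finrank_ker (φ.domRestrict U)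
  rw [LinearMap.range_domRestrict, LinearMap.ker_domRestrict,
    ← Submodule.finrank_map_subtype_eq, Submodule.map_comap_subtype, e] at h
  omega
lemma tensS_mono {ι κ : Type} [Fintype ι] [Fintype κ] (U : Submodule ℂ (ι → ℂ))
    {W W' : Submodule ℂ (κ → ℂ)} (h : W ≤ W') : B0.tensS U W ≤ B0.tensS U W' := fun _ hu =>
  B0.mem_tensS.2 ⟨(B0.mem_tensS.1 hu).1, fun i => h ((B0.mem_tensS.1 hu).2 i)⟩
/-- `1 ⊗ ε` -/
def col (α : Type) {ι : Type} (ε : (ι → ℂ) →ₗ[ℂ] ℂ) : (α × ι → ℂ) →ₗ[ℂ] (α → ℂ) :=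
  LinearMap.pi fun i => ε ∘ₗ LinearMap.funLeft ℂ ℂ fun k => (i, k)
lemma col_apply {α ι : Type} (ε : (ι → ℂ) →ₗ[ℂ] ℂ) (u : α × ι → ℂ) (i : α) :
    col α ε u i = ε fun k => u (i, k) := rfl
lemma map_col {α ι : Type} [Fintype α] [Fintype ι] (ε : (ι → ℂ) →ₗ[ℂ] ℂ) (U : Submodule ℂ (α → ℂ))
    {W : Submodule ℂ (ι → ℂ)} (h : ∃ v ∈ W, ε v ≠ 0) : (B0.tensS U W).map (col α ε) = U := by
  have key : ∀ (a : α → ℂ) (v : ι → ℂ), col α ε (fun q => a q.1 * v q.2) = ε v • a := fun a v => by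
    funext i
    rw [col_apply, Pi.smul_apply, smul_eq_mul, mul_comm]
    exact ε.map_smul (a i) v
  refine le_antisymm (Submodule.map_le_iff_le_comap.2 (Submodule.span_le.2 ?_)) fun a ha => ?_
  · rintro _ ⟨a, ha, v, -, rfl⟩
    rw [SetLike.mem_coe, Submodule.mem_comap, key]
    exact U.smul_mem _ ha
  · obtain ⟨v, hv, h0⟩ := h
    refine ⟨_, Submodule.subset_span ⟨(ε v)⁻¹ • a, U.smul_mem _ ha, v, hv, rfl⟩, ?_⟩
    rw [key, smul_smul, mul_inv_cancel₀ h0, one_smul]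
lemma _root_.Crest.Agent.N265.N.LocOnto.mono {ι κ : Type} [Fintype ι] {x : Pt}
    {L : Pt → Submodule ℂ (ι → ℂ)} {c : κ → ℤ} {P P' : Submodule ℂ (S.pts → κ → ℂ)}
    {f : Matrix κ ι R} {z : S.pts} (h : LocOnto S b x L c P f z) (hP : P' ≤ P) :
    LocOnto S b x L c P' f z := fun j σ h1 h2 => h j σ h1 (hP h2)
end PR
open PR

namespace PtRes
variable {p : S.pts} (ρ : PtRes S b p)
/-- the class of the point -/
def cls : K S := ρ.C₀.kl - ρ.C₁.kl + ρ.C₂.kl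

/-- tensoring a locally onto map on `S` with a bundle `A` on `X × S`: apply `h` to the components
of `σ`, then a local projector onto `A` -/
lemma _root_.Crest.Agent.N265.N.LocOnto.tens (hS : Base S b) (hb : b ∉ X.B) (A : Bun (X.fib S))
    {C C' : Bun S} {f : Matrix C'.ι C.ι R} {P : Submodule ℂ (S.pts → C'.ι → ℂ)} {z : S.pts}
    (h : LocOnto S b 0 C.L (sdeg b C'.deg) P f z) {x : Pt} (hx : x ∈ X.pts) :
    LocOnto S b x (fun z => (A.tens (C.pull (Spc.fib_snd X S))).L (x + z))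
      (sdeg b (A.tens (C'.pull (Spc.fib_snd X S))).deg)
      (secs S (fun z => (A.tens (C'.pull (Spc.fib_snd X S))).L (x + z)) ⊓
        ⨅ i : A.ι, P.comap (LinearMap.compLeft (LinearMap.funLeft ℂ ℂ fun k => (i, k)) S.pts))
      (K3.kr (1 : Matrix A.ι A.ι R) (f.map (kill S.B))) z := by
  classical
  intro j (σ : S.pts → A.ι × C'.ι → ℂ) hσ hP
  have h1 : ∀ i : A.ι, row S i σ ∈ Amb S b (sdeg b C'.deg) (j + A.deg i (some b)) := fun i k => by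
    have := hσ (i, k)
    rw [add_assoc]
    exact this
  choose r hr h0 τ h2 h3 h4 using fun i : A.ι =>
    h _ _ (h1 i) ((Submodule.mem_iInf _).1 hP.2 i)
  obtain ⟨s, Q, hs, hQ⟩ := A.alg _ (hS.add_mem hb hx z.2)
  let τ' : A.ι → S.pts → C.ι → ℂ := fun i => (∏ k ∈ Finset.univ.erase i, r k) • τ i
  have h5 : ∀ i, act S 0 f (τ' i) = (∏ k, r k) • row S i σ := fun i => by
    rw [act_smul, h4, smul_smul, Finset.prod_erase_mul _ _ (Finset.mem_univ i)]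
  let τ₀ : S.pts → A.ι × C.ι → ℂ := fun y q => ∑ i, eval (x + y.1) (Q q.1 i) * τ' i y q.2
  have h6 : ∀ i, row S i τ₀ = ∑ k, (fun y : S.pts => eval (x + y.1) (Q i k)) • τ' k := fun i => by
    funext y l
    simp [τ₀, Finset.sum_apply]
  refine ⟨(fun y : S.pts => eval (x + y.1) s) * ∏ k, r k,
    mul_mem (eval_add_mem_fn x s) (prod_mem fun k _ => hr k), ?_, τ₀, fun y => ?_, ?_, ?_⟩
  · rw [Pi.mul_apply, Finset.prod_apply]
    exact mul_ne_zero hs (Finset.prod_ne_zero_iff.2 fun k _ => h0 k)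
  · refine (mem_tp hS hb A C hx y.2).2
      ⟨fun k => (hQ _ (hS.add_mem hb hx y.2)).1 fun i => τ' i y k, fun i => ?_⟩
    have : (fun k => τ₀ y (i, k)) = ∑ k, eval (x + y.1) (Q i k) • τ' k y := by
      funext l; simp [τ₀, Finset.sum_apply]
    rw [this]
    exact sum_mem fun k _ => Submodule.smul_mem _ _ (Submodule.smul_mem _ _ (h2 k y))
  · refine regV_pi.2 fun q => fsum_mem _ fun i _ => fmul_mem (eval_add_mem_fn x _) ?_
    exact regV_pi.1 ((h3 i).smul (prod_mem fun k _ => hr k)) q.2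
  · suffices H : act S x (tm A S f) τ₀ =
        ((fun y : S.pts => eval (x + y.1) s) * ∏ k, r k) • σ from H
    funext y ⟨i, k⟩
    have h7 := congrFun (congrFun (row_act hS hb A f hx τ₀ i) y) k
    refine h7.trans ?_
    have h8 := (mem_tp hS hb A C' hx y.2).1 (hP.1 y)
    have h9 := congrFun ((hQ _ (hS.add_mem hb hx y.2)).2 _ (h8.1 k)) i
    change _ = (eval (x + y.1) s * (∏ k, r k) y) * σ y (i, k)
    rw [h6, map_sum]
    simp only [act_smul, h5, Finset.sum_apply, Pi.smul_apply', Pi.smul_apply, smul_eq_mul,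
      mev_apply] at h9 ⊢
    rw [mul_comm (eval _ s), mul_assoc, ← h9, Finset.mul_sum]
    exact Finset.sum_congr rfl fun l _ => mul_left_comm _ _ _

section
variable (hS : Base S b) (hb : b ∉ X.B) (A : Bun (X.fib S))
include hS hb
lemma cx_tp : ∀ y ∈ (X.fib S).pts, ((tp A ρ.C₂).L y).map (mev y (tm A S ρ.f)) ≤
    (tp A ρ.C₁).L y ⊓ LinearMap.ker (mev y (tm A S ρ.g)) ∧
    ((tp A ρ.C₁).L y).map (mev y (tm A S ρ.g)) ≤ (tp A ρ.C₀).L y := fun y hy => by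
  obtain ⟨x, hx, z, hz, rfl⟩ := (Spc.mem_fib_iff_add (hS.disj hb)).1 hy
  exact ⟨(map_tp hS hb A ρ.f hx hz).trans_le ((tensS_mono _ (ρ.cx z hz).1).trans
      (ker_tp hS hb A ρ.g hx hz).ge),
    (map_tp hS hb A ρ.g hx hz).trans_le ((tensS_mono _ (ρ.cx z hz).2).trans
      (tp_L hS hb A ρ.C₀ hx hz).ge)⟩
/-- evaluation at `p` followed by `1 ⊗ ε` -/
def evE : (S.pts → A.ι × ρ.C₀.ι → ℂ) →ₗ[ℂ] (A.ι → ℂ) := col A.ι ρ.ε ∘ₗ LinearMap.proj p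
lemma onto_mid : ∃ j₀ : ℤ, ∀ j ≥ j₀, ∀ x ∈ X.pts,
    (gam (tp A ρ.C₂) b j x).map (act S x (tm A S ρ.f)) = Amb S b (sdeg b (tp A ρ.C₁).deg) j ⊓
      (secs S (fun z => (tp A ρ.C₁).L (x + z)) ⊓ LinearMap.ker (act S x (tm A S ρ.g))) := by
  refine gam_onto hS hb (E := tp A ρ.C₂) (mhmg_tm A ρ.hf) (fun x _ r _ σ hσ => ⟨fun z =>
    Submodule.smul_mem _ _ (hσ.1 z), ?_⟩) (fun x hx τ hτ _ => ⟨fun z => ?_, funext fun z => ?_⟩)
    (fun x hx z => ?_) ?_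
  · exact (act_smul x _ r σ).trans ((congrArg (r • ·) hσ.2).trans (smul_zero r))
  · exact ((ρ.cx_tp hS hb A _ (hS.add_mem hb hx z.2)).1 ⟨_, hτ z, rfl⟩).1
  · exact ((ρ.cx_tp hS hb A _ (hS.add_mem hb hx z.2)).1 ⟨_, hτ z, rfl⟩).2
  · by_cases hz : ∃ c : ℂ, z.1 = c • p.1
    · obtain ⟨c, hc⟩ := hz
      refine LocOnto.smul hS hb (E := tp A ρ.C₂) (mhmg_tm A ρ.hf) hx ?_ hc
      refine (LocOnto.tens hS hb A ρ.mid hx).mono fun σ hσ =>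
        ⟨hσ.1, (Submodule.mem_iInf _).2 fun i => ⟨row_secs hS hb A _ hx hσ.1 i, ?_⟩⟩
      refine (row_act hS hb A ρ.g hx σ i).symm.trans ?_
      rw [show act S x (tm A S ρ.g) σ = 0 from hσ.2, map_zero]
    · push Not at hz
      refine locOnto_of_exact hS hb (A := tp A ρ.C₂) (B := tp A ρ.C₁) (C := tp A ρ.C₀) _ _
        (ρ.cx_tp hS hb A) hx ?_
      refine (map_tp hS hb A ρ.f hx z.2).trans (Eq.trans ?_ (ker_tp hS hb A ρ.g hx z.2).symm)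
      rw [(ρ.off z.1 z.2 hz).1]
  · refine (finEv_gam_ker hS hb (tp A ρ.C₁) (c := (tp A ρ.C₀).deg) (mhmg_tm A ρ.hg)).congr
      (j₀ := 0) fun x _ j _ => ?_
    exact congrArg (fun U : Submodule ℂ _ => (finrank ℂ U : ℤ)) (inf_assoc _ _ _)
lemma onto_pt : ∃ j₀ : ℤ, ∀ j ≥ j₀, ∀ x ∈ X.pts,
    (gam (tp A ρ.C₀) b j x).map (ρ.evE A) = A.L (x + p.1) := by
  obtain ⟨j₀, h⟩ := gam_eval_surj hS hb (tp A ρ.C₀) p
  refine ⟨j₀, fun j hj x hx => ?_⟩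
  have h1 := (h j hj x hx).trans (tp_L hS hb A ρ.C₀ hx p.2)
  rw [← map_col ρ.ε (A.L (x + p.1)) ρ.ne, ← h1]
  exact Submodule.map_comp _ _ _
lemma onto_top : ∃ j₀ : ℤ, ∀ j ≥ j₀, ∀ x ∈ X.pts,
    (gam (tp A ρ.C₁) b j x).map (act S x (tm A S ρ.g)) = Amb S b (sdeg b (tp A ρ.C₀).deg) j ⊓
      (secs S (fun z => (tp A ρ.C₀).L (x + z)) ⊓ LinearMap.ker (ρ.evE A)) := by
  refine gam_onto hS hb (E := tp A ρ.C₁) (mhmg_tm A ρ.hg) (fun x _ r _ σ hσ => ⟨fun z =>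
    Submodule.smul_mem _ _ (hσ.1 z), ?_⟩) (fun x hx τ hτ _ => ⟨fun z => ?_, funext fun i => ?_⟩)
    (fun x hx z => ?_) ?_
  · refine ((col A.ι ρ.ε).map_smul (r p) (σ p)).trans ?_
    rw [show col A.ι ρ.ε (σ p) = 0 from hσ.2, smul_zero]
  · exact (ρ.cx_tp hS hb A _ (hS.add_mem hb hx z.2)).2 ⟨_, hτ z, rfl⟩
  · refine (congrArg ρ.ε (congrFun (row_act hS hb A ρ.g hx τ i) p)).trans (ρ.eps ?_)
    rw [act_apply, zero_add]
    exact ⟨_, row_secs hS hb A _ hx hτ i p, rfl⟩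
  · by_cases hz : ∃ c : ℂ, z.1 = c • p.1
    · obtain ⟨c, hc⟩ := hz
      refine LocOnto.smul hS hb (E := tp A ρ.C₁) (mhmg_tm A ρ.hg) hx ?_ hc
      exact (LocOnto.tens hS hb A ρ.top hx).mono fun σ hσ =>
        ⟨hσ.1, (Submodule.mem_iInf _).2 fun i => ⟨row_secs hS hb A _ hx hσ.1 i,
          congrFun (show ρ.evE A σ = 0 from hσ.2) i⟩⟩
    · push Not at hz
      refine (locOnto_of_surj hS hb (A := tp A ρ.C₁) (B := tp A ρ.C₀) _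
        (fun y hy => (ρ.cx_tp hS hb A y hy).2) hx ?_).mono inf_le_left
      refine (map_tp hS hb A ρ.g hx z.2).trans (Eq.trans ?_ (tp_L hS hb A ρ.C₀ hx z.2).symm)
      rw [(ρ.off z.1 z.2 hz).2]
  · obtain ⟨j₀, h⟩ := ρ.onto_pt hS hb A
    refine ((finEv_gam hS hb (tp A ρ.C₀)).sub (.of_lc
      (B0.lc_cast (A.atPt (hS.disj hb) hS.tt p.1 p.2).alg.lc))).congr (j₀ := j₀)
      fun x hx j hj => ?_
    have h1 := finrank_ker_add (gam (tp A ρ.C₀) b j x) (ρ.evE A) (h j hj x hx)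
    refine Eq.trans ?_ (congrArg (fun U : Submodule ℂ _ => (finrank ℂ U : ℤ)) (inf_assoc _ _ _))
    exact (eq_sub_of_add_eq (by exact_mod_cast h1)).symm
end

/-- `0 → Γ_j(A C₂) → Γ_j(A C₁) → Γ_j(A C₀) → A_p → 0` is exact for `j ≫ 0` uniformly
(`gam_onto`, `gam_eval_surj`, `kq4`) -/
theorem gamK_eq (hS : Base S b) (hb : b ∉ X.B) (A : Bun (X.fib S)) : ∃ j₀ : ℤ, ∀ j ≥ j₀,
    gamK (A.tens (ρ.C₀.pull (Spc.fib_snd X S))) b j - gamK (A.tens (ρ.C₁.pull (Spc.fib_snd X S))) b j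
      + gamK (A.tens (ρ.C₂.pull (Spc.fib_snd X S))) b j =
      (A.atPt (hS.disj hb) hS.tt p.1 p.2).kl := by
  obtain ⟨j₁, h₁⟩ := ρ.onto_mid hS hb A
  obtain ⟨j₂, h₂⟩ := ρ.onto_top hS hb A
  obtain ⟨j₃, h₃⟩ := ρ.onto_pt hS hb A
  obtain ⟨k₀, a₀⟩ := isAB_gamG hS hb (tp A ρ.C₀)
  obtain ⟨k₁, a₁⟩ := isAB_gamG hS hb (tp A ρ.C₁)
  obtain ⟨k₂, a₂⟩ := isAB_gamG hS hb (tp A ρ.C₂)
  refine ⟨max (max j₁ (max j₂ j₃)) (max k₀ (max k₁ k₂)), fun j hj => ?_⟩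
  simp only [ge_iff_le, max_le_iff] at hj
  obtain ⟨⟨e₁, e₂, e₃⟩, f₀, f₁, f₂⟩ := hj
  let Ap := A.atPt (hS.disj hb) hS.tt p.1 p.2
  let χ : (AmbG X S b (tp A ρ.C₀).deg j).V →ₗ[ℂ] (co Ap.deg).V :=
    ρ.evE A ∘ₗ (Amb S b (sdeg b (tp A ρ.C₀).deg) j).subtype
  have hχ : Deg0 (AmbG X S b (tp A ρ.C₀).deg j) (co Ap.deg) χ := fun σ => funext fun i => by
    refine Eq.trans (congrArg ρ.ε (funext fun k => ?_))
      (ρ.ε.map_smul (chi (dpr X.B (A.deg i))) fun k => σ.1 p (i, k))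
    change chi (dpr X.B (A.deg i + ρ.C₀.deg k)) * _ = _
    rw [map_add, dpr_deg hS hb ρ.w₀, add_zero]
    rfl
  have key := kq4 (a₂ j f₂) (.bot (in_AmbG _ _)) (a₁ j f₁) (.bot (in_AmbG _ _)) (a₀ j f₀)
    (.bot (in_AmbG _ _)) Ap.isAB (.bot Ap.isAB.hin)
    (isRM_actG hS hb (tp A ρ.C₂).hdeg (tp A ρ.C₁).hdeg (mhmg_tm A ρ.hf) j)
    (isRM_actG hS hb (tp A ρ.C₁).hdeg (tp A ρ.C₀).hdeg (mhmg_tm A ρ.hg) j) (.const hχ)
    fun x hx => ⟨?_, ?_, ?_, ?_⟩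
  · simp only [kc_of_bot (L := fun _ => ⊥) fun _ _ => rfl, sub_zero] at key
    rw [Ap.kl_eq_kc, sub_add_eq_add_sub, add_comm, sub_eq_iff_eq_add']
    exact key
  · refine eq_bot_iff.2 fun σ hσ => Subtype.ext (funext fun z => funext fun q => ?_)
    have h0 : act S x (tm A S ρ.f) σ.1 = 0 :=
      (actG_val hS hb (mhmg_tm A ρ.hf) j hx σ).symm.trans (congrArg Subtype.val hσ.2)
    have h1 := ρ.inj (row S q.1 σ.1) (row_secs hS hb A _ hx hσ.1.2 q.1)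
      ((regV_of_Amb σ.2).map (LinearMap.funLeft ℂ ℂ fun k => (q.1, k)))
      ((row_act hS hb A ρ.f hx σ.1 q.1).symm.trans (by rw [h0, map_zero]))
    exact congrFun (congrFun h1 z) q.2
  · rw [SqEx, sup_bot_eq, map_gamG hS hb (mhmg_tm A ρ.hf) hx (h₁ j e₁ x hx)]
    refine Submodule.ext fun σ => and_congr mem_gamG.symm ?_
    refine Iff.trans ?_ Subtype.ext_iff.symm
    rw [actG_val hS hb (mhmg_tm A ρ.hg) j hx σ]
    rfl
  · rw [SqEx, sup_bot_eq, map_gamG hS hb (mhmg_tm A ρ.hg) hx (h₂ j e₂ x hx)]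
    exact Submodule.ext fun σ => and_congr mem_gamG.symm Iff.rfl
  · rw [SqSurj, sup_bot_eq]
    refine (Submodule.map_comp _ _ _).trans (Eq.trans (congrArg _ ?_) (h₃ j e₃ x hx))
    exact (Submodule.map_comap_subtype _ _).trans (inf_eq_right.2 inf_le_left)
/-- **push-forward of `u · [O_p]` is the restriction to `X × {p}`** (`Base.ext_big`) -/
theorem piK_mul_cls (hS : Base S b) (hb : b ∉ X.B) (u : K (X.fib S)) :
    piK X S b (u * K.pull (Spc.fib_snd X S) ρ.cls) = K.atPt (hS.disj hb) hS.tt p.1 p.2 u := by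
  refine DFunLike.congr_fun (hS.ext_big
    (φ := (piK X S b).comp (AddMonoidHom.mulRight (K.pull (Spc.fib_snd X S) ρ.cls)))
    (ψ := (K.atPt (hS.disj hb) hS.tt p.1 p.2).toAddMonoidHom) fun E => ?_) u
  obtain ⟨j₀, h⟩ := ρ.gamK_eq hS hb E
  obtain ⟨k₀, a₀⟩ := piK_big hS hb (tp E ρ.C₀)
  obtain ⟨k₁, a₁⟩ := piK_big hS hb (tp E ρ.C₁)
  obtain ⟨k₂, a₂⟩ := piK_big hS hb (tp E ρ.C₂)
  refine ⟨max j₀ (max k₀ (max k₁ k₂)), fun j hj => ?_⟩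
  simp only [ge_iff_le, max_le_iff] at hj
  obtain ⟨e, f₀, f₁, f₂⟩ := hj
  have h1 : lbK X (j • eB b) = 1 := by
    have : dpr X.B (j • eB b) = dpr X.B 0 := by
      rw [hS.dpr_eq hb (hS.eB_mem j), map_zero]
      simp [eB]
    rw [← lbK_zero, lbK, lbK, Bun.line, Bun.line]
    simp only [this]
  change piK X S b (_ * _ * _) = K.atPt (hS.disj hb) hS.tt p.1 p.2 (_ * _)
  rw [map_mul (K.atPt _ _ _ _), K.atPt_lbK, h1, one_mul, K.atPt_kl, ← h j e, ← a₀ j f₀, ← a₁ j f₁, ← a₂ j f₂,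
    ← map_sub, ← map_add, cls, map_add, map_sub, K.pull_kl, K.pull_kl, K.pull_kl, kl_tens, kl_tens,
    kl_tens]
  congr 1
  ring
theorem atPt_cls (hS : Base S b) (hb : b ∉ X.B) (q : Pt) (hq : q ∈ S.pts) :
    K.atPt (hS.disj hb) hS.tt q hq (K.pull (Spc.fib_snd X S) ρ.cls) = 0 := by
  rw [cls, map_add, map_sub, map_add, map_sub,
    K.atPt_pull_snd _ _ _ _ _ fun i => by simpa using ρ.w₀ i,
    K.atPt_pull_snd _ _ _ _ _ fun i => by simpa using ρ.w₁ i,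
    K.atPt_pull_snd _ _ _ _ _ fun i => by simpa using ρ.w₂ i, ← ρ.rk q hq]
  push_cast
  ring
/-- the class acts as the point (`kl_smul`, `Bun.mem_act_O`, `cl_cx` / `cl_locSES`; the cokernel maps
to `O(orb)` by `s ↦ ∑ ε(e_i) s_i`) -/
theorem cls_smul_one (hS : Base S b) (h0 : ∀ i, ρ.C₀.deg i = 0) :
    ρ.cls • one S = Top.ptc S hS.tt p.1 p.2 := by
  have hO := GM.red_O S
  have m₁ : ∀ x ∈ S.pts, ∀ v ∈ ρ.C₂.L x, mev x ρ.f v ∈ ρ.C₁.L x := fun x hx v hv =>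
    ((ρ.cx x hx).1 ⟨v, hv, rfl⟩).1
  have m₀ : ∀ x ∈ S.pts, ∀ v ∈ ρ.C₁.L x, mev x ρ.g v ∈ ρ.C₀.L x := fun x hx v hv =>
    (ρ.cx x hx).2 ⟨v, hv, rfl⟩
  have dF := Bun.deg0_actMap ρ.hf m₁ (GM.O S)
  have dG := Bun.deg0_actMap ρ.hg m₀ (GM.O S)
  have dπ := deg0_toOrb hS.tt p ρ.ε h0
  have hπ : ∀ a, toOrb hS.tt p ρ.ε (ρ.C₁.actMap ρ.C₀ ρ.g m₀ (GM.O S) a) = 0 := fun a => by
    induction a using GM.gr_ind with
    | h d a ha =>
      refine orb_eq_zero hS.tt p (dπ.map_gr (dG.map_gr ha)) ?_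
      rw [evq_toOrb, fnOf_actMap, act_apply, zero_add]
      exact ρ.eps ⟨_, fnOf_mem a p, rfl⟩
    | ha a a' h h' => rw [map_add, map_add, h, h', add_zero]
  have c₀ := cl_locSES (X := S) (A := (ρ.C₀.act (GM.O S)).sub _ dπ.stab_ker)
    ⟨_, _, GM.deg0_subtype dπ.stab_ker, dπ, fun a => a.2, fun x hx =>
      (toOrb_surj hS.tt p ρ.ε h0 ρ.ne hx).imp fun r hr => ⟨hr.1, fun a ha => by
        rw [show a = 0 from Subtype.ext ha, smul_zero], fun a ha => ⟨r • ⟨a, ha⟩, rfl⟩, hr.2⟩⟩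
    ((ρ.C₀.red_act hO).on.sub _) (ρ.C₀.red_act hO).on
    ((GM.red_O _).on.mono (S.orb_sub _ hS.tt p.1 p.2))
  have c₁ := cl_locSES (X := S) (C := (ρ.C₀.act (GM.O S)).sub _ dπ.stab_ker)
    ⟨ρ.C₂.actMap ρ.C₁ ρ.f m₁ (GM.O S), LinearMap.codRestrict _ _ hπ, dF,
      fun a => Subtype.ext (dG a),
      fun a => Subtype.ext (act_comp m₁ m₀ (fun x hx => (ρ.cx x hx).1) a), fun x hx => ?_⟩
    (ρ.C₂.red_act hO).on (ρ.C₁.red_act hO).on ((ρ.C₀.red_act hO).on.sub _)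
  · rw [cls, add_smul, sub_smul, one, kl_smul _ hO, kl_smul _ hO, kl_smul _ hO, c₀, c₁, Top.ptc]
    abel
  obtain ⟨r, hr, s, hs, h1, h2⟩ : ∃ r : R, eval x r ≠ 0 ∧ ∃ s : R, eval x s ≠ 0 ∧
      (∀ u, ρ.C₁.actMap ρ.C₀ ρ.g m₀ (GM.O S) u = 0 →
        ∃ a, ρ.C₂.actMap ρ.C₁ ρ.f m₁ (GM.O S) a = r • u) ∧
      ∀ u, toOrb hS.tt p ρ.ε u = 0 → ∃ a, ρ.C₁.actMap ρ.C₀ ρ.g m₀ (GM.O S) a = s • u := by
    by_cases hz : ∃ c : ℂ, x = c • p.1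
    · obtain ⟨c, hc⟩ := hz
      obtain ⟨c', hc', e⟩ := Spc.exists_scal_ne p.2 hx (c := fun _ => c) (congrFun hc)
      obtain ⟨r, hr, h1⟩ := locOnto_mod hS ρ.hf m₁ ρ.mid dG.stab_ker (fun u hu =>
        ⟨fnOf_mem u, (fnOf_actMap ρ.g m₀ u).symm.trans ((congrArg fnOf hu).trans fnOf_zero)⟩) hc' e
      obtain ⟨s, hs, h2⟩ := locOnto_mod hS ρ.hg m₀ ρ.top dπ.stab_ker (fun u hu =>
        ⟨fnOf_mem u, (evq_toOrb hS.tt p ρ.ε u ⟨p.1, S.self_mem_orb _ hS.tt p.1 p.2⟩).symm.trans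
          ((congrArg _ hu).trans (map_zero _))⟩) hc' e
      exact ⟨r, hr, s, hs, h1, h2⟩
    · push Not at hz
      obtain ⟨r, hr, h1⟩ := act_mid hO m₁ m₀ (fun x hx => (ρ.cx x hx).1) hx (ρ.off x hx hz).1
      obtain ⟨s, hs, h2⟩ := act_surj hO m₀ hx (ρ.off x hx hz).2
      exact ⟨r, hr, s, hs, h1, fun u _ => h2 u⟩
  refine ⟨r * s, by simp [hr, hs], fun a ha => ?_, fun u hu => ?_, fun c => ?_⟩
  · rw [show a = 0 from fnOf_inj ((ρ.inj _ (fnOf_mem a) (regV_fnOf a)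
      ((fnOf_actMap ρ.f m₁ a).symm.trans ((congrArg fnOf ha).trans fnOf_zero))).trans
        fnOf_zero.symm), smul_zero]
  · obtain ⟨a, ha⟩ := h1 u (congrArg Subtype.val hu)
    exact ⟨s • a, by rw [map_smul, ha, smul_smul, mul_comm]⟩
  · obtain ⟨a, ha⟩ := h2 c.1 c.2
    refine ⟨r • a, Subtype.ext ?_⟩
    change ρ.C₁.actMap ρ.C₀ ρ.g m₀ (GM.O S) (r • a) = (r * s) • c.1
    rw [map_smul, ha, smul_smul]
end PtRes

end Crest.Agent.N265.N
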