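import Crest.Agent.N265.N.Gam

/-!
# Row 265, layer N, task N-PUSH: the push-forward `piK : K (X × S) →+ K X`
-/

set_option autoImplicit false
noncomputable section
open MvPolynomial Module TensorProduct

namespace Crest.Agent.N265.N
open Alg GV
variable {S X Y : Spc} {b : ℕ}

open Matrix in
/-- exactness of the Koszul complex of a non-zero vector of `ℂ³` -/
lemma kos_lin {a : Fin 3 → ℂ} {i : Fin 3} (hi : a i ≠ 0) {f : (Unit → ℂ) →ₗ[ℂ] (Fin 3 → ℂ)}
    {p : (Fin 3 → ℂ) →ₗ[ℂ] (Fin 3 → ℂ)} {q : (Fin 3 → ℂ) →ₗ[ℂ] (Unit → ℂ)}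
    (hf : ∀ t, f t = t () • a) (hp : ∀ v, p v = a ⨯₃ v) (hq : ∀ w, q w = fun _ => a ⬝ᵥ w) :
    ⊤ ⊓ LinearMap.ker f = ⊥ ∧ (⊤ : Submodule ℂ _).map f = ⊤ ⊓ LinearMap.ker p ∧
      (⊤ : Submodule ℂ _).map p = ⊤ ⊓ LinearMap.ker q ∧ (⊤ : Submodule ℂ _).map q = ⊤ := by
  obtain ⟨u, hu⟩ : ∃ u : Fin 3 → ℂ, a ⬝ᵥ u = 1 :=
    ⟨Pi.single i (a i)⁻¹, by rw [dotProduct_single, mul_inv_cancel₀ hi]⟩
  simp only [top_inf_eq]
  refine ⟨eq_bot_iff.2 fun t ht => ?_, le_antisymm ?_ fun v hv => ?_, le_antisymm ?_ fun w hw => ?_,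
    eq_top_iff.2 fun t _ => ⟨t () • u, trivial, ?_⟩⟩
  · have := congrFun ((hf t).symm.trans ht) i
    exact funext fun _ => (mul_eq_zero.1 this).resolve_right hi
  · rintro _ ⟨t, -, rfl⟩
    rw [LinearMap.mem_ker, hf, hp, map_smul, cross_self, smul_zero]
  · have := cross_cross_eq_smul_sub_smul' u a v
    rw [← hp v, LinearMap.mem_ker.1 hv, map_zero, hu, one_smul] at this
    exact ⟨fun _ => u ⬝ᵥ v, trivial, (hf _).trans (sub_eq_zero.1 this.symm)⟩
  · rintro _ ⟨v, -, rfl⟩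
    rw [LinearMap.mem_ker, hp, hq, dot_self_cross]; rfl
  · have h0 : a ⬝ᵥ w = 0 := congrFun ((hq w).symm.trans hw) ()
    refine ⟨w ⨯₃ u, trivial, ?_⟩
    rw [hp, cross_cross_eq_smul_sub_smul', hu, one_smul, dotProduct_comm, h0, zero_smul, sub_zero]
  · rw [hq, dotProduct_smul, hu, smul_eq_mul, mul_one]

/-- Koszul complex of three forms without common zero (`kl_four`, cross product matrix) -/
theorem kos_three {d : D} (hd : d ∈ DS X.B) (l : Fin 3 → R) (hl : ∀ i, Hmg d (l i))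
    (h : ∀ x ∈ X.pts, ∃ i, eval x (l i) ≠ 0) : (1 - lbK X (-d)) ^ 3 = 0 := by
  have h1 := neg_mem hd
  let f : Matrix (Fin 3) Unit R := fun j _ => l j
  let p : Matrix (Fin 3) (Fin 3) R := !![0, -l 2, l 1; l 2, 0, -l 0; -l 1, l 0, 0]
  let q : Matrix Unit (Fin 3) R := fun _ i => l i
  have hf : MHmg (fun _ => -d + -d + -d) (fun _ => -d + -d) f := fun j _ => by
    rw [show -d + -d - (-d + -d + -d) = d by abel]; exact hl j
  have hp : MHmg (fun _ => -d + -d) (fun _ => -d) p := fun j i => by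
    rw [show -d - (-d + -d) = d by abel]
    have h0 := Hmg.zero d
    have hn := fun i => (hl i).neg
    fin_cases j <;> fin_cases i <;> simp [p, h0, hn, hl]
  have hq : MHmg (fun _ => -d) (fun _ => 0) q := fun _ i => by
    rw [show 0 - -d = d by abel]; exact hl i
  have hx : ∀ x ∈ X.pts, ⊤ ⊓ LinearMap.ker (mev x f) = ⊥ ∧
      (⊤ : Submodule ℂ _).map (mev x f) = ⊤ ⊓ LinearMap.ker (mev x p) ∧
      (⊤ : Submodule ℂ _).map (mev x p) = ⊤ ⊓ LinearMap.ker (mev x q) ∧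
      (⊤ : Submodule ℂ _).map (mev x q) = ⊤ := fun x hx => by
    obtain ⟨i, hi⟩ := h x hx
    refine kos_lin (a := fun i => eval x (l i)) hi (fun t => funext fun j => ?_)
      (fun v => funext fun j => ?_) fun w => funext fun j => rfl
    · rw [mev_apply]; simp [f, mul_comm]
    · rw [mev_apply, Fin.sum_univ_three]
      fin_cases j <;> simp [cross_apply, p] <;> ring
  have key := kl_four (A := Bun.triv X (fun _ : Unit => -d + -d + -d) fun _ =>
      add_mem (add_mem h1 h1) h1)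
    (B := Bun.triv X (fun _ : Fin 3 => -d + -d) fun _ => add_mem h1 h1)
    (C := Bun.triv X (fun _ : Fin 3 => -d) fun _ => h1)
    (E := Bun.triv X (fun _ : Unit => 0) fun _ => zero_mem _) f p q hf hp hq hx
  rw [kl_triv, kl_triv, kl_triv, kl_triv] at key
  change ∑ _ : Unit, lbK X (-d + -d + -d) + ∑ _ : Fin 3, lbK X (-d) =
    ∑ _ : Fin 3, lbK X (-d + -d) + ∑ _ : Unit, lbK X 0 at key
  simp only [lbK_add, lbK_zero, Finset.sum_const, Finset.card_univ, Fintype.card_unit,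
    Fintype.card_fin, nsmul_eq_mul, Nat.cast_ofNat, Nat.cast_one] at key
  linear_combination -key
theorem Base.kos (hS : Base S b) (X : Spc) : (1 - lbK (X.fib S) (-eB b)) ^ 3 = 0 := by
  obtain ⟨l, h1, h2⟩ := exists_three hS
  refine kos_three (by simpa using hS.eB_mem (X := X) 1) (fun i => kill S.B (l i))
    (fun i => (h1 i).kill _) fun z hz => ?_
  simpa only [eval_kill] using h2 _ hz.2.1

/-- the recursion `Δ³ = 0` -/
def Rec3 {M : Type*} [AddCommGroup M] (H : ℤ → M) (j : ℤ) : Prop :=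
  H j = 3 • H (j + 1) - 3 • H (j + 2) + H (j + 3)
lemma Rec3.eq_of {M : Type*} [AddCommGroup M] {H H' : ℤ → M} {j₀ j₁ : ℤ}
    (h : ∀ j ≥ j₀, Rec3 H j) (h' : ∀ j ≥ j₀, Rec3 H' j) (e : ∀ j ≥ j₁, H j = H' j) :
    ∀ j ≥ j₀, H j = H' j := by
  have key : ∀ n : ℕ, ∀ j ≥ j₀, j₁ - n ≤ j → H j = H' j := by
    intro n
    induction n with
    | zero => exact fun j _ hj => e j (by simpa using hj)
    | succ n ih =>
      intro j hj hn
      rw [h j hj, h' j hj, ih (j + 1) (by omega) (by omega), ih (j + 2) (by omega) (by omega),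
        ih (j + 3) (by omega) (by omega)]
  exact fun j hj => key (j₁ - j).toNat j hj (by omega)
lemma Rec3.exists_ext {M : Type*} [AddCommGroup M] {H : ℤ → M} {j₀ : ℤ} (h : ∀ j ≥ j₀, Rec3 H j) :
    ∃ H' : ℤ → M, (∀ j, Rec3 H' j) ∧ ∀ j ≥ j₀, H' j = H j := by
  let a : ℕ → M × M × M := fun n => Nat.rec (H j₀, H (j₀ + 1), H (j₀ + 2))
    (fun _ t => (3 • t.1 - 3 • t.2.1 + t.2.2, t.1, t.2.1)) n
  let H' : ℤ → M := fun j => if j₀ ≤ j then H j else (a (j₀ - j).toNat).1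
  have h1 : ∀ j ≥ j₀, H' j = H j := fun j hj => if_pos hj
  have h2 : ∀ n : ℕ, H' (j₀ - n) = (a n).1 := fun n => by
    rcases n with _ | n
    · exact (h1 _ (by simp)).trans (by simp [a])
    · exact (if_neg (by omega)).trans (by rw [sub_sub_cancel, Int.toNat_natCast])
  have h3 : ∀ n : ℕ, a n = (H' (j₀ - n), H' (j₀ - n + 1), H' (j₀ - n + 2)) := fun n => by
    induction n with
    | zero => simp [a, h1]
    | succ n ih =>
      rw [h2, show j₀ - (n + 1 : ℕ) + 1 = j₀ - n by push_cast; ring,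
        show j₀ - (n + 1 : ℕ) + 2 = j₀ - n + 1 by push_cast; ring]
      change (_, (a n).1, (a n).2.1) = _
      rw [ih]
  refine ⟨H', fun j => ?_, h1⟩
  by_cases hj : j₀ ≤ j
  · rw [Rec3, h1 j hj, h1 _ (by omega), h1 _ (by omega), h1 _ (by omega)]
    exact h j hj
  · obtain ⟨n, rfl⟩ : ∃ n : ℕ, j = j₀ - (n + 1 : ℕ) := ⟨(j₀ - j - 1).toNat, by omega⟩
    rw [Rec3, h2, show j₀ - (n + 1 : ℕ) + 1 = j₀ - n by push_cast; ring,
      show j₀ - (n + 1 : ℕ) + 2 = j₀ - n + 1 by push_cast; ring,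
      show j₀ - (n + 1 : ℕ) + 3 = j₀ - n + 2 by push_cast; ring]
    change 3 • (a n).1 - 3 • (a n).2.1 + (a n).2.2 = _
    rw [h3]
lemma Base.rec3 (hS : Base S b) {M : Type*} [AddCommGroup M] (φ : K (X.fib S) →+ M)
    (u : K (X.fib S)) (j : ℤ) : Rec3 (fun j : ℤ => φ (lbK _ (j • eB b) * u)) j := by
  have h1 := hS.kos X
  have h2 := lbK_mul_neg (X := X.fib S) (eB b)
  have e : ∀ k : ℤ, lbK (X.fib S) ((k + 1) • eB b) = lbK _ (k • eB b) * lbK _ (eB b) := fun k => by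
    rw [add_smul, one_smul, lbK_add]
  rw [Rec3, ← map_nsmul, ← map_nsmul, ← map_sub, ← map_add, show j + 3 = j + 1 + 1 + 1 by ring,
    show j + 2 = j + 1 + 1 by ring, e (j + 1 + 1), e (j + 1), e j]
  congr 1
  generalize lbK (X.fib S) (eB b) = L at *
  generalize lbK (X.fib S) (-eB b) = L' at *
  simp only [nsmul_eq_mul, Nat.cast_ofNat]
  linear_combination (-lbK (X.fib S) (j • eB b) * u * L ^ 3) * h1 +
    (-lbK (X.fib S) (j • eB b) * u *
      (3 * L ^ 2 - 3 * L * (L * L' + 1) + ((L * L') ^ 2 + L * L' + 1))) * h2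
/-- homomorphisms that agree on high twists agree -/
theorem Base.ext_big (hS : Base S b) {M : Type*} [AddCommGroup M] {φ ψ : K (X.fib S) →+ M}
    (h : ∀ E : Bun (X.fib S), ∃ j₀ : ℤ, ∀ j ≥ j₀,
      φ (lbK _ (j • eB b) * E.kl) = ψ (lbK _ (j • eB b) * E.kl)) : φ = ψ :=
  K.hom_ext fun E => by
    obtain ⟨j₀, hj⟩ := h E
    have := Rec3.eq_of (j₀ := 0) (fun j _ => hS.rec3 φ E.kl j) (fun j _ => hS.rec3 ψ E.kl j) hj 0
      le_rfl
    simpa only [zero_smul, lbK_zero, one_mul] using this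

lemma gamK_rec3 (hS : Base S b) (hb : b ∉ X.B) (E : Bun (X.fib S)) :
    ∃ j₀ : ℤ, ∀ j ≥ j₀, Rec3 (gamK E b) j := by
  obtain ⟨Ψ, hΨ⟩ := K.exists_lift (G := Filter.Germ (Filter.atTop : Filter ℤ) (K X))
    (fun E : Bun (X.fib S) => Filter.Germ.ofFun (gamK E b))
    fun A B C h => by
      rw [← Filter.Germ.coe_add, Filter.Germ.coe_eq]
      exact Filter.eventually_atTop.2 (gamK_ses hS hb h)
  have e : ∀ k : ℤ, Ψ (lbK _ (k • eB b) * E.kl) =
      Filter.Germ.ofFun fun j => gamK E b (j + k) := fun k => by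
    rw [← kl_twist E _ (hS.eB_mem k), hΨ, funext fun j => gamK_twist hS hb E j k]
  have h := hS.rec3 Ψ E.kl 0
  simp only [Rec3, e, zero_add, add_zero] at h
  rw [← Filter.Germ.coe_nsmul, ← Filter.Germ.coe_nsmul, ← Filter.Germ.coe_sub,
    ← Filter.Germ.coe_add, Filter.Germ.coe_eq] at h
  exact Filter.eventually_atTop.1 h

/-- `K.exists_lift` to `Filter.Germ atTop (K X)` (`gamK_ses`); the germ of `O(1) u` is the shifted
germ of `u` (`gamK_twist`), so every germ satisfies `Rec3` eventually; take the value at `0` of the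
unique extension. -/
theorem exists_piK (X S : Spc) (b : ℕ) : ∃ Φ : K (X.fib S) →+ K X, Base S b → b ∉ X.B →
    ∀ E : Bun (X.fib S), ∃ j₀ : ℤ, ∀ j ≥ j₀, Φ (lbK _ (j • eB b) * E.kl) = gamK E b j := by
  by_cases H : Base S b ∧ b ∉ X.B
  swap
  · exact ⟨0, fun h1 h2 => absurd ⟨h1, h2⟩ H⟩
  obtain ⟨hS, hb⟩ := H
  choose n hn using gamK_rec3 hS hb
  choose s h1 h2 using fun E => Rec3.exists_ext (hn E)
  obtain ⟨Φ, hΦ⟩ := K.exists_lift (fun E : Bun (X.fib S) => s E 0) fun A B C h => by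
    obtain ⟨j₀, hj⟩ := gamK_ses hS hb h
    refine Rec3.eq_of (H' := fun j => s A j + s C j) (j₀ := 0)
      (j₁ := max (max j₀ (n B)) (max (n A) (n C))) (fun j _ => h1 B j) (fun j _ => ?_)
      (fun j hj' => ?_) 0 le_rfl
    · rw [Rec3, h1 A j, h1 C j, smul_add, smul_add]; abel
    · rw [h2 A j (by omega), h2 B j (by omega), h2 C j (by omega), hj j (by omega)]
  refine ⟨Φ, fun _ _ E => ⟨n E, fun k hk => ?_⟩⟩
  rw [← kl_twist E _ (hS.eB_mem k), hΦ, ← h2 E k hk]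
  refine (Rec3.eq_of (H' := fun j => s E (j + k)) (j₀ := 0)
    (j₁ := max (n (E.twist _ (hS.eB_mem k))) (n E - k)) (fun j _ => h1 _ j) (fun j _ => ?_)
    (fun j hj => ?_) 0 le_rfl).trans (by rw [zero_add])
  · rw [Rec3, h1 E (j + k), add_right_comm j 1, add_right_comm j 2, add_right_comm j 3]
  · rw [h2 _ j (by omega), h2 E _ (by omega), gamK_twist hS hb]
/-- **push-forward along `S`** -/
def piK (X S : Spc) (b : ℕ) : K (X.fib S) →+ K X := (exists_piK X S b).choose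

section
variable (hS : Base S b) (hb : b ∉ X.B)
include hS hb
theorem piK_big (E : Bun (X.fib S)) :
    ∃ j₀ : ℤ, ∀ j ≥ j₀, piK X S b (lbK _ (j • eB b) * E.kl) = gamK E b j :=
  (exists_piK X S b).choose_spec hS hb E
/-- projection formula -/
theorem piK_mul (a : K X) (u : K (X.fib S)) :
    piK X S b (K.pull (Spc.fib_fst X S) a * u) = a * piK X S b u := by
  induction a using K.ind with
  | h0 => simp
  | hneg a h => rw [map_neg, neg_mul, map_neg, h, neg_mul]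
  | hadd a a' h h' => rw [map_add, add_mul, map_add, h, h', add_mul]
  | hkl A =>
    refine DFunLike.congr_fun (hS.ext_big
      (φ := (piK X S b).comp (AddMonoidHom.mulLeft (K.pull (Spc.fib_fst X S) A.kl)))
      (ψ := (AddMonoidHom.mulLeft A.kl).comp (piK X S b)) fun E => ?_) u
    obtain ⟨j₁, h₁⟩ := piK_big hS hb ((A.pull (Spc.fib_fst X S)).tens E)
    obtain ⟨j₂, h₂⟩ := piK_big hS hb E
    obtain ⟨j₃, h₃⟩ := isAB_gamG hS hb E
    refine ⟨max j₁ (max j₂ j₃), fun j hj => ?_⟩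
    change piK X S b (_ * _) = A.kl * piK X S b _
    rw [mul_left_comm, K.pull_kl, ← kl_tens, h₁ j (by omega), h₂ j (by omega),
      gamK_tens hS hb A E (h₃ j (by omega))]
/-- base change -/
theorem piK_pull (q : Proj Y X) (hY : b ∉ Y.B) (u : K (X.fib S)) :
    piK Y S b (K.pull (q.fib_map S) u) = K.pull q (piK X S b u) := by
  refine DFunLike.congr_fun (hS.ext_big
    (φ := (piK Y S b).comp (K.pull (q.fib_map S)).toAddMonoidHom)
    (ψ := (K.pull q).toAddMonoidHom.comp (piK X S b)) fun E => ?_) u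
  obtain ⟨j₁, h₁⟩ := piK_big hS hY (E.pull (q.fib_map S))
  obtain ⟨j₂, h₂⟩ := piK_big hS hb E
  obtain ⟨j₃, h₃⟩ := isAB_gamG hS hb E
  refine ⟨max j₁ (max j₂ j₃), fun j hj => ?_⟩
  change piK Y S b (K.pull _ _) = K.pull q (piK X S b _)
  rw [map_mul, K.pull_lbK _ (hS.eB_mem j), K.pull_kl, h₁ j (by omega), h₂ j (by omega),
    gamK_pull hS hb q hY E (h₃ j (by omega))]
/-- a sequence with `Δ³ = 0` from `j₀` on that is eventually `π(O(j) u)` is `π(O(j) u)` -/
theorem eq_piK_of_rec {H : ℤ → K X} {u : K (X.fib S)} {j₀ j₁ : ℤ} (h : ∀ j ≥ j₀, Rec3 H j)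
    (e : ∀ j ≥ j₁, H j = piK X S b (lbK _ (j • eB b) * u)) :
    ∀ j ≥ j₀, H j = piK X S b (lbK _ (j • eB b) * u) :=
  Rec3.eq_of h (fun j _ => hS.rec3 _ u j) e
theorem piK_lbK_big :
    ∃ j₀ : ℤ, ∀ j ≥ j₀, piK X S b (lbK _ (j • eB b)) = (finrank ℂ (Fn S b j) : K X) := by
  obtain ⟨j₀, h⟩ := piK_big hS hb (Bun.line (X.fib S) 0)
  exact ⟨j₀, fun j hj => by rw [← gamK_line hS hb, ← h j hj, ← K.one_def, mul_one]⟩
end

/-! ### the basis-free form, for any model `A` of the forms of degree `m` -/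

/-- `ev` identifies `A` with the forms of degree `m` -/
structure IsSecM (S : Spc) (b : ℕ) (m : ℤ) {A : Type} [AddCommGroup A] [Module ℂ A]
    (ev : A →ₗ[ℂ] (S.pts → ℂ)) : Prop where
  inj : Function.Injective ev
  range : LinearMap.range ev = Fn S b m
/-- `1 ⊗ ev_z` -/
def evT (M : Type) [AddCommGroup M] [Module ℂ M] {A : Type} [AddCommGroup A] [Module ℂ A]
    (e : A →ₗ[ℂ] ℂ) : M ⊗[ℂ] A →ₗ[ℂ] M :=
  (TensorProduct.rid ℂ M).toLinearMap ∘ₗ LinearMap.lTensor M e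
@[simp] lemma evT_tmul {M A : Type} [AddCommGroup M] [Module ℂ M] [AddCommGroup A] [Module ℂ A]
    (e : A →ₗ[ℂ] ℂ) (v : M) (a : A) : evT M e (v ⊗ₜ a) = e a • v := by simp [evT]
/-- `{v ∈ V ⊗ A | ev_z v ∈ L (x + z) for all z}` -/
def gamT (S : Spc) {M A : Type} [AddCommGroup M] [Module ℂ M] [AddCommGroup A] [Module ℂ A]
    (ev : A →ₗ[ℂ] (S.pts → ℂ)) (L : Pt → Submodule ℂ M) (x : Pt) : Submodule ℂ (M ⊗[ℂ] A) :=
  ⨅ z : S.pts, (L (x + z.1)).comap (evT M (LinearMap.proj z ∘ₗ ev))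
/-- `V ⊗ A` as vector valued functions, in a basis of `V` -/
def evB {M A ι : Type} [AddCommGroup M] [Module ℂ M] [AddCommGroup A] [Module ℂ A] [Fintype ι]
    (e : Basis ι ℂ M) (ev : A →ₗ[ℂ] (S.pts → ℂ)) : M ⊗[ℂ] A →ₗ[ℂ] (S.pts → ι → ℂ) :=
  LinearMap.pi fun z => e.equivFun.toLinearMap ∘ₗ evT M (LinearMap.proj z ∘ₗ ev)
section evB
variable {M A ι : Type} [AddCommGroup M] [Module ℂ M] [AddCommGroup A] [Module ℂ A] [Fintype ι]
  (e : Basis ι ℂ M) (ev : A →ₗ[ℂ] (S.pts → ℂ))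
lemma evB_apply (t : M ⊗[ℂ] A) (z : S.pts) :
    evB e ev t z = e.equivFun (evT M (LinearMap.proj z ∘ₗ ev) t) := rfl
lemma evB_tmul (v : M) (a : A) (z : S.pts) (i : ι) :
    evB e ev (v ⊗ₜ a) z i = ev a z * e.repr v i := by simp [evB_apply]
lemma evB_sum (a : ι → A) (z : S.pts) (i : ι) : evB e ev (∑ k, e k ⊗ₜ a k) z i = ev (a i) z := by
  classical
  simp [map_sum, Finset.sum_apply, evB_tmul, Finsupp.single_apply]
lemma exists_sum_tmul (t : M ⊗[ℂ] A) : ∃ a : ι → A, t = ∑ k, e k ⊗ₜ a k := by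
  induction t using TensorProduct.induction_on with
  | zero => exact ⟨0, by simp⟩
  | tmul v a =>
    refine ⟨fun k => e.repr v k • a, ?_⟩
    conv_lhs => rw [← e.sum_repr v]
    simp only [sum_tmul, smul_tmul]
  | add t t' h h' =>
    obtain ⟨a, rfl⟩ := h
    obtain ⟨a', rfl⟩ := h'
    exact ⟨a + a', by simp only [Pi.add_apply, tmul_add, Finset.sum_add_distrib]⟩
lemma evB_inj (h : Function.Injective ev) : Function.Injective (evB e ev) := by
  refine (injective_iff_map_eq_zero _).2 fun t ht => ?_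
  obtain ⟨a, rfl⟩ := exists_sum_tmul e t
  refine Finset.sum_eq_zero fun i _ => ?_
  have : a i = 0 := h (funext fun z => by rw [← evB_sum e ev a z i, ht, map_zero]; rfl)
  rw [this, tmul_zero]
lemma range_evB {m j : ℤ} (h : LinearMap.range ev = Fn S b m) {c : ι → ℤ}
    (hc : ∀ i, j + c i = m) : LinearMap.range (evB e ev) = Amb S b c j := by
  refine le_antisymm ?_ fun σ hσ => ?_
  · rintro _ ⟨t, rfl⟩ i
    obtain ⟨a, rfl⟩ := exists_sum_tmul e t
    rw [hc, ← h, funext fun z => evB_sum e ev a z i]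
    exact ⟨_, rfl⟩
  · choose a ha using fun i => h.ge (hc i ▸ hσ i)
    exact ⟨∑ k, e k ⊗ₜ a k, funext fun z => funext fun i => by rw [evB_sum, ha]⟩
end evB
/-- **sections in high degree**: `L ≤ V ⊗ O(k)` on `X × S`, `V` of `S`-degree zero -/
theorem piK_gamT (hS : Base S b) (hb : b ∉ X.B) {V : GV} (hV : V.In X.B) {k : ℤ}
    {L : Pt → Submodule ℂ V.V} (h : IsAB (X.fib S) (V.shift (k • eB b)) L) :
    ∃ j₀ : ℤ, ∀ j ≥ j₀, ∀ (A : Type) [AddCommGroup A] [Module ℂ A] [FiniteDimensional ℂ A]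
      (ev : A →ₗ[ℂ] (S.pts → ℂ)), IsSecM S b (j + k) ev →
      IsAB X (V.tens (triv A)) (gamT S ev L) ∧
      piK X S b (lbK _ (j • eB b) * kc (X.fib S) (V.shift (k • eB b)) L) =
        kc X (V.tens (triv A)) (gamT S ev L) := by
  obtain ⟨n, e, deg, hd, he⟩ := hV.exists_basis
  have he' : ∀ i, (V.shift (k • eB b)).g (e i) = chi (deg i + k • eB b) • e i := fun i => by
    rw [shift_g, he, smul_smul, chi_add, mul_comm]
  have hd' : ∀ i, deg i + k • eB b ∈ DS (X.fib S).B := fun i =>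
    add_mem (DS_mono (Spc.fib_fst X S).sub (hd i)) (hS.eB_mem k)
  have hs : ∀ i, (deg i + k • eB b) (some b) = k := fun i => by simp [hd i b hb, eB]
  have hp : ∀ i, dpr X.B (deg i + k • eB b) = deg i := fun i => by
    rw [hS.dpr_eq hb (hd' i), hs, add_sub_cancel_right]
  have hE : (h.toBun e _ hd' he').kl = kc (X.fib S) (V.shift (k • eB b)) L :=
    Pres.kl ⟨e, h.presB_toBun e _ hd' he'⟩
  obtain ⟨j₁, h₁⟩ := piK_big hS hb (h.toBun e _ hd' he')
  obtain ⟨j₂, h₂⟩ := isAB_gamG hS hb (h.toBun e _ hd' he')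
  refine ⟨max j₁ j₂, fun j hj A _ _ _ ev hev => ?_⟩
  have hr : LinearMap.range (evB e ev) = Amb S b (sdeg b fun i => deg i + k • eB b) j :=
    range_evB e ev hev.range fun i => congrArg (j + ·) (hs i)
  let θ : (V.tens (triv A)).V →ₗ[ℂ] (AmbG X S b (fun i => deg i + k • eB b) j).V :=
    (evB e ev).codRestrict _ fun t => hr.le ⟨t, rfl⟩
  have hi : Function.Injective θ := fun t t' ht =>
    evB_inj e ev hev.inj (congrArg Subtype.val ht)
  have hsu : Function.Surjective θ := fun σ =>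
    let ⟨t, ht⟩ := hr.ge σ.2; ⟨t, Subtype.ext ht⟩
  have h0 : Deg0 (V.tens (triv A)) (AmbG X S b (fun i => deg i + k • eB b) j) θ := fun t => by
    refine Subtype.ext (funext fun z => funext fun i => ?_)
    rw [AmbG_g, hp]
    change evB e ev (TensorProduct.congr V.g (LinearEquiv.refl ℂ A) t) z i = _ * evB e ev t z i
    induction t using TensorProduct.induction_on with
    | zero => simp
    | tmul v a => rw [congr_tmul, evB_tmul, evB_tmul, repr_g he, mul_left_comm]; rfl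
    | add t t' h h' => simp only [map_add, Pi.add_apply, h, h', mul_add]
  have hc : ∀ x, (gamG (h.toBun e _ hd' he') b j x).comap θ = gamT S ev L x := fun x => by
    ext t
    refine (mem_gamG (E := h.toBun e _ hd' he') (σ := θ t)).trans ?_
    rw [gamT, Submodule.mem_iInf]
    exact forall_congr' fun z => ⟨fun ⟨v, hv, e'⟩ => by
      rw [Submodule.mem_comap, ← e.equivFun.injective e']; exact hv, fun h => ⟨_, h, rfl⟩⟩
  have hab : IsAB X (V.tens (triv A)) (gamT S ev L) :=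
    ((h₂ j (by omega)).comap_of_inj (hV.tens (in_triv A)) h0 hi fun x _ σ _ => hsu σ).congr
      fun x _ => hc x
  refine ⟨hab, ?_⟩
  rw [← hE, h₁ j (by omega)]
  exact (kc_iso hab (h₂ j (by omega)) (IsRM.const h0) fun x _ =>
    ⟨eq_bot_iff.2 (inf_le_right.trans (LinearMap.ker_eq_bot.2 hi).le),
      hc x ▸ Submodule.map_comap_eq_of_surjective hsu _⟩).symm

end Crest.Agent.N265.N
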