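import Crest.Agent.N265.N.KK

/-!
# Row 265, layer N, task N-REC: a line in `ker (B'|_z → A'|_z)` determines the bigger ideal
-/

set_option autoImplicit false
noncomputable section
open MvPolynomial Module TensorProduct

namespace Crest.Agent.N265.N
open Alg GV Br _root_.Crest.Agent.N265.Pow

lemma finrank_subprod {V W : Type} [AddCommGroup V] [Module ℂ V] [FiniteDimensional ℂ V]
    [AddCommGroup W] [Module ℂ W] [FiniteDimensional ℂ W] (P : Submodule ℂ V) (Q : Submodule ℂ W) :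
    finrank ℂ (P.prod Q) = finrank ℂ P + finrank ℂ Q := by
  have h : P.prod Q = LinearMap.range (P.subtype.prodMap Q.subtype) := by
    rw [LinearMap.range_prodMap, Submodule.range_subtype, Submodule.range_subtype]
  rw [h, LinearMap.finrank_range_of_inj (P.injective_subtype.prodMap Q.injective_subtype),
    finrank_prod]

namespace AD
variable {Sg : Surf} (α : AD Sg)
/-- `kos` as a linear map -/
def kosL (k : ℕ) (x y : SA Sg 1) (u : SA Sg k) :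
    (WA Sg α.W 1).V × (WA Sg α.W 1).V →ₗ[ℂ] (WA Sg α.W (k + 1 + 1)).V :=
  LinearMap.lTensor _ ((mulA Sg 1 (k + 1)).flip (mulA Sg 1 k y u)) ∘ₗ LinearMap.fst ℂ _ _ -
    LinearMap.lTensor _ ((mulA Sg 1 (k + 1)).flip (mulA Sg 1 k x u)) ∘ₗ LinearMap.snd ℂ _ _
lemma kosL_apply (k : ℕ) (x y : SA Sg 1) (u : SA Sg k) (t : (WA Sg α.W 1).V × (WA Sg α.W 1).V) :
    α.kosL k x y u t = α.kos k x y u t.1 t.2 := rfl
/-- `w ↦ w ⊗ x` -/
def tm (x : SA Sg 1) : α.W.V →ₗ[ℂ] (WA Sg α.W 1).V := (TensorProduct.mk ℂ α.W.V (SA Sg 1)).flip x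
lemma mu_tm (x : SA Sg 1) (w : α.W.V) : α.mu 1 (α.tm x w) = x.1 • α.emb w := rfl
lemma tm_mem (x : SA Sg 1) {U : Submodule ℂ α.W.V} {w : α.W.V} (h : w ∈ U) :
    α.tm x w ∈ tens U ⊤ := tmul_mem h Submodule.mem_top
lemma le_soc_self (U : Submodule ℂ α.W.V) (z : Pt) : U ≤ α.soc U z := fun _ hw =>
  α.mem_soc.2 fun l _ => ⟨_, α.tm_mem l hw, rfl⟩
/-- triples `(w, ξ, η)`: `w` in the socle, `ξ, η` lifts of `x w, y w`, Koszul syzygy in `ℓ` -/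
def Gam (k : ℕ) (z : Pt) (x y : SA Sg 1) (u : SA Sg k) (U' : Submodule ℂ α.W.V)
    (ℓ : Submodule ℂ (WA Sg α.W (k + 1 + 1)).V) :
    Submodule ℂ (α.W.prod ((WA Sg α.W 1).prod (WA Sg α.W 1))).V where
  carrier := {t | t.1 ∈ α.soc U' z ∧ t.2.1 ∈ tens U' ⊤ ∧ t.2.2 ∈ tens U' ⊤ ∧
    α.mu 1 t.2.1 = x.1 • α.emb t.1 ∧ α.mu 1 t.2.2 = y.1 • α.emb t.1 ∧ α.kos k x y u t.2.1 t.2.2 ∈ ℓ}
  add_mem' := fun {s t} hs ht => ⟨add_mem hs.1 ht.1, add_mem hs.2.1 ht.2.1,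
    add_mem hs.2.2.1 ht.2.2.1,
    by rw [Prod.snd_add, Prod.fst_add, Prod.fst_add, map_add, map_add, smul_add, hs.2.2.2.1,
      ht.2.2.2.1],
    by rw [Prod.snd_add, Prod.snd_add, Prod.fst_add, map_add, map_add, smul_add, hs.2.2.2.2.1,
      ht.2.2.2.2.1],
    by
      rw [← kosL_apply, Prod.snd_add, map_add]
      exact add_mem hs.2.2.2.2.2 ht.2.2.2.2.2⟩
  zero_mem' := ⟨zero_mem _, zero_mem _, zero_mem _,
    by rw [Prod.snd_zero, Prod.fst_zero, Prod.fst_zero, map_zero, map_zero, smul_zero],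
    by rw [Prod.snd_zero, Prod.snd_zero, Prod.fst_zero, map_zero, map_zero, smul_zero],
    by rw [← kosL_apply, Prod.snd_zero, map_zero]; exact zero_mem _⟩
  smul_mem' := fun c t ht => ⟨Submodule.smul_mem _ c ht.1, Submodule.smul_mem _ c ht.2.1,
    Submodule.smul_mem _ c ht.2.2.1,
    by rw [Prod.smul_snd, Prod.smul_fst, Prod.smul_fst, map_smul, map_smul, ht.2.2.2.1, smul_comm],
    by rw [Prod.smul_snd, Prod.smul_snd, Prod.smul_fst, map_smul, map_smul, ht.2.2.2.2.1,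
      smul_comm],
    by
      rw [← kosL_apply, Prod.smul_snd, map_smul]
      exact Submodule.smul_mem _ c ht.2.2.2.2.2⟩
lemma mem_Gam {k : ℕ} {z : Pt} {x y : SA Sg 1} {u : SA Sg k} {U' : Submodule ℂ α.W.V}
    {ℓ : Submodule ℂ (WA Sg α.W (k + 1 + 1)).V}
    {t : (α.W.prod ((WA Sg α.W 1).prod (WA Sg α.W 1))).V} :
    t ∈ α.Gam k z x y u U' ℓ ↔ t.1 ∈ α.soc U' z ∧ t.2.1 ∈ tens U' ⊤ ∧ t.2.2 ∈ tens U' ⊤ ∧
      α.mu 1 t.2.1 = x.1 • α.emb t.1 ∧ α.mu 1 t.2.2 = y.1 • α.emb t.1 ∧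
      α.kos k x y u t.2.1 t.2.2 ∈ ℓ := Iff.rfl
/-- the subspace recovered from `U'` and `ℓ` -/
def rcv (k : ℕ) (z : Pt) (x y : SA Sg 1) (u : SA Sg k) (U' : Submodule ℂ α.W.V)
    (ℓ : Submodule ℂ (WA Sg α.W (k + 1 + 1)).V) : Submodule ℂ α.W.V :=
  (α.Gam k z x y u U' ℓ).map (LinearMap.fst ℂ _ _)
lemma mem_rcv {k : ℕ} {z : Pt} {x y : SA Sg 1} {u : SA Sg k} {U' : Submodule ℂ α.W.V}
    {ℓ : Submodule ℂ (WA Sg α.W (k + 1 + 1)).V} {w : α.W.V} :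
    w ∈ α.rcv k z x y u U' ℓ ↔ w ∈ α.soc U' z ∧ ∃ ξ ∈ tens U' ⊤, ∃ η ∈ tens U' ⊤,
      α.mu 1 ξ = x.1 • α.emb w ∧ α.mu 1 η = y.1 • α.emb w ∧ α.kos k x y u ξ η ∈ ℓ :=
  ⟨fun ⟨t, ht, e⟩ => e ▸ ⟨ht.1, t.2.1, ht.2.1, t.2.2, ht.2.2.1, ht.2.2.2⟩,
    fun ⟨h1, ξ, hξ, η, hη, h2⟩ => ⟨(w, ξ, η), ⟨h1, hξ, hη, h2⟩, rfl⟩⟩
/-- `ℓ / ZK` is a line in the kernel of `B'|_z → A'|_z` -/
structure Lin (k : ℕ) (z : Pt) (U' : Submodule ℂ α.W.V)
    (ℓ : Submodule ℂ (WA Sg α.W (k + 1)).V) : Prop where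
  le₁ : α.ZK U' k z ≤ ℓ
  le₂ : ℓ ≤ α.KK U' (k + 1)
  one : finrank ℂ ℓ = finrank ℂ (α.ZK U' k z) + 1
  ker : ℓ ≤ LinearMap.ker (α.ev (k + 1) z)

variable {α} {U U' : Submodule ℂ α.W.V} {T T' : Submodule ℂ α.W.V → Prop} {r : ℕ} {h h' : ℕ → ℕ}
  {k : ℕ} {z : α.S.pts} {x y : SA Sg 1} {u : SA Sg k}
theorem StepOK.lin_sl (H : α.StepOK T T' r h h') (hU : T U) (hm : α.Mod U U' z.1) (hk : α.e ≤ k)
    (hd : DltOK Sg α.b k z) : α.Lin k z.1 U' (α.sl U U' k z.1) :=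
  ⟨le_inf (ZK_mono hm.1 _ _) (ZK_le _ _ _), inf_le_right, H.finrank_sl hU hm hk hd,
    inf_le_left.trans (ZK_le_ker _ _ z.2)⟩
/-- `soc_surj` gives `w` with `kos - κ ∈ ZK` for some `κ ∈ ℓ \ ZK`; `w ∉ U'` by `kos_mem_ZK`;
`rcv = U' ⊔ span {w}` by `soc_inj`; then `up`, `mod_up`, `kos_mem_sl`, `finrank_sl` -/
theorem StepOK.rcv_spec (H : α.StepOK T T' r h h') (hk : α.e ≤ k) (hd : DltOK Sg α.b (k + 1) z)
    (hp : α.Par z x y) (hu : u ∉ mP Sg α.b k z.1) (hU : T' U')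
    {ℓ : Submodule ℂ (WA Sg α.W (k + 1 + 1)).V} (hℓ : α.Lin (k + 1) z.1 U' ℓ) :
    T (α.rcv k z.1 x y u U' ℓ) ∧ α.Mod (α.rcv k z.1 x y u U' ℓ) U' z.1 ∧
      α.sl (α.rcv k z.1 x y u U' ℓ) U' (k + 1) z.1 = ℓ := by
  obtain ⟨κ, hκ, hκ0⟩ : ∃ κ ∈ ℓ, κ ∉ α.ZK U' (k + 1) z.1 := by
    by_contra! hc
    have := Submodule.finrank_mono (show ℓ ≤ _ from hc)
    have := hℓ.one
    omega
  obtain ⟨w, hw, ξ, hξ, η, hη, e₁, e₂, e₃⟩ :=
    H.ty'.soc_surj U' hU k hk z x y hp u hu κ (hℓ.le₂ hκ) (hℓ.ker hκ)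
  have hk0 : α.kos k x y u ξ η ∉ α.ZK U' (k + 1) z.1 := fun hc =>
    hκ0 (by simpa using sub_mem hc e₃)
  have hkℓ : α.kos k x y u ξ η ∈ ℓ := by simpa using add_mem (hℓ.le₁ e₃) hκ
  have hw0 : w ∉ U' := fun hc => hk0 (kos_mem_ZK k hp u hc hξ hη e₁ e₂)
  have hℓe : α.ZK U' (k + 1) z.1 ⊔ Submodule.span ℂ {α.kos k x y u ξ η} = ℓ := by
    refine Submodule.eq_of_le_of_finrank_le
      (sup_le hℓ.le₁ ((Submodule.span_singleton_le_iff_mem _ _).2 hkℓ)) ?_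
    rw [hℓ.one]
    refine Submodule.finrank_lt_finrank_of_lt (lt_of_le_of_ne le_sup_left fun hc => hk0 ?_)
    rw [hc]
    exact Submodule.mem_sup_right (Submodule.mem_span_singleton_self _)
  have hr : α.rcv k z.1 x y u U' ℓ = U' ⊔ Submodule.span ℂ {w} := by
    apply le_antisymm
    · intro w₁ h₁
      obtain ⟨h₁, ξ₁, hξ₁, η₁, hη₁, f₁, f₂, f₃⟩ := α.mem_rcv.1 h₁
      rw [← hℓe] at f₃
      obtain ⟨a, ha, b, hb, hab⟩ := Submodule.mem_sup.1 f₃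
      obtain ⟨c, rfl⟩ := Submodule.mem_span_singleton.1 hb
      have h2 : w₁ - c • w ∈ U' := by
        refine H.ty'.soc_inj U' hU k hk z x y hp u hu _ (sub_mem h₁ (Submodule.smul_mem _ c hw))
          (ξ₁ - c • ξ) (sub_mem hξ₁ (Submodule.smul_mem _ c hξ))
          (η₁ - c • η) (sub_mem hη₁ (Submodule.smul_mem _ c hη)) ?_ ?_ ?_
        · rw [map_sub, map_smul, map_sub, map_smul, smul_sub, f₁, e₁, smul_comm]
        · rw [map_sub, map_smul, map_sub, map_smul, smul_sub, f₂, e₂, smul_comm]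
        · have h3 : α.kos k x y u (ξ₁ - c • ξ) (η₁ - c • η) =
              α.kos k x y u ξ₁ η₁ - c • α.kos k x y u ξ η := by
            have := map_sub (α.kosL k x y u) (ξ₁, η₁) (c • (ξ, η))
            rwa [map_smul] at this
          rw [h3, ← hab, add_sub_cancel_right]
          exact ha
      rw [← sub_add_cancel w₁ (c • w)]
      exact Submodule.add_mem_sup h2
        (Submodule.smul_mem _ c (Submodule.mem_span_singleton_self w))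
    · refine sup_le (fun w' hw' => α.mem_rcv.2 ⟨α.le_soc_self _ _ hw', _, α.tm_mem x hw', _,
        α.tm_mem y hw', rfl, rfl, hℓ.le₁ ?_⟩) ((Submodule.span_singleton_le_iff_mem _ _).2
          (α.mem_rcv.2 ⟨hw, ξ, hξ, η, hη, e₁, e₂, hkℓ⟩))
      exact kos_mem_ZK k hp u hw' (α.tm_mem x hw') (α.tm_mem y hw') rfl rfl
  have hT := H.up U' hU _ z.2 w hw hw0
  have hM := H.mod_up hU z.2 hw hw0
  rw [hr]
  refine ⟨hT, hM, ?_⟩
  have hl := H.lin_sl hT hM (hk.trans (Nat.le_succ k)) hd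
  refine (Submodule.eq_of_le_of_finrank_le ?_ (by rw [hl.one, hℓ.one])).symm
  rw [← hℓe]
  exact sup_le hl.le₁ ((Submodule.span_singleton_le_iff_mem _ _).2 (kos_mem_sl k hp u le_sup_left
    (Submodule.mem_sup_right (Submodule.mem_span_singleton_self w)) hξ hη e₁ e₂))
/-- `U ≤ rcv` by `le_soc`, `kos_mem_sl`; both have dimension `dim U' + 1` -/
theorem StepOK.rcv_sl (H : α.StepOK T T' r h h') (hk : α.e ≤ k) (hd : DltOK Sg α.b (k + 1) z)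
    (hp : α.Par z x y) (hu : u ∉ mP Sg α.b k z.1) (hU : T U) (hm : α.Mod U U' z.1) :
    α.rcv k z.1 x y u U' (α.sl U U' (k + 1) z.1) = U := by
  have h1 := (H.rcv_spec hk hd hp hu (H.down _ _ hU _ z.2 hm)
    (H.lin_sl hU hm (hk.trans (Nat.le_succ k)) hd)).2.1
  refine (Submodule.eq_of_le_of_finrank_le (fun w hw => ?_) (by rw [h1.2.1, hm.2.1])).symm
  have hs := H.le_soc hU z.2 hm hw
  obtain ⟨ξ, hξ, e₁⟩ := α.mem_soc.1 hs x hp.1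
  obtain ⟨η, hη, e₂⟩ := α.mem_soc.1 hs y hp.2.1
  exact α.mem_rcv.2 ⟨hs, ξ, hξ, η, hη, e₁, e₂, kos_mem_sl k hp u hm.1 hw hξ hη e₁ e₂⟩
lemma soc_eq (U : Submodule ℂ α.W.V) (z : Pt) : α.soc U z = ⨅ l : mP Sg α.b 1 z,
    (tens U ⊤ ⊔ LinearMap.ker (α.mu 1)).comap (α.tm l.1) := by
  ext w
  have key : ∀ l : SA Sg 1, l.1 • α.emb w ∈ α.gen U 1 ↔
      w ∈ (tens U ⊤ ⊔ LinearMap.ker (α.mu 1)).comap (α.tm l) := fun l => by
    rw [Submodule.mem_comap, ← Submodule.comap_map_eq, Submodule.mem_comap]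
    exact Iff.rfl
  rw [mem_soc, Submodule.mem_iInf]
  exact ⟨fun h l => (key l.1).1 (h l.1 l.2), fun h l hl => (key l).2 (h ⟨l, hl⟩)⟩
lemma Gam_eq (k : ℕ) (z : Pt) (x y : SA Sg 1) (u : SA Sg k) (U' : Submodule ℂ α.W.V)
    (ℓ : Submodule ℂ (WA Sg α.W (k + 1 + 1)).V) : α.Gam k z x y u U' ℓ =
    (α.soc U' z).comap (LinearMap.fst ℂ _ _) ⊓
      ((tens U' ⊤).comap (LinearMap.fst ℂ _ _ ∘ₗ LinearMap.snd ℂ _ _) ⊓
      ((tens U' ⊤).comap (LinearMap.snd ℂ _ _ ∘ₗ LinearMap.snd ℂ _ _) ⊓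
      ((LinearMap.ker (α.mu 1 ∘ₗ LinearMap.fst ℂ _ _ ∘ₗ LinearMap.snd ℂ _ _ -
          α.mu 1 ∘ₗ α.tm x ∘ₗ LinearMap.fst ℂ _ _) ⊓
        LinearMap.ker (α.mu 1 ∘ₗ LinearMap.snd ℂ _ _ ∘ₗ LinearMap.snd ℂ _ _ -
          α.mu 1 ∘ₗ α.tm y ∘ₗ LinearMap.fst ℂ _ _)) ⊓
      ℓ.comap (α.kosL k x y u ∘ₗ LinearMap.snd ℂ _ _)))) := by
  ext t
  rw [mem_Gam]
  simp only [Submodule.mem_inf, Submodule.mem_comap, LinearMap.mem_ker, LinearMap.sub_apply,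
    sub_eq_zero, and_assoc]
  rfl
lemma finrank_Gam (hp : α.Par z x y) (u : SA Sg k) {ℓ : Submodule ℂ (WA Sg α.W (k + 1 + 1)).V}
    (hℓ : α.ZK U' (k + 1) z.1 ≤ ℓ) : finrank ℂ (α.Gam k z.1 x y u U' ℓ) =
      finrank ℂ (α.rcv k z.1 x y u U' ℓ) + (finrank ℂ (α.KK U' 1) + finrank ℂ (α.KK U' 1)) := by
  have h1 : α.Gam k z.1 x y u U' ℓ ⊓ LinearMap.ker (LinearMap.fst ℂ _ _) =
      ((α.KK U' 1).prod (α.KK U' 1)).map (LinearMap.inr ℂ _ _) := by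
    apply le_antisymm
    · rintro ⟨w, ξ, η⟩ ⟨ht, h0⟩
      obtain rfl : w = 0 := h0
      obtain ⟨-, hξ, hη, e₁, e₂, -⟩ := α.mem_Gam.1 ht
      rw [map_zero, smul_zero] at e₁ e₂
      exact ⟨(ξ, η), ⟨⟨hξ, e₁⟩, hη, e₂⟩, rfl⟩
    · rintro _ ⟨⟨ξ, η⟩, ⟨hξ, hη⟩, rfl⟩
      have e₁ : α.mu 1 ξ = x.1 • α.emb 0 := by rw [map_zero, smul_zero]; exact hξ.2
      have e₂ : α.mu 1 η = y.1 • α.emb 0 := by rw [map_zero, smul_zero]; exact hη.2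
      exact ⟨α.mem_Gam.2 ⟨zero_mem _, hξ.1, hη.1, e₁, e₂,
        hℓ (kos_mem_ZK k hp u (zero_mem _) hξ.1 hη.1 e₁ e₂)⟩, rfl⟩
  have h2 := Alg.finrank_map_add_inf_ker (V := (α.W.prod ((WA Sg α.W 1).prod (WA Sg α.W 1))).V)
    (α.Gam k z.1 x y u U' ℓ) (LinearMap.fst ℂ α.W.V ((WA Sg α.W 1).prod (WA Sg α.W 1)).V)
  rw [h1, ← (Submodule.equivMapOfInjective _ LinearMap.inr_injective _).finrank_eq,
    finrank_subprod] at h2
  exact h2.symm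
lemma cog_comap {X : Spc} {M N : Type} [AddCommGroup M] [Module ℂ M] [FiniteDimensional ℂ M]
    [AddCommGroup N] [Module ℂ N] [FiniteDimensional ℂ N] {P : Pt → Submodule ℂ N} (h : CogA X P)
    (f : M →ₗ[ℂ] N) : CogA X fun a => (P a).comap f := h.comap (φ := fun _ => f) (regM_const' f)
lemma gen_map {X : Spc} {M N : Type} [AddCommGroup M] [Module ℂ M] [FiniteDimensional ℂ M]
    [AddCommGroup N] [Module ℂ N] [FiniteDimensional ℂ N] {P : Pt → Submodule ℂ M} (h : GenA X P)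
    (f : M →ₗ[ℂ] N) : GenA X fun a => (P a).map f := h.map (φ := fun _ => f) (regM_const' f)
lemma cog_const {X : Spc} {M : Type} [AddCommGroup M] [Module ℂ M] [FiniteDimensional ℂ M]
    (P : Submodule ℂ M) : CogA X fun _ => P := cogA_of_alg (L := fun _ => P) (Alg.const P)
lemma Fam.cog_soc {X : Spc} {L' : Pt → Submodule ℂ α.W.V} (F : α.Fam X T' L')
    (H : α.TyOK T' r h') (z : Pt) : CogA X fun a => α.soc (L' a) z := by
  have hT : IsAB X (WA Sg α.W 1) fun a => tens (L' a) ⊤ := F.ab.tens (IsAB.top (in_triv _))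
  have hK : GenA X fun _ => LinearMap.ker (α.mu 1) :=
    genA_of_alg (L := fun _ => LinearMap.ker (α.mu 1)) (Alg.const _)
  have hr : ∀ a ∈ X.pts, finrank ℂ (tens (L' a) (⊤ : Submodule ℂ (SA Sg 1)) ⊔
      LinearMap.ker (α.mu 1) : Submodule ℂ (WA Sg α.W 1).V) =
      (r + 1) * finrank ℂ (SA Sg 1) + finrank ℂ (LinearMap.ker (α.mu 1)) - h' 1 := fun a ha => by
    have e1 : finrank ℂ (tens (L' a) (⊤ : Submodule ℂ (SA Sg 1)) ⊔
        LinearMap.ker (α.mu 1) : Submodule ℂ (WA Sg α.W 1).V) + finrank ℂ (α.KK (L' a) 1) =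
        finrank ℂ (tens (L' a) (⊤ : Submodule ℂ (SA Sg 1))) + finrank ℂ (LinearMap.ker (α.mu 1)) :=
      Submodule.finrank_sup_add_finrank_inf_eq _ _
    rw [finrank_tens, finrank_top, H.rk _ (F.ty a ha), H.hf _ (F.ty a ha)] at e1
    exact Nat.eq_sub_of_add_eq e1
  have hS : CogA X fun a => tens (L' a) (⊤ : Submodule ℂ (SA Sg 1)) ⊔ LinearMap.ker (α.mu 1) :=
    cogA_of_alg ((hT.gen.sup hK).alg_of_rk hr)
  exact (CogA.iInf fun l : mP Sg α.b 1 z => cog_comap hS (α.tm l.1)).congr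
    fun a _ => (soc_eq _ _).symm
lemma Fam.cog_Gam {X : Spc} {L' : Pt → Submodule ℂ α.W.V} (F : α.Fam X T' L')
    (H : α.StepOK T T' r h h') (k : ℕ) (z : Pt) (x y : SA Sg 1) (u : SA Sg k)
    {ℓ : Pt → Submodule ℂ (WA Sg α.W (k + 1 + 1)).V} (hℓ : CogA X ℓ) :
    CogA X fun a => α.Gam k z x y u (L' a) (ℓ a) := by
  have hT : IsAB X (WA Sg α.W 1) fun a => tens (L' a) ⊤ := F.ab.tens (IsAB.top (in_triv _))
  exact ((cog_comap (F.cog_soc H.ty' z) _).inf ((cog_comap hT.cog _).inf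
    ((cog_comap hT.cog _).inf ((cog_const _).inf (cog_comap hℓ _))))).congr
      fun a _ => (Gam_eq k z x y u (L' a) (ℓ a)).symm
/-- `Gam` is cogenerated (`w ∈ soc` iff `w ⊗ l ∈ tens U' ⊤ ⊔ ker mu` for a basis of `V_z`, and this
family is a bundle by `hf`), of constant rank `(r + 2) + 2 * h' 1` (kernel of `fst` is
`KK U' 1 × KK U' 1`); so it is a bundle and its image has constant rank -/
theorem Fam.isAB_rcv {X : Spc} {L' : Pt → Submodule ℂ α.W.V} (F : α.Fam X T' L')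
    (H : α.StepOK T T' r h h') (hk : α.e ≤ k) (hd : DltOK Sg α.b (k + 1) z)
    (hp : α.Par z x y) (hu : u ∉ mP Sg α.b k z.1)
    {ℓ : Pt → Submodule ℂ (WA Sg α.W (k + 1 + 1)).V} (hℓ : IsAB X _ ℓ)
    (h1 : ∀ a ∈ X.pts, α.Lin (k + 1) z.1 (L' a) (ℓ a)) :
    IsAB X α.W fun a => α.rcv k z.1 x y u (L' a) (ℓ a) := by
  have hG := F.cog_Gam H k z.1 x y u hℓ.cog
  have hr : ∀ a ∈ X.pts, finrank ℂ (α.rcv k z.1 x y u (L' a) (ℓ a)) = r + 1 + 1 := fun a ha =>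
    H.ty.rk _ (H.rcv_spec hk hd hp hu (F.ty a ha) (h1 a ha)).1
  have hA := hG.alg_of_rk (n := r + 1 + 1 + (h' 1 + h' 1)) fun a ha => by
    rw [finrank_Gam hp u (h1 a ha).le₁, hr a ha, H.ty'.hf _ (F.ty a ha)]
  have hg : GenA X fun a => α.Gam k z.1 x y u (L' a) (ℓ a) :=
    genA_of_alg (L := fun a => α.Gam k z.1 x y u (L' a) (ℓ a)) hA
  have hv : GenA X fun a => α.rcv k z.1 x y u (L' a) (ℓ a) := gen_map hg (LinearMap.fst ℂ _ _)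
  have he : Eqv X α.W fun a => α.rcv k z.1 x y u (L' a) (ℓ a) := eqv_iff.2 fun a ha => by
    rw [eqv_iff.1 F.ab.eqv' a ha, eqv_WA_iff.1 hℓ.eqv' a ha]
  exact ⟨α.in_W _, hv.alg_of_rk hr, he⟩
end AD

end Crest.Agent.N265.N
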