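import Crest.Agent.N265.N.Dlt

/-!
# Row 265, layer N, task N-SIG: `𝓢' = 𝓢 - ℓ ⊗ O_p` in `K (X × S)`, abstract form
-/

set_option autoImplicit false
noncomputable section
open MvPolynomial Module TensorProduct

namespace Crest.Agent.N265.N
open Alg GV Br _root_.Crest.Agent.N265.Pow
variable (Sg : Surf) (b : ℕ) {X : Spc} {W : GV}

/-- `W ⊗ A_k` -/
abbrev WA (W : GV) (k : ℕ) : GV := W.tens (triv (SA Sg k))
/-- `l ⊗ (w ⊗ f) ↦ w ⊗ l f` -/
def muW (M : Type) [AddCommGroup M] [Module ℂ M] (k : ℕ) :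
    SA Sg 1 ⊗[ℂ] (M ⊗[ℂ] SA Sg k) →ₗ[ℂ] M ⊗[ℂ] SA Sg (k + 1) :=
  LinearMap.lTensor M (muA Sg k) ∘ₗ (TensorProduct.leftComm ℂ _ _ _).toLinearMap
/-- `P · KK` for a space `P` of linear forms -/
def mulS {M : Type} [AddCommGroup M] [Module ℂ M] {k : ℕ} (P : Submodule ℂ (SA Sg 1))
    (KK : Submodule ℂ (M ⊗[ℂ] SA Sg k)) : Submodule ℂ (M ⊗[ℂ] SA Sg (k + 1)) :=
  (tens P KK).map (muW Sg M k)
/-- `V_z · KK_k(x)` on `X × S` -/
def ZZ (X : Spc) {M : Type} [AddCommGroup M] [Module ℂ M] {k : ℕ}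
    (KK : Pt → Submodule ℂ (M ⊗[ℂ] SA Sg k)) (y : Pt) : Submodule ℂ (M ⊗[ℂ] SA Sg (k + 1)) :=
  mulS Sg (mP Sg b 1 (restr {b} y)) (KK (restr X.B y))

/-- A family of graded modules `KK k ≤ W ⊗ A_k` whose sheaves are bundles of rank `r`, regular from
`e` on: the fibre at `z` is `KK (k+1) / V_z KK k` for `k ≥ e`. -/
structure SyzF (X : Spc) (W : GV) (KK : ∀ k : ℕ, Pt → Submodule ℂ (WA Sg W k).V) (e r : ℕ) :
    Prop where
  nb : b ∉ X.B
  ab : ∀ k ≥ e, IsAB X (WA Sg W k) (KK k)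
  gen : ∀ k ≥ e, ∀ x ∈ X.pts, mulS Sg ⊤ (KK k x) = KK (k + 1) x
  rk : ∀ k ≥ e, ∀ x ∈ X.pts, ∀ z ∈ (Sg.S b).pts,
    finrank ℂ (mulS Sg (mP Sg b 1 z) (KK k x)) + r = finrank ℂ (KK (k + 1) x)

variable {Sg b}
variable {KK KK' : ∀ k : ℕ, Pt → Submodule ℂ (WA Sg W k).V} {e r r' : ℕ}
/-- the class `O(-k-1) ⊗ KK (k+1) / V_z KK k` -/
def bcl (Sg : Surf) (b : ℕ) (X : Spc) (W : GV) (KK : ∀ k : ℕ, Pt → Submodule ℂ (WA Sg W k).V)
    (k : ℕ) : K (X.fib (Sg.S b)) := lbK _ (-((k + 1 : ℕ) • eB b)) *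
  (kc _ (WA Sg W (k + 1)) (fun y => KK (k + 1) (restr X.B y)) -
    kc _ (WA Sg W (k + 1)) (ZZ Sg b X (KK k)))

/-! ### tools -/
namespace Sg1
section lin
variable {M M' : Type} [AddCommGroup M] [Module ℂ M] [AddCommGroup M'] [Module ℂ M'] {k : ℕ}
lemma muW_tmul (l : SA Sg 1) (w : M) (f : SA Sg k) :
    muW Sg M k (l ⊗ₜ[ℂ] (w ⊗ₜ[ℂ] f)) = w ⊗ₜ[ℂ] mulA Sg 1 k l f := by
  simp [muW, muA]
lemma muW_comm (l l' : SA Sg 1) (m : M ⊗[ℂ] SA Sg k) :
    muW Sg M (k + 1) (l ⊗ₜ[ℂ] muW Sg M k (l' ⊗ₜ[ℂ] m)) =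
      muW Sg M (k + 1) (l' ⊗ₜ[ℂ] muW Sg M k (l ⊗ₜ[ℂ] m)) := by
  induction m using TensorProduct.induction_on with
  | zero => simp
  | add a c ha hc => simp only [tmul_add, map_add, ha, hc]
  | tmul w f =>
    simp only [muW_tmul]
    congr 1
    exact Subtype.ext (by simp only [mulA_val]; ring)
lemma muW_nat (φ : M →ₗ[ℂ] M') (t : SA Sg 1 ⊗[ℂ] (M ⊗[ℂ] SA Sg k)) :
    TensorProduct.map φ LinearMap.id (muW Sg M k t) =
      muW Sg M' k (TensorProduct.map LinearMap.id (TensorProduct.map φ LinearMap.id) t) := by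
  have : TensorProduct.map φ LinearMap.id ∘ₗ muW Sg M k =
      muW Sg M' k ∘ₗ TensorProduct.map LinearMap.id (TensorProduct.map φ LinearMap.id) := by
    ext l w f
    simp [muW_tmul]
  exact LinearMap.congr_fun this t
lemma mulS_mono {P P' : Submodule ℂ (SA Sg 1)} {N N' : Submodule ℂ (M ⊗[ℂ] SA Sg k)} (h : P ≤ P')
    (h' : N ≤ N') : mulS Sg P N ≤ mulS Sg P' N' := Submodule.map_mono (tens_mono h h')
lemma map_mulS (φ : M →ₗ[ℂ] M') (P : Submodule ℂ (SA Sg 1)) (N : Submodule ℂ (M ⊗[ℂ] SA Sg k)) :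
    (mulS Sg P N).map (TensorProduct.map φ LinearMap.id) =
      mulS Sg P (N.map (TensorProduct.map φ LinearMap.id)) := by
  have := tens_map LinearMap.id (TensorProduct.map φ (LinearMap.id : SA Sg k →ₗ[ℂ] _)) P N
  rw [Submodule.map_id] at this
  rw [mulS, mulS, ← this, ← Submodule.map_comp, ← Submodule.map_comp]
  congr 1
  exact LinearMap.ext (muW_nat φ)
lemma map_leftComm {A B C : Type} [AddCommGroup A] [Module ℂ A] [AddCommGroup B] [Module ℂ B]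
    [AddCommGroup C] [Module ℂ C] (P : Submodule ℂ A) (Q : Submodule ℂ B) (N : Submodule ℂ C) :
    (tens P (tens Q N)).map (TensorProduct.leftComm ℂ A B C).toLinearMap = tens Q (tens P N) := by
  refine le_antisymm (Submodule.map_le_iff_le_comap.2 (tens_le.2 fun a ha t ht => ?_))
    (tens_le.2 fun c hc t ht => ?_)
  · refine (tens_le (N := ((tens Q (tens P N)).comap
      (TensorProduct.leftComm ℂ A B C).toLinearMap).comap (TensorProduct.mk ℂ A _ a))).2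
      (fun c hc n hn => ?_) ht
    simpa using tmul_mem hc (tmul_mem ha hn)
  · refine (tens_le (N := ((tens P (tens Q N)).map
      (TensorProduct.leftComm ℂ A B C).toLinearMap).comap (TensorProduct.mk ℂ B _ c))).2
      (fun a ha n hn => ?_) ht
    exact ⟨_, tmul_mem ha (tmul_mem hc hn), by simp⟩
lemma gen_mul {A B C E : Type} [AddCommGroup A] [Module ℂ A] [AddCommGroup B] [Module ℂ B]
    [AddCommGroup C] [Module ℂ C] [AddCommGroup E] [Module ℂ E] (μ : A ⊗[ℂ] C →ₗ[ℂ] E)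
    (P : Submodule ℂ A) (Λ : Submodule ℂ B) (N : Submodule ℂ C) :
    (tens P (tens Λ N)).map (LinearMap.lTensor B μ ∘ₗ (TensorProduct.leftComm ℂ _ _ _).toLinearMap)
      = tens Λ ((tens P N).map μ) := by
  rw [Submodule.map_comp, map_leftComm]
  exact (tens_map LinearMap.id μ Λ (tens P N)).trans (by rw [Submodule.map_id])
lemma mulS_tens (P : Submodule ℂ (SA Sg 1)) (Λ : Submodule ℂ M) (N : Submodule ℂ (SA Sg k)) :
    mulS Sg P (tens Λ N) = tens Λ ((tens P N).map (muA Sg k)) :=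
  gen_mul (muA Sg k) P Λ N
lemma ker_tmap {A : Type} [AddCommGroup A] [Module ℂ A] (φ : M →ₗ[ℂ] M') :
    LinearMap.ker (TensorProduct.map φ (LinearMap.id : A →ₗ[ℂ] A)) = tens (LinearMap.ker φ) ⊤ := by
  simpa using tens_inf_ker_left φ ⊤ (⊤ : Submodule ℂ A)
/-- contraction with a linear form -/
def ctr (A : Type) [AddCommGroup A] [Module ℂ A] (α : M →ₗ[ℂ] ℂ) : M ⊗[ℂ] A →ₗ[ℂ] A :=
  (TensorProduct.lid ℂ A).toLinearMap ∘ₗ TensorProduct.map α LinearMap.id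
variable {A A' : Type} [AddCommGroup A] [Module ℂ A] [AddCommGroup A'] [Module ℂ A']
@[simp] lemma ctr_tmul (α : M →ₗ[ℂ] ℂ) (m : M) (a : A) : ctr A α (m ⊗ₜ[ℂ] a) = α m • a := by
  simp [ctr]
lemma ctr_mem (α : M →ₗ[ℂ] ℂ) {P : Submodule ℂ M} {Q : Submodule ℂ A} {t : M ⊗[ℂ] A}
    (h : t ∈ tens P Q) : ctr A α t ∈ Q :=
  (tens_le (N := Q.comap (ctr A α))).2 (fun _ _ a ha => by simpa using Q.smul_mem _ ha) h
lemma map_ctr {α : M →ₗ[ℂ] ℂ} (h : Function.Surjective α) (Q : Submodule ℂ A) :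
    (tens ⊤ Q).map (ctr A α) = Q := by
  obtain ⟨l, hl⟩ := h 1
  exact le_antisymm (Submodule.map_le_iff_le_comap.2 fun _ ht => ctr_mem α ht)
    fun a ha => ⟨_, tmul_mem (v := l) trivial ha, by simp [hl]⟩
lemma sub_ctr_mem {α : M →ₗ[ℂ] ℂ} {l : M} (hl : α l = 1) {Q : Submodule ℂ A} {t : M ⊗[ℂ] A}
    (h : t ∈ tens ⊤ Q) : t - l ⊗ₜ[ℂ] ctr A α t ∈ tens (LinearMap.ker α) Q := by
  refine (tens_le (N := (tens (LinearMap.ker α) Q).comap
    (LinearMap.id - TensorProduct.mk ℂ M A l ∘ₗ ctr A α))).2 (fun m _ a ha => ?_) h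
  have : m ⊗ₜ[ℂ] a - l ⊗ₜ[ℂ] (α m • a) = (m - α m • l) ⊗ₜ[ℂ] a := by
    rw [sub_tmul, smul_tmul]
  change m ⊗ₜ[ℂ] a - l ⊗ₜ[ℂ] ctr A α (m ⊗ₜ[ℂ] a) ∈ tens (LinearMap.ker α) Q
  rw [ctr_tmul, this]
  exact tmul_mem (by simp [hl]) ha
lemma exists_line {Λ : Submodule ℂ M} (h : finrank ℂ Λ = 1) : ∃ v ∈ Λ, ∃ α : M →ₗ[ℂ] ℂ,
    ∀ {Q : Submodule ℂ A} {t : M ⊗[ℂ] A}, t ∈ tens Λ Q → t = v ⊗ₜ[ℂ] ctr A α t := by
  obtain ⟨v, hv, H⟩ := finrank_eq_one_iff'.1 h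
  obtain ⟨α, hα⟩ := Module.Projective.exists_dual_eq_one ℂ (x := v.1) (by simpa using hv)
  refine ⟨v.1, v.2, α, fun {Q t} ht => tens_eqOn (f := LinearMap.id)
    (g := TensorProduct.mk ℂ M A v.1 ∘ₗ ctr A α) (fun w hw a _ => ?_) ht⟩
  obtain ⟨c, hc⟩ := H ⟨w, hw⟩
  obtain rfl : c • v.1 = w := congrArg Subtype.val hc
  simp [hα, smul_tmul]
end lin

lemma deg0_muW (W : GV) (k : ℕ) :
    Deg0 ((triv (SA Sg 1)).tens (WA Sg W k)) (WA Sg W (k + 1)) (muW Sg W.V k) :=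
  fun t => (muW_nat W.g.toLinearMap t).symm
lemma deg0_leftComm (A B C : GV) : Deg0 (A.tens (B.tens C)) (B.tens (A.tens C))
    (TensorProduct.leftComm ℂ A.V B.V C.V).toLinearMap := fun t => by
  have : (TensorProduct.leftComm ℂ A.V B.V C.V).toLinearMap ∘ₗ (A.tens (B.tens C)).g.toLinearMap =
      (B.tens (A.tens C)).g.toLinearMap ∘ₗ (TensorProduct.leftComm ℂ A.V B.V C.V).toLinearMap := by
    ext a c d
    simp
  exact LinearMap.congr_fun this t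
lemma isRM_ctr {Y : Spc} {A V : GV} {d : D} {α : Pt → A.V →ₗ[ℂ] ℂ} (h : IsRM Y A (line d) α) :
    IsRM Y (A.tens V) (V.shift d) fun y => ctr V.V (α y) := by
  refine (IsRM.const (V := (line d).tens V) (W := V.shift d)
    (f := (TensorProduct.lid ℂ V.V).toLinearMap) fun t => ?_).comp (h.tensor IsRM.id)
  have : (TensorProduct.lid ℂ V.V).toLinearMap ∘ₗ ((line d).tens V).g.toLinearMap =
      (V.shift d).g.toLinearMap ∘ₗ (TensorProduct.lid ℂ V.V).toLinearMap := by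
    ext v
    simp
  exact LinearMap.congr_fun this t
lemma kc_const {V : GV} (hV : V.In X.B) (h : ∀ v, V.g v = v) (P : Submodule ℂ V.V) :
    kc X V (fun _ => P) = (finrank ℂ P : K X) := by
  rw [← kc_triv]
  exact kc_iso (IsAB.const hV (stab_of_le fun v hv => (h v).symm ▸ hv))
    (IsAB.const (in_triv _) (stab_of_le fun _ hv => hv))
    (IsRM.const (V := V) (W := triv V.V) (f := LinearMap.id) h) fun _ _ => by simp
lemma A1A_g (k : ℕ) (v : (A1A Sg k).V) : (A1A Sg k).g v = v := by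
  change TensorProduct.map LinearMap.id LinearMap.id v = v
  simp
lemma A1A_in (k : ℕ) (B : Finset ℕ) : (A1A Sg k).In B := (in_triv _).tens (in_triv _)
lemma isAB_triv {M : Type} [AddCommGroup M] [Module ℂ M] [FiniteDimensional ℂ M]
    (P : Submodule ℂ M) : IsAB X (triv M) fun _ => P :=
  IsAB.const (in_triv _) (stab_of_le fun _ hv => hv)
/-- a roof of subquotients -/
lemma kq_roof {Y : Spc} {E F G : GV} {T : Pt → Submodule ℂ E.V} {Z Z' : Pt → Submodule ℂ F.V}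
    {N N' : Pt → Submodule ℂ G.V} {f : Pt → E.V →ₗ[ℂ] F.V} {g : Pt → E.V →ₗ[ℂ] G.V}
    (hT : IsAB Y E T) (hZ : IsAB Y F Z) (hZ' : IsAB Y F Z') (hN : IsAB Y G N) (hN' : IsAB Y G N')
    (hf : IsRM Y E F f) (hg : IsRM Y E G g) (s1 : ∀ y ∈ Y.pts, (T y).map (f y) ⊔ Z' y = Z y)
    (s2 : ∀ y ∈ Y.pts, (T y).map (g y) ⊔ N' y = N y)
    (hle : ∀ y ∈ Y.pts, ∀ t ∈ T y, f y t ∈ Z' y → g y t ∈ N' y)
    (hr : ∀ y ∈ Y.pts, finrank ℂ (Z y) + finrank ℂ (N' y) = finrank ℂ (N y) + finrank ℂ (Z' y)) :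
    kc Y F Z - kc Y F Z' = kc Y G N - kc Y G N' := by
  have hT' := hT.comap_of_surj hZ hZ' hf s1
  refine (kq_iso hT hT' hZ hZ' hf fun y hy => ⟨rfl, s1 y hy⟩).symm.trans
    (kq_iso hT hT' hN hN' hg fun y hy => ⟨Eq.symm ?_, s2 y hy⟩)
  refine Submodule.eq_of_le_of_finrank_eq (fun t ht => ⟨ht.1, hle y hy t ht.1 ht.2⟩) ?_
  have b1 := finrank_inf_comap_add (T y) (Z' y) (f y)
  have b2 := finrank_inf_comap_add (T y) (N' y) (g y)
  rw [s1 y hy] at b1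
  rw [s2 y hy] at b2
  have := hr y hy
  omega
/-- restriction of a family to `X × {p}` -/
lemma atPt_kc {S : Spc} {V : GV} {L : Pt → Submodule ℂ V.V} (h : IsAB (X.fib S) V L)
    (hV : V.In X.B) (hd : Disjoint X.B S.B) (hS : S.TTriv fun _ => 0) {p : Pt} (hp : p ∈ S.pts) :
    (IsAB X V fun x => L (x + p)) ∧
      K.atPt hd hS p hp (kc _ V L) = kc X V fun x => L (x + p) := by
  obtain ⟨n, β, deg, h1, h2⟩ := hV.exists_basis
  have h3 : ∀ i, deg i ∈ DS (X.fib S).B := fun i => DS_mono (Spc.fib_fst X S).sub (h1 i)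
  have hA : Pres (h.toBun β deg h3 h2) V L := ⟨β, h.presB_toBun β deg h3 h2⟩
  have hB : Pres ((h.toBun β deg h3 h2).atPt hd hS p hp) V fun x => L (x + p) :=
    ⟨β, fun i => (h2 i).trans (congrArg (fun d => chi d • β i) (dpr_of_mem (h1 i)).symm),
      fun _ _ => rfl⟩
  exact ⟨hB.isAB, by rw [← hA.kl, K.atPt_kl, hB.kl]⟩
lemma lbK_eB (hb : b ∉ X.B) (k : ℕ) : lbK X (-(k • eB b)) = 1 := by
  have : dpr X.B (-(k • eB b)) = dpr X.B 0 := by
    ext i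
    rw [dpr_apply, map_zero]
    split_ifs with h
    · have : some b ≠ i := fun e => hb (h b e.symm)
      simp [eB, this]
    · rfl
  rw [← lbK_zero]
  unfold lbK Bun.line
  simp only [this]
lemma eB_S (k : ℕ) : k • eB b ∈ DS (Sg.S b).B := nsmul_mem (eB_mem (Finset.mem_singleton_self b)) k
lemma eB_fib (X : Spc) (k : ℕ) : k • eB b ∈ DS (X.fib (Sg.S b)).B :=
  DS_mono (Spc.fib_snd X _).sub (eB_S k)
lemma isAB_V (X : Spc) :
    IsAB (X.fib (Sg.S b)) (triv (SA Sg 1)) fun y => mP Sg b 1 (restr {b} y) :=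
  (isAB_mP Sg b 1).pull (Spc.fib_snd X _)
lemma add_mem (hb : b ∉ X.B) {x p : Pt} (hx : x ∈ X.pts) (hp : p ∈ (Sg.S b).pts) :
    x + p ∈ (X.fib (Sg.S b)).pts ∧ restr X.B (x + p) = x ∧ restr {b} (x + p) = p :=
  Spc.add_mem_fib ((base_S Sg b).disj hb) hx hp
lemma ZZ_add {M : Type} [AddCommGroup M] [Module ℂ M] {k : ℕ}
    (N : Pt → Submodule ℂ (M ⊗[ℂ] SA Sg k)) (hb : b ∉ X.B) {x p : Pt} (hx : x ∈ X.pts)
    (hp : p ∈ (Sg.S b).pts) : ZZ Sg b X N (x + p) = mulS Sg (mP Sg b 1 p) (N x) := by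
  rw [ZZ, (add_mem hb hx hp).2.1, (add_mem hb hx hp).2.2]
end Sg1
open Sg1
namespace SyzF
lemma isAB_T (h : SyzF Sg b X W KK e r) {k : ℕ} (hk : e ≤ k) :
    IsAB (X.fib (Sg.S b)) ((triv (SA Sg 1)).tens (WA Sg W k))
      fun y => tens (mP Sg b 1 (restr {b} y)) (KK k (restr X.B y)) :=
  (isAB_V X).tens ((h.ab k hk).pull (Spc.fib_fst X _))
lemma abF (h : SyzF Sg b X W KK e r) {k : ℕ} (hk : e ≤ k) :
    IsAB (X.fib (Sg.S b)) (WA Sg W k) fun y => KK k (restr X.B y) :=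
  (h.ab k hk).pull (Spc.fib_fst X _)
lemma mulS_le (h : SyzF Sg b X W KK e r) {k : ℕ} (hk : e ≤ k) {x : Pt} (hx : x ∈ X.pts)
    (P : Submodule ℂ (SA Sg 1)) : mulS Sg P (KK k x) ≤ KK (k + 1) x :=
  (mulS_mono le_top le_rfl).trans (h.gen k hk x hx).le
/-- generated, and the rank is locally constant -/
theorem isAB_ZZ (h : SyzF Sg b X W KK e r) {k : ℕ} (hk : e ≤ k) :
    IsAB (X.fib (Sg.S b)) (WA Sg W (k + 1)) (ZZ Sg b X (KK k)) := by
  have h1 := h.abF (k := k + 1) (by omega)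
  have hμ := IsRM.const (X := X.fib (Sg.S b)) (deg0_muW (Sg := Sg) W k)
  refine ⟨h1.hin, (h.isAB_T hk).alg.map hμ.reg fun y₀ => (h1.alg.near_finrank y₀).mono
    fun y hy => ?_, (h.isAB_T hk).eqv'.map hμ⟩
  have e1 := h.rk k hk _ y.2.1 _ y.2.2.1
  have e2 := h.rk k hk _ y₀.2.1 _ y₀.2.2.1
  exact Nat.le_of_add_le_add_right (e1.trans (hy.trans e2.symm)).le
theorem isAB_mulS (h : SyzF Sg b X W KK e r) {k : ℕ} (hk : e ≤ k) {p : Pt}
    (hp : p ∈ (Sg.S b).pts) :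
    IsAB X (WA Sg W (k + 1)) fun x => mulS Sg (mP Sg b 1 p) (KK k x) :=
  (atPt_kc (h.isAB_ZZ hk) (h.ab (k + 1) (by omega)).hin ((base_S Sg b).disj h.nb)
    (base_S Sg b).tt hp).1.congr fun _ hx => ZZ_add _ h.nb hx hp
theorem pull {Y : Spc} (h : SyzF Sg b X W KK e r) (q : Proj Y X) (hY : b ∉ Y.B) :
    SyzF Sg b Y W (fun k y => KK k (restr X.B y)) e r :=
  ⟨hY, fun k hk => (h.ab k hk).pull q, fun k hk y hy => h.gen k hk _ (q.map y hy),
    fun k hk y hy => h.rk k hk _ (q.map y hy)⟩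
theorem mono (h : SyzF Sg b X W KK e r) {e' : ℕ} (he : e ≤ e') : SyzF Sg b X W KK e' r :=
  ⟨h.nb, fun k hk => h.ab k (he.trans hk), fun k hk => h.gen k (he.trans hk),
    fun k hk => h.rk k (he.trans hk)⟩
theorem pull_bcl {Y : Spc} (h : SyzF Sg b X W KK e r) (q : Proj Y X) (hY : b ∉ Y.B) {k : ℕ}
    (hk : e ≤ k) : K.pull (q.fib_map _) (bcl Sg b X W KK k) =
      bcl Sg b Y W (fun k y => KK k (restr X.B y)) k := by
  have e1 : ∀ y, restr X.B (restr (X.fib (Sg.S b)).B y) = restr X.B (restr Y.B y) := fun y => by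
    rw [restr_restr (Spc.fib_fst X _).sub, restr_restr q.sub]
  have e2 : ∀ y, restr {b} (restr (X.fib (Sg.S b)).B y) = restr {b} y := fun y =>
    restr_restr (Spc.fib_snd X (Sg.S b)).sub y
  rw [bcl, bcl, map_mul, map_sub, K.pull_lbK _ (neg_mem (eB_fib X _)),
    kc_pull (h.abF (by omega)), kc_pull (h.isAB_ZZ hk)]
  simp only [ZZ, e1, e2]
  rfl
/-- roof `A₁ ⊗ KK (k+1)`: multiplication onto `KK (k+2)`, `ev_z ⊗ 1` onto `KK (k+1) ⊗ O(1)`; the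
preimages of `V_z KK (k+1)` and `V_z KK k` agree (one inclusion is clear, then count dimensions) -/
theorem bcl_succ (h : SyzF Sg b X W KK e r) {k : ℕ} (hk : e ≤ k) :
    bcl Sg b X W KK (k + 1) = bcl Sg b X W KK k := by
  have hk1 : e ≤ k + 1 := by omega
  have h1 := h.abF hk1
  have h2 := h.abF (k := k + 1 + 1) (by omega)
  have z0 := h.isAB_ZZ hk
  have z1 := h.isAB_ZZ hk1
  have hd := eB_fib (Sg := Sg) (b := b) X 1
  have hT := (isAB_triv (X := X.fib (Sg.S b)) (⊤ : Submodule ℂ (SA Sg 1))).tens h1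
  have hμ := IsRM.const (X := X.fib (Sg.S b)) (deg0_muW (Sg := Sg) W (k + 1))
  have hε := isRM_ctr (V := WA Sg W (k + 1)) ((isRM_evP Sg b 1).pull (Spc.fib_snd X _))
  have q := kq_roof hT (h1.shift hd) (z0.shift hd) h2 z1 hε hμ (fun y hy => ?_)
    (fun y hy => (sup_eq_left.2 (mulS_mono le_top le_rfl)).trans (h.gen _ hk1 _ hy.1))
    (fun y hy t ht hz => ?_) fun y hy => ?_
  · rw [kc_shift h1 hd, kc_shift z0 hd, ← mul_sub] at q
    rw [bcl, bcl, ← q, ← mul_assoc, ← lbK_add]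
    congr 2
    rw [add_nsmul (eB b) (k + 1) 1]
    abel
  · exact (congrArg (· ⊔ _) (map_ctr (evP_surj Sg b 1 hy.2.1) _)).trans
      (sup_eq_left.2 (h.mulS_le hk hy.1 _))
  · obtain ⟨l, hl⟩ := evP_surj Sg b 1 hy.2.1 1
    have a1 := sub_ctr_mem hl ht
    obtain ⟨u, hu, e⟩ := hz
    have a2 : muW Sg W.V (k + 1) (l ⊗ₜ[ℂ] muW Sg W.V k u) ∈ ZZ Sg b X (KK (k + 1)) y := by
      refine (tens_le (N := (ZZ Sg b X (KK (k + 1)) y).comap (muW Sg W.V (k + 1) ∘ₗ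
        TensorProduct.mk ℂ _ _ l ∘ₗ muW Sg W.V k))).2 (fun v hv m hm => ?_) hu
      exact ⟨_, tmul_mem hv (h.mulS_le hk hy.1 ⊤ ⟨_, tmul_mem trivial hm, rfl⟩), muW_comm v l m⟩
    have a3 := (ZZ Sg b X (KK (k + 1)) y).add_mem (Submodule.mem_map_of_mem a1) a2
    rwa [e, ← map_add, sub_add_cancel] at a3
  · have b3 : finrank ℂ (ZZ Sg b X (KK k) y) + r = _ := h.rk k hk _ hy.1 _ hy.2.1
    have b4 : finrank ℂ (ZZ Sg b X (KK (k + 1)) y) + r = _ := h.rk _ hk1 _ hy.1 _ hy.2.1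
    change finrank ℂ (KK (k + 1) (restr X.B y)) + finrank ℂ (ZZ Sg b X (KK (k + 1)) y) =
      finrank ℂ (KK (k + 1 + 1) (restr X.B y)) + finrank ℂ (ZZ Sg b X (KK k) y)
    omega
theorem bcl_eq (h : SyzF Sg b X W KK e r) {k : ℕ} (hk : e ≤ k) :
    bcl Sg b X W KK k = bcl Sg b X W KK e := by
  induction k, hk using Nat.le_induction with
  | base => rfl
  | succ k hk ih => rw [h.bcl_succ hk, ih]
theorem atPt_bcl (h : SyzF Sg b X W KK e r) {k : ℕ} (hk : e ≤ k) {p : Pt} (hp : p ∈ (Sg.S b).pts) :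
    K.atPt ((base_S Sg b).disj h.nb) (base_S Sg b).tt p hp (bcl Sg b X W KK k) =
      kc X (WA Sg W (k + 1)) (KK (k + 1)) -
        kc X (WA Sg W (k + 1)) fun x => mulS Sg (mP Sg b 1 p) (KK k x) := by
  have hW := (h.ab (k + 1) (by omega)).hin
  have k1 := kc_congr (X := X) (V := WA Sg W (k + 1)) fun x hx => ZZ_add (KK k) h.nb hx hp
  have k2 := kc_congr (X := X) (V := WA Sg W (k + 1))
    fun x hx => congrArg (KK (k + 1)) (add_mem h.nb hx hp).2.1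
  rw [bcl, map_mul, K.atPt_lbK, lbK_eB h.nb, one_mul, map_sub,
    (atPt_kc (h.abF (by omega)) hW _ _ hp).2, (atPt_kc (h.isAB_ZZ hk) hW _ _ hp).2, k1, k2]
end SyzF

/-- `U' ≤ U` of colength one, with syzygy modules `KK' ≤ KK`, `KK / KK' = (U / U') ⊗ 𝔪_p` -/
structure Step (Sg : Surf) (b : ℕ) (X : Spc) (W : GV) (U U' : Pt → Submodule ℂ W.V)
    (KK KK' : ∀ k : ℕ, Pt → Submodule ℂ (WA Sg W k).V) (e r : ℕ) (p : Pt) : Prop where
  hU : IsAB X W U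
  hU' : IsAB X W U'
  le : ∀ x ∈ X.pts, U' x ≤ U x
  one : ∀ x ∈ X.pts, finrank ℂ (U x) = finrank ℂ (U' x) + 1
  hK : SyzF Sg b X W KK e (r + 1)
  hK' : SyzF Sg b X W KK' e r
  inf : ∀ k ≥ e, ∀ x ∈ X.pts, KK k x ⊓ tens (U' x) ⊤ = KK' k x
  sup : ∀ k ≥ e, ∀ x ∈ X.pts, KK k x ⊔ tens (U' x) ⊤ = tens (U x) (mP Sg b k p) ⊔ tens (U' x) ⊤

namespace Step
variable {U U' : Pt → Submodule ℂ W.V} {p : (Sg.S b).pts}
/-- the quotient map `φ` with kernel `U'` -/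
structure Quo (X : Spc) (W : GV) (U U' : Pt → Submodule ℂ W.V) (W' : GV)
    (φ : Pt → W.V →ₗ[ℂ] W'.V) : Prop where
  rm : IsRM X W W' φ
  ab : IsAB X W' fun x => (U x).map (φ x)
  ker : ∀ x ∈ X.pts, LinearMap.ker (φ x) = U' x
  cls : kc X W' (fun x => (U x).map (φ x)) = kc X W U - kc X W U'
variable {W' : GV} {φ : Pt → W.V →ₗ[ℂ] W'.V}
lemma exists_quo (h : Step Sg b X W U U' KK KK' e r p.1) : ∃ W' φ, Quo X W U U' W' φ := by
  obtain ⟨W', φ, h1, h2, h3, h4⟩ := h.hU.exists_sq h.hU' h.le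
  exact ⟨W', φ, h1, h2, h3, h4⟩
section
variable (h : Step Sg b X W U U' KK KK' e r p.1) (q : Quo X W U U' W' φ) {k : ℕ} (hk : e ≤ k)
  {x : Pt} (hx : x ∈ X.pts)
include h q hx
lemma rk_line : finrank ℂ ((U x).map (φ x)) = 1 := by
  have := Alg.finrank_map_add_inf_ker (U x) (φ x)
  rw [q.ker x hx, inf_eq_right.2 (h.le x hx), h.one x hx] at this
  omega
include hk
lemma inf_ker : KK k x ⊓ LinearMap.ker (TensorProduct.map (φ x) LinearMap.id) = KK' k x := by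
  rw [ker_tmap, q.ker x hx, h.inf k hk x hx]
lemma map_KK : (KK k x).map (TensorProduct.map (φ x) LinearMap.id) =
    tens ((U x).map (φ x)) (mP Sg b k p.1) := by
  have h0 : (tens (U' x) (⊤ : Submodule ℂ (SA Sg k))).map
      (TensorProduct.map (φ x) LinearMap.id) = ⊥ := by
    rw [← q.ker x hx, ← ker_tmap]
    exact (LinearMap.le_ker_iff_map).1 le_rfl
  have := congrArg (Submodule.map (TensorProduct.map (φ x) LinearMap.id)) (h.sup k hk x hx)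
  rwa [Submodule.map_sup, Submodule.map_sup, h0, sup_bot_eq, sup_bot_eq, tens_map,
    Submodule.map_id] at this
lemma rk_KK : finrank ℂ (KK k x) = finrank ℂ (KK' k x) + finrank ℂ (mP Sg b k p.1) := by
  have := Alg.finrank_map_add_inf_ker (KK k x) (TensorProduct.map (φ x) LinearMap.id)
  rw [h.inf_ker q hk hx, h.map_KK q hk hx, finrank_tens, h.rk_line q hx, one_mul] at this
  exact this.symm.trans (add_comm _ _)
lemma rk_Z {z : Pt} (hz : z ∈ (Sg.S b).pts) : finrank ℂ (mulS Sg (mP Sg b 1 z) (KK k x)) + 1 =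
    finrank ℂ (mulS Sg (mP Sg b 1 z) (KK' k x)) + finrank ℂ (mP Sg b (k + 1) p.1) := by
  have h1 := h.hK.rk k hk x hx z hz
  have h2 := h.hK'.rk k hk x hx z hz
  have h3 := h.rk_KK q (k := k + 1) (by omega) hx
  omega
omit q in
lemma le_KK : KK' k x ≤ KK k x := (h.inf k hk x hx).ge.trans inf_le_left
end
/-- with `φ` from `IsAB.exists_sq` (`ker φ = U'`, `Λ = φ U` a line), `φ ⊗ 1` maps `KK k` onto
`Λ ⊗ 𝔪_k` with kernel `KK' k` -/
theorem kc_KK (h : Step Sg b X W U U' KK KK' e r p.1) {k : ℕ} (hk : e ≤ k) :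
    kc X (WA Sg W k) (KK k) - kc X (WA Sg W k) (KK' k) =
      (kc X W U - kc X W U') * (finrank ℂ (mP Sg b k p.1) : K X) := by
  obtain ⟨W', φ, q⟩ := h.exists_quo
  have hm := q.ab.tens (isAB_triv (mP Sg b k p.1))
  have k1 := kc_congr (X := X) (V := WA Sg W k) fun x hx => h.inf_ker q hk hx
  have k2 := kc_congr (X := X) (V := WA Sg W' k) fun x hx => h.map_KK q hk hx
  rw [kc_map (h.hK.ab k hk) (q.rm.tensor IsRM.id) (hm.congr fun x hx => (h.map_KK q hk hx).symm),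
    k1, k2, kc_tens q.ab (isAB_triv _), q.cls, kc_triv, add_sub_cancel_left]
/-- `l ⊗ w ⊗ f ↦ φ w ⊗ l ⊗ f` -/
def Th (Sg : Surf) (k : ℕ) {M M' : Type} [AddCommGroup M] [Module ℂ M] [AddCommGroup M']
    [Module ℂ M'] (f : M →ₗ[ℂ] M') :
    SA Sg 1 ⊗[ℂ] (M ⊗[ℂ] SA Sg k) →ₗ[ℂ] M' ⊗[ℂ] (SA Sg 1 ⊗[ℂ] SA Sg k) :=
  (TensorProduct.leftComm ℂ _ _ _).toLinearMap ∘ₗ
    TensorProduct.map LinearMap.id (TensorProduct.map f LinearMap.id)
lemma muA_ctr_Th {k : ℕ} {M M' : Type} [AddCommGroup M] [Module ℂ M] [AddCommGroup M']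
    [Module ℂ M'] (f : M →ₗ[ℂ] M') (α : M' →ₗ[ℂ] ℂ) (t : SA Sg 1 ⊗[ℂ] (M ⊗[ℂ] SA Sg k)) :
    muA Sg k (ctr _ α (Th Sg k f t)) = ctr _ (α ∘ₗ f) (muW Sg M k t) := by
  have : muA Sg k ∘ₗ ctr (SA Sg 1 ⊗[ℂ] SA Sg k) α ∘ₗ Th Sg k f =
      ctr (SA Sg (k + 1)) (α ∘ₗ f) ∘ₗ muW Sg M k := by
    ext l w g
    simp [Th, muW_tmul, muA]
  exact LinearMap.congr_fun this t
lemma map_Th (h : Step Sg b X W U U' KK KK' e r p.1) (q : Quo X W U U' W' φ) {k : ℕ} (hk : e ≤ k)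
    {x : Pt} (hx : x ∈ X.pts) (P : Submodule ℂ (SA Sg 1)) :
    (tens P (KK k x)).map (Th Sg k (φ x)) = tens ((U x).map (φ x)) (tens P (mP Sg b k p.1)) := by
  rw [Th, Submodule.map_comp, tens_map, Submodule.map_id, h.map_KK q hk hx, map_leftComm]
lemma Th_mem (h : Step Sg b X W U U' KK KK' e r p.1) (q : Quo X W U U' W' φ) {k : ℕ} (hk : e ≤ k)
    {y : Pt} (hy : y ∈ (X.fib (Sg.S b)).pts) {n : SA Sg 1 ⊗[ℂ] (W.V ⊗[ℂ] SA Sg k)}
    (hn : n ∈ tens (mP Sg b 1 (restr {b} y)) (KK k (restr X.B y)) ⊓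
      LinearMap.ker (muW Sg W.V k)) : Th Sg k (φ (restr X.B y)) n ∈
      tens ((U (restr X.B y)).map (φ (restr X.B y))) (RR Sg b k p.1 (restr {b} y)) := by
  have hb := h.hK.nb
  obtain ⟨σ, hσ, h1, h2⟩ := ((h.hK.isAB_T hk).ker_of_map
    (IsRM.const (deg0_muW (Sg := Sg) W k)) (h.hK.isAB_ZZ hk)).gen ⟨y, hy⟩ n hn
  obtain ⟨v, hv, α, hα⟩ := exists_line (A := SA Sg 1 ⊗[ℂ] SA Sg k) (h.rk_line q hy.1)
  have hx : restr X.B y ∈ X.pts := hy.1
  let u : (Sg.S b).pts → (X.fib (Sg.S b)).pts := fun z => ⟨_, (add_mem hb hx z.2).1⟩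
  have hu : u ⟨_, hy.2.1⟩ = ⟨y, hy⟩ :=
    Subtype.ext (Spc.eq_add_of_mem_fib ((base_S Sg b).disj hb) hy)
  have h3 : ∀ z, Th Sg k (φ (restr X.B y)) (σ (u z)) ∈
      tens ((U (restr X.B y)).map (φ (restr X.B y))) (tens (mP Sg b 1 z.1) (mP Sg b k p.1)) := by
    intro z
    have := (h1 (u z)).1
    rw [(add_mem hb hx z.2).2.1, (add_mem hb hx z.2).2.2] at this
    exact h.map_Th q hk hx _ ▸ Submodule.mem_map_of_mem this
  have h4 : (fun z => ctr _ α (Th Sg k (φ (restr X.B y)) (σ (u z)))) ∈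
      regS (Sg.S b) _ ⊓ secs _ (fun z => tens (mP Sg b 1 z) (mP Sg b k p.1)) ⊓
        secs _ fun _ => LinearMap.ker (muA Sg k) := by
    have h6 : RegV (Sg.S b).fn fun z => σ (u z) := hσ.precomp u (by
      rintro f ⟨ρ, hρ⟩
      exact funext (fun z => hρ (u z)) ▸ eval_add_mem_fn (restr X.B y) ρ)
    refine ⟨⟨fun ℓ => h6 (ℓ ∘ₗ ctr (SA Sg 1 ⊗[ℂ] SA Sg k) α ∘ₗ Th Sg k (φ (restr X.B y))),
      fun z => ctr_mem α (h3 z)⟩, fun z => ?_⟩
    have := muA_ctr_Th (φ (restr X.B y)) α (σ (u z))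
    rwa [LinearMap.mem_ker.1 (h1 (u z)).2, map_zero] at this
  have h5 := h3 ⟨_, hy.2.1⟩
  rw [hu, h2] at h5
  rw [hα h5]
  refine tmul_mem hv ?_
  refine (vals_eq _ (⟨_, hy.2.1⟩ : (Sg.S b).pts)).ge ⟨_, h4, ?_⟩
  simp only [LinearMap.proj_apply, hu, h2]
/-- `T = V_z ⊗ KK k` maps onto `Z = V_z KK k` and onto `Λ ⊗ (V_z ⊗ 𝔪_k)`; the preimages of `Z'` and
of `Λ ⊗ RR z` agree: `ker (T → Z)` is a bundle, a regular section of it along `{x} × S` maps to a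
section as in the definition of `RR`; so the image of the kernel lies in `Λ ⊗ RR z`, and the
dimensions agree (`DltOK.rk`, `SyzF.rk`). -/
theorem kc_ZZ (h : Step Sg b X W U U' KK KK' e r p.1) {k : ℕ} (hk : e ≤ k) (hd : DltOK Sg b k p) :
    kc (X.fib (Sg.S b)) (WA Sg W (k + 1)) (ZZ Sg b X (KK k)) -
      kc (X.fib (Sg.S b)) (WA Sg W (k + 1)) (ZZ Sg b X (KK' k)) =
      K.pull (Spc.fib_fst X _) (kc X W U - kc X W U') * K.pull (Spc.fib_snd X _)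
        (kc _ (A1A Sg k) (fun z => tens (mP Sg b 1 z) (mP Sg b k p.1)) -
          kc _ (A1A Sg k) (RR Sg b k p.1)) := by
  obtain ⟨W', φ, q⟩ := h.exists_quo
  have hT := h.hK.isAB_T hk
  have z0 := h.hK.isAB_ZZ hk
  have z1 := h.hK'.isAB_ZZ hk
  have hμ := IsRM.const (X := X.fib (Sg.S b)) (deg0_muW (Sg := Sg) W k)
  have hΛ := q.ab.pull (Spc.fib_fst X (Sg.S b))
  have hV := (isAB_mP Sg b 1).tens (isAB_triv (mP Sg b k p.1))
  have hV' := hV.pull (Spc.fib_snd X (Sg.S b))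
  have hR := hd.ab.pull (Spc.fib_snd X (Sg.S b))
  have hΘ : IsRM (X.fib (Sg.S b)) ((triv (SA Sg 1)).tens (WA Sg W k)) (W'.tens (A1A Sg k))
      fun y => Th Sg k (φ (restr X.B y)) :=
    (IsRM.const (deg0_leftComm (triv (SA Sg 1)) W' (triv (SA Sg k)))).comp
      (IsRM.id.tensor ((q.rm.pull (Spc.fib_fst X _)).tensor IsRM.id))
  have q1 := kq_roof hT z0 z1 (hΛ.tens hV') (hΛ.tens hR) hμ hΘ
    (fun y hy => sup_eq_left.2 (mulS_mono le_rfl (h.le_KK hk hy.1))) (fun y hy => ?_)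
    (fun y hy t ht hz => ?_) fun y hy => ?_
  · rw [q1, kc_tens hΛ hV', kc_tens hΛ hR, ← mul_sub, ← q.cls, kc_pull q.ab, map_sub,
      kc_pull hV, kc_pull hd.ab]
  · exact (congrArg (· ⊔ _) (h.map_Th q hk hy.1 _)).trans
      (sup_eq_left.2 (tens_mono le_rfl ((RR_le Sg b k p.1 hy.2.1).trans inf_le_left)))
  · obtain ⟨u, hu, e⟩ := hz
    have a1 := h.Th_mem q hk hy (n := t - u) ⟨Submodule.sub_mem _ ht
      (tens_mono le_rfl (h.le_KK hk hy.1) hu), (map_sub _ _ _).trans (sub_eq_zero.2 e.symm)⟩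
    have a2 : Th Sg k (φ (restr X.B y)) u = 0 := by
      refine tens_eqOn (g := 0) (fun v _ m hm => ?_) hu
      have : TensorProduct.map (φ (restr X.B y)) LinearMap.id m = 0 :=
        ((h.inf_ker q hk hy.1).ge hm).2
      simp [Th, this]
    rwa [map_sub, a2, sub_zero] at a1
  · have b3 : finrank ℂ (ZZ Sg b X (KK k) y) + 1 = finrank ℂ (ZZ Sg b X (KK' k) y) + _ :=
      h.rk_Z q hk hy.1 hy.2.1
    have b4 := hd.rk _ hy.2.1
    have b5 := finrank_tens ((U (restr X.B y)).map (φ (restr X.B y)))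
      (V := W'.V) (W := (A1A Sg k).V)
    simp only [h.rk_line q hy.1, one_mul] at b5
    refine (congrArg (_ + ·) (b5 _)).trans (Eq.trans ?_ (congrArg (· + _) (b5 _)).symm)
    exact Nat.add_right_cancel (m := 1 + finrank ℂ (mP Sg b (k + 1) p.1)) (by
      linear_combination b3 + b4)
/-- **the syzygy bundles of a colength one step** -/
theorem bcl_sub (h : Step Sg b X W U U' KK KK' e r p.1) {k : ℕ} (hk : e ≤ k)
    (hd : DltOK Sg b k p) : bcl Sg b X W KK e - bcl Sg b X W KK' e =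
      K.pull (Spc.fib_fst X _) (kc X W U - kc X W U') * K.pull (Spc.fib_snd X _)
        (lbK _ (-((k + 1 : ℕ) • eB b)) * Pcl Sg b k p.1) := by
  have hk1 : e ≤ k + 1 := by omega
  have e1 := congrArg (K.pull (Spc.fib_fst X (Sg.S b))) (h.kc_KK hk1)
  rw [map_sub, kc_pull (h.hK.ab _ hk1), kc_pull (h.hK'.ab _ hk1), map_mul, map_natCast] at e1
  have e2 := h.kc_ZZ hk hd
  rw [← h.hK.bcl_eq hk, ← h.hK'.bcl_eq hk, bcl, bcl, map_mul, K.pull_lbK _ (neg_mem (eB_S _)),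
    Pcl, map_sub (K.pull (Spc.fib_snd X (Sg.S b))), map_natCast]
  linear_combination lbK (X.fib (Sg.S b)) (-((k + 1 : ℕ) • eB b)) * (e1 - e2)
/-- the socle line `(V_p KK k ∩ KK' (k+1)) / V_p KK' k` in the fibre of `B'` is `U / U'`:
`V_p KK k → Λ ⊗ V_p 𝔪_k` is onto with kernel `V_p KK k ∩ KK' (k+1)`; restrict `kc_ZZ` to `p` -/
theorem socle (h : Step Sg b X W U U' KK KK' e r p.1) {k : ℕ} (hk : e ≤ k) (hd : DltOK Sg b k p) :
    (IsAB X (WA Sg W (k + 1)) fun x => mulS Sg (mP Sg b 1 p.1) (KK k x) ⊓ KK' (k + 1) x) ∧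
    (∀ x ∈ X.pts, finrank ℂ (mulS Sg (mP Sg b 1 p.1) (KK k x) ⊓ KK' (k + 1) x : Submodule ℂ _) =
      finrank ℂ (mulS Sg (mP Sg b 1 p.1) (KK' k x)) + 1) ∧
    kc X (WA Sg W (k + 1)) (fun x => mulS Sg (mP Sg b 1 p.1) (KK k x) ⊓ KK' (k + 1) x) -
      kc X (WA Sg W (k + 1)) (fun x => mulS Sg (mP Sg b 1 p.1) (KK' k x)) =
      kc X W U - kc X W U' := by
  obtain ⟨W', φ, q⟩ := h.exists_quo
  have hk1 : e ≤ k + 1 := by omega
  have hb := h.hK.nb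
  have z0 := h.hK.isAB_mulS hk p.2
  have hψ : IsRM X (WA Sg W (k + 1)) (WA Sg W' (k + 1))
      fun x => TensorProduct.map (φ x) LinearMap.id := q.rm.tensor IsRM.id
  have e1 : ∀ x ∈ X.pts, (mulS Sg (mP Sg b 1 p.1) (KK k x)).map
      (TensorProduct.map (φ x) LinearMap.id) = tens ((U x).map (φ x))
        ((tens (mP Sg b 1 p.1) (mP Sg b k p.1)).map (muA Sg k)) := fun x hx => by
    rw [map_mulS, h.map_KK q hk hx, mulS_tens]
  have e2 : ∀ x ∈ X.pts, mulS Sg (mP Sg b 1 p.1) (KK k x) ⊓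
      LinearMap.ker (TensorProduct.map (φ x) LinearMap.id) =
      mulS Sg (mP Sg b 1 p.1) (KK k x) ⊓ KK' (k + 1) x := fun x hx => by
    rw [← h.inf_ker q hk1 hx, ← inf_assoc, inf_eq_left.2 (h.hK.mulS_le hk hx _)]
  have hm := (q.ab.tens (isAB_triv _)).congr fun x hx => (e1 x hx).symm
  have two := hd.two
  refine ⟨(z0.ker_of_map hψ hm).congr e2, fun x hx => ?_, ?_⟩
  · have a1 := Alg.finrank_map_add_inf_ker (mulS Sg (mP Sg b 1 p.1) (KK k x))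
      (TensorProduct.map (φ x) LinearMap.id)
    rw [e1 x hx, e2 x hx, finrank_tens, h.rk_line q hx] at a1
    have a2 := h.rk_Z q hk hx p.2
    omega
  · have a1 := kc_map z0 hψ hm
    rw [kc_congr (V := WA Sg W (k + 1)) e2, kc_congr (V := WA Sg W' (k + 1)) e1,
      kc_tens q.ab (isAB_triv _), q.cls, kc_triv] at a1
    have hV := (isAB_mP Sg b 1).tens (isAB_triv (mP Sg b k p.1))
    have hW := (h.hK.ab _ hk1).hin
    have a2 := congrArg (K.atPt ((base_S Sg b).disj hb) (base_S Sg b).tt p.1 p.2) (h.kc_ZZ hk hd)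
    have k1 := kc_congr (X := X) (V := WA Sg W (k + 1)) fun x hx => ZZ_add (KK k) hb hx p.2
    have k2 := kc_congr (X := X) (V := WA Sg W (k + 1)) fun x hx => ZZ_add (KK' k) hb hx p.2
    have k3 := kc_congr (X := X) (V := A1A Sg k) fun x hx => congrArg
      (fun z => tens (mP Sg b 1 z) (mP Sg b k p.1)) (add_mem hb hx p.2).2.2
    have k4 := kc_congr (X := X) (V := A1A Sg k) fun x hx => congrArg (RR Sg b k p.1)
      (add_mem hb hx p.2).2.2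
    rw [map_sub, map_mul, K.atPt_pull_fst, map_sub (K.pull _), kc_pull hV, kc_pull hd.ab, map_sub,
      (atPt_kc (h.hK.isAB_ZZ hk) hW _ _ p.2).2, (atPt_kc (h.hK'.isAB_ZZ hk) hW _ _ p.2).2,
      (atPt_kc (hV.pull (Spc.fib_snd X _)) (A1A_in k _) _ _ p.2).2,
      (atPt_kc (hd.ab.pull (Spc.fib_snd X _)) (A1A_in k _) _ _ p.2).2,
      k1, k2, Surf.S_B, k3, k4, kc_const (A1A_in k _) (A1A_g k),
      kc_const (A1A_in k _) (A1A_g k)] at a2
    have a3 := congrArg (Nat.cast : ℕ → K X) (hd.rk p.1 p.2)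
    have a4 := congrArg (Nat.cast : ℕ → K X) two
    push_cast at a3 a4
    linear_combination a2 - a1 - (kc X W U - kc X W U') * (a3 + a4)
end Step

end Crest.Agent.N265.N
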