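import Crest.Agent.N265.N.Fw
import Crest.Agent.N265.N.Nest
import Crest.Agent.N265.M.Fix

/-!
# Row 265, layer N: universal pairs give the data `ND`; the class of a point
-/

set_option autoImplicit false
noncomputable section
open MvPolynomial Module TensorProduct

namespace Crest.Agent.N265.N
open Crest.Agent.R274
open Defs_781 Lat_781 SnapA_99 SnapB_99 SnapE_99 Gen7_750 Xs1_781 SkDefs_474
open Alg GV Br Fib M _root_.Crest.Agent.N265.Pow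
variable {Sg : Surf} {p : ℕ} {k : ℤ} {β : Sg.V.G} {n : ℕ} {X : Spc} {I : Pt → XL Sg Sg.F}

lemma rt_of_ifam (h : IFam X p β n k I) {x : Pt} (hx : x ∈ X.pts) : RT p β n (I x) :=
  ⟨h.le hx, h.ty x hx, h.fam.reg x hx⟩
lemma fam_of_ifam (h : IFam X p β n k I) (hX : 0 ∉ X.B) :
    (ad Sg p k).Fam X (TT Sg p k β n) fun x => (r1 Sg k).pc (I x) p :=
  ⟨hX, h.fam.ab p le_rfl, fun _ hx => ⟨_, rt_of_ifam h hx, rfl⟩⟩
lemma exists_ifam (hp : 2 ≤ p) {L : Pt → Submodule ℂ (ad Sg p k).W.V}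
    (h : (ad Sg p k).Fam X (TT Sg p k β n) L) :
    ∃ J, IFam X p β n k J ∧ ∀ x ∈ X.pts, L x = (r1 Sg k).pc (J x) p := by
  classical
  choose J h1 h2 using h.ty
  let J' : Pt → XL Sg Sg.F := fun x => if hx : x ∈ X.pts then J x hx else OX Sg.V.X
  have e : ∀ x (hx : x ∈ X.pts), J' x = J x hx := fun x hx => dif_pos hx
  have r : ∀ x ∈ X.pts, RT p β n (J' x) := fun x hx => e x hx ▸ h1 x hx
  have e' : ∀ x ∈ X.pts, L x = (r1 Sg k).pc (J' x) p := fun x hx => e x hx ▸ h2 x hx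
  exact ⟨J', ⟨LFam.of_one hp (fun x hx I hI => ((r x hx).le I hI).trans (r1_O k I hI).ge)
    (fun x hx => (r x hx).reg) ⟨_, _, fun x hx => (r x hx).ty.hp (r x hx).le⟩ le_rfl
    (h.ab.congr e'), fun x hx => (r x hx).ty⟩, e'⟩

variable {β₁ β₂ : Sg.V.G} {n₁ n₂ : ℕ} {k₁ k₂ : ℤ} {b b' : ℕ}
lemma uni_graph (u : Uni Sg p β₁ β₂ n₁ n₂ k₁ k₂ b) {Y : Spc} {J : Pt → XL Sg Sg.F}
    (hJ : IFam Y p β₂ n₂ k₂ J) (Z : Spc) (L : Pt → Submodule ℂ (ad Sg p k₁).W.V) (q : Proj Z Y)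
    (hb : b ∉ Z.B) (h : (ad Sg p k₁).Fam Z (TT Sg p k₁ β₁ n₁) L) :
    IsGraph Z u.F b fun z => (r1 Sg k₁).pc (u.I₁ (restr u.F.B z)) p = L (restr Z.B z) ∧
      EqL (u.I₂ (restr u.F.B z)) (J (restr Y.B z)) := by
  obtain ⟨J₁, h₁, e⟩ := exists_ifam u.f₁.fam.two h
  obtain ⟨P, A, y, hP, hA, hm⟩ := u.graph Z J₁ _ hb h₁ (hJ.pull q)
  refine ⟨P, A, y, hP, hA, fun z => (hm z).trans (and_congr_right fun hz => ?_)⟩
  beta_reduce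
  rw [restr_restr q.sub, e _ hz.1]
  exact and_congr_left' ⟨fun e => Amb.pc_congr (𝔞 := r1 Sg k₁) e p,
    (rt_of_ifam u.f₁ hz.2.1).eqL (rt_of_ifam h₁ hz.1)⟩
lemma uni_ts {u : Uni Sg p β₁ β₂ n₁ n₂ k₁ k₂ b} (h : u.Good) :
    (ad Sg p k₁).TS u.F fun x => (r1 Sg k₁).pc (u.I₁ x) p := fun x _ hφ =>
  (h.versal x.2 ((rt_of_ifam u.f₁ x.2).homP_iff.1 hφ) (zero_mem _)).imp fun _ h => ⟨h.1, h.2.1⟩
lemma uni_reg (u : Uni Sg p β₁ β₂ n₁ n₂ k₁ k₂ b) {x : Pt} (hx : x ∈ u.F.pts) (J : XL Sg Sg.F)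
    (h1 : LeL J (OX Sg.V.X)) (h2 : Ty J β₁ n₁) : RegL J.toLat p := by
  obtain ⟨y, hy, e, -⟩ := u.ex J _ h1 (u.f₂.le hx) h2 (u.f₂.ty x hx)
  exact (FC.of_eqv e).regL (u.f₁.fam.reg y hy)

/-- the data for the nested space -/
def nd {u : Uni Sg p β₁ β₂ n₁ n₂ k₁ k₂ b} {u' : Uni Sg p β₁ β₂ (n₁ + 1) n₂ k₁ k₂ b'} (h : u.Good)
    (h' : u'.Good) (hb : b ≠ b') {r : ℕ} (hr : r + 1 = Uni.rkU Sg p β₁ (n₁ + 1)) (z : (Sg.S 0).pts)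
    {j : ℕ} (hj : 2 ≤ j) (hd : DltOK Sg 0 (j + 1) z) : ND (ad Sg p k₁) where
  F := u.F
  F' := u'.F
  b := b
  b' := b'
  hB := u.B
  hB' := u'.B
  ne := hb
  T := TT Sg p k₁ β₁ n₁
  T' := TT Sg p k₁ β₁ (n₁ + 1)
  r := r
  h := hT Sg p β₁ n₁
  h' := hT Sg p β₁ (n₁ + 1)
  ok := stepOK u.f₁.fam.two hr (rt_of_ifam u'.f₁ h'.1.nonempty.choose_spec)
    (uni_reg u' h'.1.nonempty.choose_spec)
  U := fun x => (r1 Sg k₁).pc (u.I₁ x) p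
  U' := fun x => (r1 Sg k₁).pc (u'.I₁ x) p
  fam := fam_of_ifam u.f₁ u.nb
  fam' := fam_of_ifam u'.f₁ u'.nb
  n := u.dim
  n' := u'.dim
  sm := h.2
  sm' := h'.2
  ts := uni_ts h
  ts' := uni_ts h'
  E := fun x x' => EqL (u.I₂ x) (u'.I₂ x')
  gr := uni_graph u u'.f₂
  gr' := fun Z L q hb h => by
    obtain ⟨P, A, y, hP, hA, hm⟩ := uni_graph u' u.f₂ Z L q hb h
    exact ⟨P, A, y, hP, hA, fun z => (hm z).trans (and_congr_right' (and_congr_right'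
      ⟨Ser_781.Eqv.symm, Ser_781.Eqv.symm⟩))⟩
  z := z
  k := j
  hk := hj
  hd := hd

/-- `v = O(-p) [O_z]` -/
structure PtCl (Sg : Surf) (p : ℕ) (z : (Sg.S 0).pts) (j : ℕ) (v : K (Sg.S 0)) : Prop where
  hj : 2 ≤ j
  hd : DltOK Sg 0 (j + 1) z
  eq : v = lbK _ (-(p • eB 0)) * (1 - lbK _ (-((j + 1 + 1 : ℕ) • eB 0)) * Pcl Sg 0 (j + 1) z.1)
lemma exists_ptCl (Sg : Surf) (p : ℕ) (z : (Sg.S 0).pts) : ∃ j v, PtCl Sg p z j v := by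
  obtain ⟨k₀, h⟩ := exists_dltOK Sg 0 z
  exact ⟨k₀ + 2, _, by omega, h _ (by omega), rfl⟩
lemma eB_S (Sg : Surf) : eB 0 ∈ DS (Sg.S 0).B := eB_mem (Finset.mem_singleton_self 0)
namespace PtCl
variable {z : (Sg.S 0).pts} {j : ℕ} {v : K (Sg.S 0)}
theorem smul_one (h : PtCl Sg p z j v) :
    v • one (Sg.S 0) = Top.ptc _ (Sg.S_ttriv 0) z.1 z.2 := by
  obtain ⟨ρ, -, h0, -, e⟩ := h.hd.res
  rw [h.eq, ← e, mul_smul, ρ.cls_smul_one (base_S Sg 0) h0]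
  have h1 : lbK (Sg.S 0) (eB 0) • Top.ptc _ (Sg.S_ttriv 0) z.1 z.2 =
      Top.ptc _ (Sg.S_ttriv 0) z.1 z.2 := by
    have hs := Spc.orb_sub (Sg.S 0) _ (Sg.S_ttriv 0) z.1 z.2
    have := (Spc.orb_isPt (Sg.S 0) _ (Sg.S_ttriv 0) z.1 z.2).sh_block
      (Finset.mem_singleton_self 0) (one _)
    rw [zero_smul, add_zero] at this
    rw [lbK_smul (eB_S Sg), Top.ptc, ← incl_cl hs (GM.red_O _).on, ← incl_sh hs (eB_S Sg)]
    exact congrArg _ this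
  have h2 : ∀ m : ℕ, lbK (Sg.S 0) (m • eB 0) • Top.ptc _ (Sg.S_ttriv 0) z.1 z.2 =
      Top.ptc _ (Sg.S_ttriv 0) z.1 z.2 := fun m => by
    induction m with
    | zero => rw [zero_smul, lbK_zero, one_smul]
    | succ m ih => rw [succ_nsmul, lbK_add, mul_smul, h1, ih]
  conv_lhs => rw [← h2 p, ← mul_smul, mul_comm, lbK_mul_neg, one_smul]
variable (hX : 0 ∉ X.B)
theorem piK_mul (h : PtCl Sg p z j v) (u : K (X.fib (Sg.S 0))) :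
    piK X _ 0 (u * K.pull (Spc.fib_snd X _) v) =
      K.atPt ((base_S Sg 0).disj hX) (Sg.S_ttriv 0) z.1 z.2 u := by
  obtain ⟨ρ, -, -, -, e⟩ := h.hd.res
  rw [h.eq, ← e, map_mul (K.pull _), ← mul_assoc, ρ.piK_mul_cls (base_S Sg 0) hX, map_mul,
    K.pull_lbK _ (neg_mem (nsmul_mem (eB_S Sg) _)), K.atPt_lbK, Sg1.lbK_eB hX, mul_one]
theorem piK_mul_dual (h : PtCl Sg p z j v) (u : K (X.fib (Sg.S 0))) :
    piK X _ 0 (u * K.dual _ (K.pull (Spc.fib_snd X _) v)) =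
      K.atPt ((base_S Sg 0).disj hX) (Sg.S_ttriv 0) z.1 z.2 u := by
  obtain ⟨ρ, ρ', -, e', e⟩ := h.hd.res
  rw [h.eq, ← e, map_mul (K.pull _), map_mul (K.dual _), ← mul_assoc, ← K.pull_dual _ ρ.cls, ← e',
    ρ'.piK_mul_cls (base_S Sg 0) hX, map_mul, K.atPt_dual,
    K.pull_lbK _ (neg_mem (nsmul_mem (eB_S Sg) _)), K.atPt_lbK, Sg1.lbK_eB hX, map_one, mul_one]
theorem atPt_eq (h : PtCl Sg p z j v) :
    K.atPt ((base_S Sg 0).disj hX) (Sg.S_ttriv 0) z.1 z.2 (K.pull (Spc.fib_snd X _) v) = 0 := by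
  obtain ⟨ρ, -, -, -, e⟩ := h.hd.res
  rw [h.eq, ← e, map_mul, map_mul, ρ.atPt_cls (base_S Sg 0) hX, mul_zero]
end PtCl

end Crest.Agent.N265.N
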